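import Vale.Agent.P179.Tw.PTriv2

/-! Ito's theorem: the degree of an irreducible character divides the index of a normal abelian
subgroup; characters of defect zero and normal p-subgroups. -/

namespace Vale.Agent.P179

open Subgroup Representation Module

universe u v

section Ito

variable {Γ : Type*} [Group Γ] {V : Type*} [AddCommGroup V] [Module ℂ V]

/-- Combinations of the operators of a finite group with integral coefficients have integral
eigenvalues. -/
theorem isIntegral_eigen' [Finite Γ] (ξ : Representation ℂ Γ V) {ι : Type*} (s : Finset ι)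
    (c : ι → ℂ) (hc : ∀ i ∈ s, IsIntegral ℤ (c i)) (γ : ι → Γ) {u : V} (hu : u ≠ 0) {μ : ℂ}
    (h : ∑ i ∈ s, c i • ξ (γ i) u = μ • u) : IsIntegral ℤ μ := by
  classical
  let O := integralClosure ℤ ℂ
  let a : MonoidAlgebra O Γ := ∑ i ∈ s, MonoidAlgebra.single (γ i)
    (if hi : IsIntegral ℤ (c i) then (⟨c i, hi⟩ : O) else 0)
  let φ : MonoidAlgebra O Γ →ₐ[O] End ℂ V := MonoidAlgebra.lift O (End ℂ V) Γ (ξ : Γ →* End ℂ V)
  have hφ : (φ a) u = μ • u := by
    rw [← h]
    simp only [a, map_sum, LinearMap.sum_apply]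
    refine Finset.sum_congr rfl fun i hi => ?_
    rw [dif_pos (hc i hi)]
    simp only [φ, MonoidAlgebra.lift_single]
    rfl
  have hint : IsIntegral O (φ a) := (IsIntegral.of_finite O a).map φ
  obtain ⟨f, hf, hf0⟩ := hint
  have hv : Module.End.HasEigenvector (φ a) μ u := ⟨Module.End.mem_eigenspace_iff.2 hφ, hu⟩
  have h1 := Module.End.aeval_apply_of_hasEigenvector (p := f.map (algebraMap O ℂ)) hv
  have h2 : Polynomial.aeval (φ a) (f.map (algebraMap O ℂ)) = 0 := by
    rw [Polynomial.aeval_map_algebraMap ℂ _ f, Polynomial.aeval_def]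
    exact hf0
  rw [h2, LinearMap.zero_apply] at h1
  rcases smul_eq_zero.1 h1.symm with h3 | h3
  · rw [Polynomial.eval_map] at h3
    have h4 : IsIntegral O μ := ⟨f, hf, h3⟩
    exact isIntegral_trans (R := ℤ) (A := O) μ h4
  · exact absurd h3 hu

/-- Sums of functions constant on the right cosets of A. -/
theorem sum_cosets [Fintype Γ] (A : Subgroup Γ) [Fintype (Γ ⧸ A)] {E : Type*} [AddCommGroup E]
    [Module ℂ E] (h : Γ → E) (hh : ∀ γ, ∀ a ∈ A, h (γ * a) = h γ) :
    ∑ γ, h γ = (Nat.card A : ℂ) • ∑ q : Γ ⧸ A, h q.out := by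
  classical
  rw [Finset.smul_sum, ← Finset.sum_fiberwise (s := Finset.univ)
    (g := (QuotientGroup.mk : Γ → Γ ⧸ A)) (f := h)]
  refine Finset.sum_congr rfl fun q _ => ?_
  have hval : ∀ x ∈ Finset.univ.filter (fun x => (QuotientGroup.mk x : Γ ⧸ A) = q),
      h x = h q.out := by
    intro x hx
    have hx' : (QuotientGroup.mk x : Γ ⧸ A) = q := (Finset.mem_filter.1 hx).2
    have h1 : (QuotientGroup.mk q.out : Γ ⧸ A) = QuotientGroup.mk x := by
      rw [hx', QuotientGroup.out_eq']
    have h2 := QuotientGroup.eq.1 h1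
    have h3 := hh q.out _ h2
    rw [mul_inv_cancel_left] at h3
    exact h3
  rw [Finset.sum_congr rfl hval, Finset.sum_const, ← Nat.cast_smul_eq_nsmul ℂ]
  congr 2
  rw [← Fintype.card_subtype, ← Nat.card_eq_fintype_card]
  refine Nat.card_congr
    { toFun := fun x => ⟨q.out⁻¹ * x.1, QuotientGroup.eq.1 (by
        rw [QuotientGroup.out_eq']
        exact x.2.symm)⟩
      invFun := fun a => ⟨q.out * a.1, by
        rw [QuotientGroup.mk_mul_of_mem _ a.2, QuotientGroup.out_eq']⟩
      left_inv := fun x => by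
        apply Subtype.ext
        simp
      right_inv := fun a => by
        apply Subtype.ext
        simp }

/-- Ito's theorem. -/
theorem ito [Finite Γ] (ψ : Representation ℂ Γ V) [h : ψ.IsIrreducible] [FiniteDimensional ℂ V]
    (A : Subgroup Γ) [hAn : A.Normal] (hA : ∀ a ∈ A, ∀ b ∈ A, a * b = b * a) :
    finrank ℂ V * Nat.card A ∣ Nat.card Γ := by
  classical
  have := Fintype.ofFinite Γ
  have := Fintype.ofFinite A
  have := Fintype.ofFinite (Γ ⧸ A)
  have hV := irr_nontrivial ψ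
  -- a common eigenvector of A
  obtain ⟨lam, u, hu, hlu⟩ : ∃ (lam : A → ℂ) (u : V), u ≠ 0 ∧ ∀ a : A, ψ (a : Γ) u = lam a • u := by
    let ψA : Representation ℂ A V := ψ.comp A.subtype
    obtain ⟨W, -, hW⟩ := exists_irr_sub ψA ⊤ top_ne_bot (fun _ _ _ => trivial)
    have hWn := irr_nontrivial W.toRepresentation
    obtain ⟨w, hw⟩ := exists_ne (0 : W.toSubmodule)
    have hs : ∀ a : A, ∃ c : ℂ, ∀ v, W.toRepresentation a v = c • v := fun a =>
      schur_scalar W.toRepresentation (W.toRepresentation a) (fun g v => by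
        rw [← Module.End.mul_apply, ← map_mul, ← Module.End.mul_apply, ← map_mul]
        have : a * g = g * a := Subtype.ext (hA a a.2 g g.2)
        rw [this])
    choose lam hlam using hs
    exact ⟨lam, w, fun h => hw (Subtype.ext h), fun a => congrArg Subtype.val (hlam a w)⟩
  have hl1 : lam 1 = 1 := by
    have h1 := hlu 1
    rw [OneMemClass.coe_one, map_one, Module.End.one_apply] at h1
    by_contra hne
    have h2 : (lam 1 - 1) • u = 0 := by rw [sub_smul, ← h1, one_smul, sub_self]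
    rcases smul_eq_zero.1 h2 with h3 | h3
    · exact hne (sub_eq_zero.1 h3)
    · exact hu h3
  have hlm : ∀ a b : A, lam (a * b) = lam a * lam b := by
    intro a b
    have h1 := hlu (a * b)
    rw [Subgroup.coe_mul, map_mul, Module.End.mul_apply, hlu b, map_smul, hlu a, smul_smul] at h1
    by_contra hne
    have h2 : (lam (a * b) - lam a * lam b) • u = 0 := by
      rw [sub_smul, ← h1, mul_comm (lam b), sub_self]
    rcases smul_eq_zero.1 h2 with h3 | h3
    · exact hne (sub_eq_zero.1 h3)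
    · exact hu h3
  have hc : (Nat.card A : ℂ) ≠ 0 := by exact_mod_cast Nat.card_pos.ne'
  have hli : ∀ a : A, lam a * lam a⁻¹ = 1 := fun a => by rw [← hlm, mul_inv_cancel, hl1]
  let S₀ : End ℂ V := ∑ a : A, lam a⁻¹ • ψ (a : Γ)
  have hSl : ∀ b : A, ψ (b : Γ) * S₀ = lam b • S₀ := by
    intro b
    have h1 := Equiv.sum_comp (Equiv.mulLeft b) (fun a : A => lam b • lam a⁻¹ • ψ (a : Γ))
    simp only [S₀]
    rw [Finset.smul_sum, ← h1, Finset.mul_sum]
    refine Finset.sum_congr rfl fun a _ => ?_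
    rw [mul_smul_comm, ← map_mul, smul_smul]
    simp only [Equiv.coe_mulLeft, Subgroup.coe_mul]
    congr 1
    rw [mul_inv_rev, hlm, mul_left_comm, hli, mul_one]
  have hSr : ∀ b : A, S₀ * ψ (b : Γ) = lam b • S₀ := by
    intro b
    have h1 := Equiv.sum_comp (Equiv.mulRight b) (fun a : A => lam b • lam a⁻¹ • ψ (a : Γ))
    simp only [S₀]
    rw [Finset.smul_sum, ← h1, Finset.sum_mul]
    refine Finset.sum_congr rfl fun a _ => ?_
    rw [smul_mul_assoc, ← map_mul, smul_smul]
    simp only [Equiv.coe_mulRight, Subgroup.coe_mul]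
    congr 1
    rw [mul_inv_rev, hlm, ← mul_assoc, hli, one_mul]
  have hSu : S₀ u = (Nat.card A : ℂ) • u := by
    simp only [S₀, LinearMap.sum_apply, LinearMap.smul_apply]
    rw [Finset.sum_congr rfl (g := fun _ => u) (fun a _ => by
      rw [hlu, smul_smul, mul_comm, hli, one_smul])]
    rw [Finset.sum_const, ← Nat.cast_smul_eq_nsmul ℂ, Finset.card_univ, Nat.card_eq_fintype_card]
  have hSS : S₀ * S₀ = (Nat.card A : ℂ) • S₀ := by
    have h1 : S₀ * S₀ = ∑ a : A, lam a⁻¹ • (ψ (a : Γ) * S₀) := by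
      conv_lhs => enter [1]; simp only [S₀]
      rw [Finset.sum_mul]
      exact Finset.sum_congr rfl fun a _ => smul_mul_assoc _ _ _
    rw [h1, Finset.sum_congr rfl (g := fun _ => S₀) (fun a _ => by
      rw [hSl, smul_smul, mul_comm, hli, one_smul])]
    rw [Finset.sum_const, ← Nat.cast_smul_eq_nsmul ℂ, Finset.card_univ, Nat.card_eq_fintype_card]
  let P : End ℂ V := (Nat.card A : ℂ)⁻¹ • S₀
  have hPl : ∀ b : A, ψ (b : Γ) * P = lam b • P := by
    intro b
    simp only [P]
    rw [mul_smul_comm, hSl, smul_comm]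
  have hPr : ∀ b : A, P * ψ (b : Γ) = lam b • P := by
    intro b
    simp only [P]
    rw [smul_mul_assoc, hSr, smul_comm]
  have hPP : P * P = P := by
    simp only [P]
    rw [smul_mul_smul_comm, hSS, smul_smul, mul_assoc, inv_mul_cancel₀ hc, mul_one]
  have hdich : ∀ g : Γ, P * (ψ g * P * ψ g⁻¹) = 0 ∨ ψ g * P * ψ g⁻¹ = P := by
    intro g
    have hconj : ∀ a : A, g⁻¹ * (a : Γ) * g ∈ A := fun a => by
      have := hAn.conj_mem a a.2 g⁻¹
      simpa using this
    by_cases hall : ∀ a : A, lam ⟨g⁻¹ * (a : Γ) * g, hconj a⟩ = lam a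
    · right
      have h1 : ψ g * S₀ * ψ g⁻¹ = S₀ := by
        have h2 := Equiv.sum_comp (MulAut.conjNormal (H := A) g).toEquiv
          (fun a : A => lam a⁻¹ • ψ (a : Γ))
        conv_rhs => simp only [S₀]
        rw [← h2]
        simp only [S₀]
        rw [Finset.mul_sum, Finset.sum_mul]
        refine Finset.sum_congr rfl fun a _ => ?_
        rw [mul_smul_comm, smul_mul_assoc, ← map_mul, ← map_mul]
        have h3 := hall ((MulAut.conjNormal (H := A) g).toEquiv a)⁻¹
        rw [← h3]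
        congr 2
        apply Subtype.ext
        simp [mul_assoc]
      simp only [P]
      rw [mul_smul_comm, smul_mul_assoc, h1]
    · left
      push Not at hall
      obtain ⟨a, ha⟩ := hall
      have h1 : ψ (a : Γ) * (ψ g * P * ψ g⁻¹) =
          lam ⟨g⁻¹ * (a : Γ) * g, hconj a⟩ • (ψ g * P * ψ g⁻¹) := by
        have h2 : ψ (a : Γ) * ψ g = ψ g * ψ (g⁻¹ * (a : Γ) * g) := by
          rw [← map_mul, ← map_mul]
          congr 1
          group
        have h3 := hPl ⟨g⁻¹ * (a : Γ) * g, hconj a⟩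
        calc ψ (a : Γ) * (ψ g * P * ψ g⁻¹) = (ψ (a : Γ) * ψ g) * P * ψ g⁻¹ := by
              simp only [mul_assoc]
          _ = ψ g * (ψ (g⁻¹ * (a : Γ) * g) * P) * ψ g⁻¹ := by rw [h2]; simp only [mul_assoc]
          _ = _ := by
            rw [show ψ (g⁻¹ * (a : Γ) * g) * P = _ from h3, mul_smul_comm, smul_mul_assoc]
      have h4 : lam a • (P * (ψ g * P * ψ g⁻¹)) =
          lam ⟨g⁻¹ * (a : Γ) * g, hconj a⟩ • (P * (ψ g * P * ψ g⁻¹)) := by
        rw [← smul_mul_assoc, ← hPr, mul_assoc, h1, mul_smul_comm]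
      have h5 : (lam ⟨g⁻¹ * (a : Γ) * g, hconj a⟩ - lam a) • (P * (ψ g * P * ψ g⁻¹)) = 0 := by
        rw [sub_smul, h4, sub_self]
      rcases smul_eq_zero.1 h5 with h6 | h6
      · exact absurd (sub_eq_zero.1 h6) ha
      · exact h6
  have htrint : ∀ g : Γ, IsIntegral ℤ (LinearMap.trace ℂ V (P * ψ g)) := by
    intro g
    have h1 : LinearMap.trace ℂ V (P * ψ g) =
        LinearMap.trace ℂ V (P * (ψ g * P * ψ g⁻¹) * ψ g) := by
      have h2 : P * (ψ g * P * ψ g⁻¹) * ψ g = (P * ψ g) * P := by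
        have : ψ g⁻¹ * ψ g = 1 := by rw [← map_mul, inv_mul_cancel, map_one]
        calc P * (ψ g * P * ψ g⁻¹) * ψ g = P * ψ g * P * (ψ g⁻¹ * ψ g) := by
              simp only [mul_assoc]
          _ = _ := by rw [this, mul_one]
      rw [h2, LinearMap.trace_mul_comm ℂ (P * ψ g) P, ← mul_assoc, hPP]
    rcases hdich g with h2 | h2
    · rw [h1, h2, zero_mul, map_zero]
      exact isIntegral_zero
    · have hgP : ψ g * P = P * ψ g := by
        have : ψ g⁻¹ * ψ g = 1 := by rw [← map_mul, inv_mul_cancel, map_one]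
        calc ψ g * P = ψ g * P * (ψ g⁻¹ * ψ g) := by rw [this, mul_one]
          _ = (ψ g * P * ψ g⁻¹) * ψ g := by simp only [mul_assoc]
          _ = _ := by rw [h2]
      have hcm : Commute P (ψ g) := hgP.symm
      have hPm : ∀ m : ℕ, 0 < m → P ^ m = P := by
        intro m hm
        induction m, hm using Nat.le_induction with
        | base => simp
        | succ m _ ih => rw [pow_succ, ih, hPP]
      have ho : 0 < orderOf g := orderOf_pos g
      have hpow : (P * ψ g) ^ orderOf g = P := by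
        rw [hcm.mul_pow, hPm _ ho, ← map_pow, pow_orderOf_eq_one, map_one, mul_one]
      have hpow2 : (P * ψ g) ^ (orderOf g + orderOf g) = (P * ψ g) ^ orderOf g := by
        rw [pow_add, hpow, hPP]
      rw [Module.End.trace_eq_sum_roots_charpoly_of_splits (IsAlgClosed.splits _)]
      apply Multiset.sum_induction _ _ (fun a b ha hb => ha.add hb) isIntegral_zero
      intro μ hμ
      rw [Polynomial.mem_roots (LinearMap.charpoly_monic _).ne_zero,
        ← Module.End.hasEigenvalue_iff_isRoot_charpoly] at hμ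
      obtain ⟨v, hv⟩ := hμ.exists_hasEigenvector
      have h3 := hv.pow_apply (orderOf g + orderOf g)
      rw [hpow2, hv.pow_apply] at h3
      have h4 : μ ^ (orderOf g + orderOf g) - μ ^ orderOf g = 0 := by
        by_contra hne
        have h5 : (μ ^ (orderOf g + orderOf g) - μ ^ orderOf g) • v = 0 := by
          rw [sub_smul, ← h3, sub_self]
        rcases smul_eq_zero.1 h5 with h6 | h6
        · exact hne h6
        · exact hv.2 h6
      by_cases hμ0 : μ = 0
      · rw [hμ0]
        exact isIntegral_zero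
      · have h7 : μ ^ orderOf g = 1 := by
          have h8 : μ ^ orderOf g * (μ ^ orderOf g - 1) = 0 := by
            rw [mul_sub, mul_one, ← pow_add, h4]
          rcases mul_eq_zero.1 h8 with h9 | h9
          · exact absurd h9 (pow_ne_zero _ hμ0)
          · exact sub_eq_zero.1 h9
        refine ⟨Polynomial.X ^ orderOf g - 1, ?_, ?_⟩
        · exact Polynomial.monic_X_pow_sub_C 1 (orderOf_pos g).ne'
        · simp [h7]
  -- the operator Σ χ(γ⁻¹) ψ(γ)
  have hd : (finrank ℂ V : ℂ) ≠ 0 := by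
    exact_mod_cast (Module.finrank_pos (R := ℂ) (M := V)).ne'
  have hcΓ : (Nat.card Γ : ℂ) ≠ 0 := by
    exact_mod_cast Nat.card_pos.ne'
  let f : End ℂ V := ∑ γ : Γ, ψ.character γ⁻¹ • ψ γ
  have hfa : ∀ v, f v = ∑ γ : Γ, ψ.character γ⁻¹ • ψ γ v := fun v => by
    simp only [f, LinearMap.sum_apply, LinearMap.smul_apply]
  have hcomm : ∀ g v, f (ψ g v) = ψ g (f v) := by
    intro g v
    rw [hfa, hfa, map_sum, ← Equiv.sum_comp (MulAut.conj g).toEquiv]
    refine Finset.sum_congr rfl fun x _ => ?_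
    have h1 : (MulAut.conj g).toEquiv x = g * x * g⁻¹ := rfl
    have h2 : (g * x * g⁻¹)⁻¹ = g * x⁻¹ * g⁻¹ := by group
    rw [h1, h2, char_conj, map_smul, ← Module.End.mul_apply, ← map_mul, ← Module.End.mul_apply,
      ← map_mul]
    congr 3
    group
  obtain ⟨c, hcf⟩ := schur_scalar ψ f hcomm
  have hfc : f = algebraMap ℂ (End ℂ V) c := by
    ext v
    rw [hcf, Module.algebraMap_end_apply]
  have hcd : c = Nat.card Γ / finrank ℂ V := by
    have : Invertible (Nat.card Γ : ℂ) := invertibleOfNonzero hcΓ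
    have h1 := char_orthonormal ψ ψ
    rw [if_pos ⟨Representation.Equiv.refl ψ⟩, inv_mul_eq_iff_eq_mul₀ hcΓ, mul_one] at h1
    have h2 : LinearMap.trace ℂ V f = Nat.card Γ := by
      rw [← h1]
      simp only [f, map_sum, map_smul, smul_eq_mul]
      exact Finset.sum_congr rfl fun x _ => mul_comm _ _
    rw [hfc, Algebra.algebraMap_eq_smul_one, map_smul, LinearMap.trace_one, smul_eq_mul] at h2
    rw [eq_div_iff hd, h2]
  let t : Γ → ℂ := fun γ => LinearMap.trace ℂ V (P * ψ γ⁻¹)
  have ht : ∀ γ, t γ = (Nat.card A : ℂ)⁻¹ * ∑ a : A, lam a⁻¹ * ψ.character ((a : Γ) * γ⁻¹) := by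
    intro γ
    simp only [t, P, S₀]
    rw [smul_mul_assoc, map_smul, smul_eq_mul, Finset.sum_mul, map_sum]
    congr 1
    refine Finset.sum_congr rfl fun a _ => ?_
    rw [smul_mul_assoc, map_smul, smul_eq_mul, ← map_mul]
    rfl
  have hh : ∀ γ, ∀ a ∈ A, t (γ * a) • ψ (γ * a) u = t γ • ψ γ u := by
    intro γ a ha
    have h1 : t (γ * a) = lam (⟨a, ha⟩ : A)⁻¹ * t γ := by
      simp only [t]
      have h0 : ψ (γ * a)⁻¹ = ψ a⁻¹ * ψ γ⁻¹ := by rw [mul_inv_rev, map_mul]
      rw [h0, ← mul_assoc]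
      have h2 := hPr (⟨a, ha⟩ : A)⁻¹
      have h3 : (((⟨a, ha⟩ : A)⁻¹ : A) : Γ) = a⁻¹ := rfl
      rw [h3] at h2
      rw [h2, smul_mul_assoc, map_smul, smul_eq_mul]
    have h2 : ψ (γ * a) u = lam ⟨a, ha⟩ • ψ γ u := by
      rw [map_mul, Module.End.mul_apply, hlu ⟨a, ha⟩, map_smul]
    rw [h1, h2, smul_smul]
    congr 1
    calc lam (⟨a, ha⟩ : A)⁻¹ * t γ * lam ⟨a, ha⟩ = t γ * (lam ⟨a, ha⟩ * lam (⟨a, ha⟩ : A)⁻¹) := by
          ring
      _ = t γ := by rw [hli, mul_one]
  have hfu : f u = ∑ γ, t γ • ψ γ u := by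
    have h1 : ∀ a : A, ∑ γ, (lam a⁻¹ * ψ.character ((a : Γ) * γ⁻¹)) • ψ γ u = f u := by
      intro a
      rw [hfa, ← Equiv.sum_comp (Equiv.mulRight (a : Γ))]
      refine Finset.sum_congr rfl fun γ _ => ?_
      rw [Equiv.coe_mulRight, mul_inv_rev, mul_inv_cancel_left, map_mul, Module.End.mul_apply,
        hlu, map_smul, smul_smul]
      congr 1
      calc lam a⁻¹ * ψ.character γ⁻¹ * lam a = ψ.character γ⁻¹ * (lam a * lam a⁻¹) := by ring
        _ = _ := by rw [hli, mul_one]
    have h2 : ∑ γ, t γ • ψ γ u = (Nat.card A : ℂ)⁻¹ •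
        ∑ a : A, ∑ γ, (lam a⁻¹ * ψ.character ((a : Γ) * γ⁻¹)) • ψ γ u := by
      rw [Finset.sum_comm, Finset.smul_sum]
      refine Finset.sum_congr rfl fun γ _ => ?_
      rw [ht, mul_smul, Finset.sum_smul]
    rw [h2, Finset.sum_congr rfl (fun a _ => h1 a), Finset.sum_const,
      ← Nat.cast_smul_eq_nsmul ℂ, Finset.card_univ, smul_smul, Nat.card_eq_fintype_card,
      inv_mul_cancel₀ (by rw [← Nat.card_eq_fintype_card]; exact hc), one_smul]
  have hfin : ∑ q : Γ ⧸ A, t q.out • ψ q.out u =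
      ((Nat.card Γ : ℂ) / ((finrank ℂ V * Nat.card A : ℕ) : ℂ)) • u := by
    have h1 := sum_cosets A (fun γ => t γ • ψ γ u) hh
    rw [← hfu, hcf, hcd] at h1
    rw [Nat.cast_mul, ← div_div, div_eq_inv_mul (_ / _), mul_smul, h1, smul_smul,
      inv_mul_cancel₀ hc, one_smul]
  have hint := isIntegral_eigen' ψ Finset.univ (fun q : Γ ⧸ A => t q.out)
    (fun q _ => htrint _) (fun q : Γ ⧸ A => q.out) hu hfin
  refine dvd_of_isIntegral_div ?_ hint
  exact Nat.mul_ne_zero (Module.finrank_pos (R := ℂ) (M := V)).ne' Nat.card_pos.ne'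

/-- A group with a character of defect zero has no nontrivial normal p-subgroup. -/
theorem eq_bot_of_defect_zero {p : ℕ} [Fact p.Prime] [Finite Γ] (ψ : Representation ℂ Γ V)
    [h : ψ.IsIrreducible] [FiniteDimensional ℂ V]
    (hd : (finrank ℂ V).factorization p = (Nat.card Γ).factorization p) (R : Subgroup Γ)
    [R.Normal] (hR : IsPGroup p R) : R = ⊥ := by
  classical
  have hpp : p.Prime := Fact.out
  by_contra hne
  have hV := irr_nontrivial ψ
  have : Nontrivial R := (nontrivial_iff_ne_bot R).2 hne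
  have hcn : Nontrivial (center R) := hR.center_nontrivial
  let A : Subgroup Γ := (center R).map R.subtype
  have hAcard : Nat.card A = Nat.card (center R) :=
    (Nat.card_congr ((center R).equivMapOfInjective _ R.subtype_injective).toEquiv).symm
  have hAn : A.Normal := ConjAct.normal_of_characteristic_of_normal
  have h1 := ito ψ A (by
    rintro _ ⟨a, ha, rfl⟩ _ ⟨b, hb, rfl⟩
    exact congrArg Subtype.val ((mem_center_iff.1 hb a)))
  have h2 := (Nat.factorization_le_iff_dvd (Nat.mul_ne_zero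
    (Module.finrank_pos (R := ℂ) (M := V)).ne' Nat.card_pos.ne') Nat.card_pos.ne').2 h1 p
  rw [Nat.factorization_mul (Module.finrank_pos (R := ℂ) (M := V)).ne' Nat.card_pos.ne',
    Finsupp.add_apply, ← hd] at h2
  have h3 : (Nat.card A).factorization p = 0 := by omega
  have h4 : p ∣ Nat.card A := by
    rw [hAcard]
    obtain ⟨m, hm⟩ := IsPGroup.iff_card.1 (hR.to_subgroup (center R))
    rw [hm]
    refine dvd_pow_self p ?_
    rintro rfl
    rw [pow_zero] at hm
    exact absurd hm (Finite.one_lt_card (α := center R)).ne'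
  exact absurd (hpp.factorization_pos_of_dvd Nat.card_pos.ne' h4) (by omega)

end Ito

end Vale.Agent.P179
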