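import Vale.Agent.P179.Tw.Twist

/-! Blocks containing an ordinary character that is trivial on all p-elements. -/

namespace Vale.Agent.P179

open Subgroup Representation Module

universe u v

/-- The subgroup generated by the p-elements. -/
def Op (p : ℕ) (G : Type u) [Group G] : Subgroup G :=
  Subgroup.closure {g : G | ∃ j : ℕ, g ^ p ^ j = 1}

instance Op_normal (p : ℕ) (G : Type u) [Group G] : (Op p G).Normal := by
  constructor
  intro n hn g
  have h : Op p G ≤ (Op p G).comap (MulAut.conj g).toMonoidHom := by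
    unfold Op
    rw [Subgroup.closure_le]
    rintro x ⟨j, hj⟩
    change g * x * g⁻¹ ∈ Subgroup.closure _
    refine Subgroup.subset_closure ⟨j, ?_⟩
    rw [conj_pow, hj, mul_one, mul_inv_cancel]
  exact h hn

/-- The irreducible character f of G lies in the block B. -/
def InBlock {k : Type v} [Field k] (rho : integralClosure ℤ ℂ →+* k) {G : Type u} [Group G]
    (B : MonoidAlgebra k G) (f : G → ℂ) : Prop :=
  ∀ m : SimpleIn B, ∀ z ∈ Set.center (MonoidAlgebra k G), ∀ x : MonoidAlgebra k G ⧸ m.1,
    z • x = algebraMap k (MonoidAlgebra k G) (blockChar rho f z) • x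

section A

variable {k : Type v} [Field k] {G : Type u} [Group G]

theorem exists_simpleIn [Finite G] {B : MonoidAlgebra k G} (hB : IsBlock k G B) :
    Nonempty (SimpleIn B) := by
  classical
  by_contra hcon
  rw [not_nonempty_iff] at hcon
  have hart : IsArtinianRing (MonoidAlgebra k G) := isArtinian_of_tower k inferInstance
  obtain ⟨n, hn⟩ := IsArtinianRing.isNilpotent_jacobson_bot (R := MonoidAlgebra k G)
  have hmem : B ∈ Ideal.jacobson (⊥ : Ideal (MonoidAlgebra k G)) := by
    rw [Ideal.jacobson, Submodule.mem_sInf]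
    rintro m ⟨-, hm⟩
    have hs := isSimple_of_maximal hm
    rcases central_zero_or_injective (M := MonoidAlgebra k G ⧸ m) hB.1 with h | h
    · have h2 := h (Submodule.Quotient.mk 1)
      rw [← Submodule.Quotient.mk_smul, smul_eq_mul, mul_one, Submodule.Quotient.mk_eq_zero] at h2
      exact h2
    · exfalso
      have h2 : ∀ x : MonoidAlgebra k G ⧸ m, B • x = x := by
        intro x
        apply sub_eq_zero.1
        apply h
        rw [smul_sub, smul_smul, hB.2.2.1, sub_self]
      exact hcon.false ⟨m, hm, h2⟩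
  have h1 := Ideal.pow_mem_pow hmem n
  rw [hn] at h1
  have hBp : ∀ i : ℕ, B ^ (i + 1) = B := by
    intro i
    induction i with
    | zero => simp
    | succ i ih => rw [pow_succ, ih, hB.2.2.1]
  have h2 : B ^ n = 0 := by simpa using h1
  have h3 : B = 0 := by
    rw [← hBp n, pow_succ, h2, zero_mul]
  exact hB.2.1 h3

/-- The central character of the character of a block takes the value one at the block. -/
theorem blockChar_block [Finite G] {rho : integralClosure ℤ ℂ →+* k} {B : MonoidAlgebra k G}
    (hB : IsBlock k G B) {f : G → ℂ} (hf : InBlock rho B f) : blockChar rho f B = 1 := by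
  obtain ⟨m⟩ := exists_simpleIn hB
  have h1 := hf m B hB.1 (Submodule.Quotient.mk 1)
  rw [m.2.2, ← Submodule.Quotient.mk_smul, Submodule.Quotient.eq, smul_eq_mul, mul_one] at h1
  by_contra hne
  have h2 : algebraMap k (MonoidAlgebra k G) (1 - blockChar rho f B) ∈ m.1 := by
    rw [map_sub, map_one]
    exact h1
  have h3 : (1 - blockChar rho f B) ≠ 0 := sub_ne_zero.2 (Ne.symm hne)
  have h4 := m.1.mul_mem_left (algebraMap k (MonoidAlgebra k G) (1 - blockChar rho f B)⁻¹) h2
  rw [← map_mul, inv_mul_cancel₀ h3, map_one] at h4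
  exact m.2.1.ne_top ((Ideal.eq_top_iff_one _).2 h4)

theorem natCast_mul_blockChar [Finite G] [Fintype G] {rho : integralClosure ℤ ℂ →+* k} {n : ℕ}
    {σ : Representation ℂ G (Fin n → ℂ)} (hσ : σ.IsIrreducible) {z : MonoidAlgebra k G}
    (hz : z ∈ Set.center (MonoidAlgebra k G)) :
    (n : k) * blockChar rho σ.character z = ∑ x, z.coeff x * red rho (σ.character x) := by
  classical
  have : Fintype (ConjClasses G) := Fintype.ofFinite _
  have hirr : IsIrrChar G σ.character := ⟨n, σ, hσ, rfl⟩
  have hn : σ.character 1 = n := by rw [Representation.char_one]; simp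
  have hn0 : (n : ℂ) ≠ 0 := by
    rw [← hn]
    exact irr_one_ne_zero hirr
  rw [blockChar_eq_sum, Finset.mul_sum, sum_classes (fun x => z.coeff x * red rho (σ.character x))
    (fun g x => by rw [coeff_conj hz, Representation.char_conj])]
  refine Finset.sum_congr rfl fun C _ => ?_
  have h4 := isIntegral_isIrrChar hirr C C.out (mem_carrier_out C)
  have h5 := isIntegral_character σ C.out
  have h6 : (n : k) * red rho ((Nat.card C.carrier : ℂ) * σ.character C.out / σ.character 1) =
      (Nat.card C.carrier : k) * red rho (σ.character C.out) := by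
    rw [← red_natCast_mul rho n h4, ← red_natCast_mul rho _ h5, hn]
    congr 1
    field_simp
  rw [mul_left_comm, h6]
  ring

end A

section B

variable {k : Type v} [Field k] {p : ℕ} [Fact p.Prime] [CharP k p] {G : Type u} [Group G]

theorem sylow_le_Op [Finite G] (P : Sylow p G) : (P : Subgroup G) ≤ Op p G := by
  intro x hx
  obtain ⟨n, hn⟩ := P.isPGroup' ⟨x, hx⟩
  exact Subgroup.subset_closure ⟨n, congrArg Subtype.val hn⟩

theorem isPGroup_le_Op {Q : Subgroup G} (hQ : IsPGroup p Q) : Q ≤ Op p G := by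
  intro x hx
  obtain ⟨n, hn⟩ := hQ ⟨x, hx⟩
  exact Subgroup.subset_closure ⟨n, congrArg Subtype.val hn⟩

theorem not_dvd_index_Op [Finite G] : ¬ p ∣ (Op p G).index := by
  intro h
  obtain ⟨P⟩ : Nonempty (Sylow p G) := inferInstance
  exact P.not_dvd_index (h.trans (Subgroup.index_dvd_of_le (sylow_le_Op P)))

theorem triv_on_Op {V : Type*} [AddCommGroup V] [Module ℂ V] {σ : Representation ℂ G V}
    (hp : ∀ g : G, (∃ j : ℕ, g ^ p ^ j = 1) → σ g = 1) : ∀ g ∈ Op p G, σ g = 1 := by
  intro g hg
  induction hg using Subgroup.closure_induction with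
  | mem x hx => exact hp x hx
  | one => exact map_one σ
  | mul x y _ _ hx hy => rw [map_mul, hx, hy, mul_one]
  | inv x _ hx =>
    have h1 : σ (x⁻¹ * x) = 1 := by rw [inv_mul_cancel, map_one]
    rw [map_mul, hx, mul_one] at h1
    exact h1

/-- The degree is prime to p. -/
theorem not_dvd_degree [Finite G] {n : ℕ} {σ : Representation ℂ G (Fin n → ℂ)}
    (hσ : σ.IsIrreducible) (hp : ∀ g : G, (∃ j : ℕ, g ^ p ^ j = 1) → σ g = 1) : ¬ p ∣ n := by
  intro hd
  have htr := triv_on_Op hp
  let τ : Representation ℂ (G ⧸ Op p G) (Fin n → ℂ) :=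
    QuotientGroup.lift (Op p G) σ (fun x hx => htr x hx)
  have hτ : ∀ g : G, τ (QuotientGroup.mk g) = σ g := fun g => rfl
  have hV := irr_nontrivial σ
  have hirr : τ.IsIrreducible := by
    apply irr_of_forall
    intro W hW
    apply irr_bot_or_top σ
    intro g v hv
    exact hW (QuotientGroup.mk g) v hv
  have h1 := finrank_dvd_card τ
  rw [Module.finrank_fin_fun] at h1
  exact not_dvd_index_Op (p := p) (G := G) (hd.trans h1)

/-- The projection kG → k[G/O^{p'}(G)]. -/
noncomputable def proj (p : ℕ) (k : Type v) [Field k] (G : Type u) [Group G] :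
    MonoidAlgebra k G →ₐ[k] MonoidAlgebra k (G ⧸ Op p G) :=
  MonoidAlgebra.lift k (MonoidAlgebra k (G ⧸ Op p G)) G
    ((MonoidAlgebra.of k (G ⧸ Op p G)).comp (QuotientGroup.mk' (Op p G)))

omit [Fact p.Prime] [CharP k p] in
theorem proj_single (g : G) (r : k) : proj p k G (MonoidAlgebra.single g r) =
    MonoidAlgebra.single (QuotientGroup.mk g : G ⧸ Op p G) r := by
  simp [proj, MonoidAlgebra.lift_single]

theorem exists_simple_triv [Finite G] {rho : integralClosure ℤ ℂ →+* k} {B : MonoidAlgebra k G}
    (hB : IsBlock k G B) {n : ℕ} {σ : Representation ℂ G (Fin n → ℂ)}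
    (hσ : σ.IsIrreducible) (hp : ∀ g : G, (∃ j : ℕ, g ^ p ^ j = 1) → σ g = 1)
    (hin : InBlock rho B σ.character) :
    ∃ m : SimpleIn B, ∀ g ∈ Op p G, ∀ x : MonoidAlgebra k G ⧸ m.1,
      MonoidAlgebra.single g (1 : k) • x = x := by
  classical
  have := Fintype.ofFinite G
  have htr := triv_on_Op hp
  have hconst : ∀ g : G, σ.character (QuotientGroup.mk g : G ⧸ Op p G).out = σ.character g := by
    intro g
    obtain ⟨h, hh⟩ := QuotientGroup.mk_out_eq_mul (Op p G) g
    rw [hh]
    unfold Representation.character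
    rw [map_mul, htr h h.2, mul_one]
  let F : MonoidAlgebra k (G ⧸ Op p G) → k := fun b =>
    b.coeff.sum (fun γ c => c * red rho (σ.character γ.out))
  have hF : ∀ a : MonoidAlgebra k G, F (proj p k G a) =
      a.coeff.sum (fun x c => c * red rho (σ.character x)) := by
    intro a
    induction a using MonoidAlgebra.induction_linear with
    | zero => simp [F]
    | add a b ha hb =>
      rw [map_add, MonoidAlgebra.coeff_add, Finsupp.sum_add_index' (by simp)
        (fun x c d => by ring), ← ha, ← hb]
      simp only [F]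
      rw [MonoidAlgebra.coeff_add, Finsupp.sum_add_index' (by simp) (fun x c d => by ring)]
    | single g r =>
      rw [proj_single]
      simp [F, hconst]
  have hnk : (n : k) ≠ 0 := fun h => not_dvd_degree (p := p) hσ hp ((CharP.cast_eq_zero_iff k p n).1 h)
  have hne : proj p k G B ≠ 0 := by
    intro h0
    have h1 := hF B
    have h2 : F (proj p k G B) = 0 := by rw [h0]; simp [F]
    rw [h2, Finsupp.sum_fintype _ _ (fun _ => by simp)] at h1
    have h3 := natCast_mul_blockChar (rho := rho) hσ hB.1
    rw [blockChar_block hB hin, mul_one] at h3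
    exact hnk (h3.trans h1.symm)
  have hcomm : ∀ a : MonoidAlgebra k G, B * a = a * B := fun a =>
    ((Set.mem_center_iff.1 hB.1).comm a).eq
  let I : Ideal (MonoidAlgebra k G) := RingHom.ker (proj p k G) ⊔ Ideal.span {1 - B}
  have hI : I ≠ ⊤ := by
    intro h
    have h1 : (1 : MonoidAlgebra k G) ∈ I := by rw [h]; trivial
    obtain ⟨y, hy, w, hw, hyw⟩ := Submodule.mem_sup.1 h1
    obtain ⟨a, rfl⟩ := Ideal.mem_span_singleton'.1 hw
    have h2 : B = y * B := by
      calc B = (y + a * (1 - B)) * B := by rw [hyw, one_mul]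
        _ = y * B := by rw [add_mul, mul_assoc a, sub_mul, one_mul, hB.2.2.1, sub_self, mul_zero,
          add_zero]
    apply hne
    rw [h2, map_mul, RingHom.mem_ker.1 hy, zero_mul]
  obtain ⟨m, hm, hIm⟩ := Ideal.exists_le_maximal I hI
  refine ⟨⟨m, hm, acts_iff.2 fun a => ?_⟩, fun g hg => acts_iff.2 fun a => ?_⟩
  · have h1 : B * a - a = (-a) * (1 - B) := by rw [hcomm]; noncomm_ring
    rw [h1]
    exact m.mul_mem_left _ (hIm (Submodule.mem_sup_right (Ideal.subset_span rfl)))
  · apply hIm
    apply Submodule.mem_sup_left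
    rw [RingHom.mem_ker, map_sub, map_mul, proj_single]
    have h1 : (QuotientGroup.mk g : G ⧸ Op p G) = 1 := (QuotientGroup.eq_one_iff g).2 hg
    rw [h1, ← MonoidAlgebra.one_def, one_mul, sub_self]

/-- If B has only one simple module then the subgroup generated by the p-elements is
p-nilpotent. -/
theorem nilp_of_numSimple [Finite G] {rho : integralClosure ℤ ℂ →+* k} {B : MonoidAlgebra k G}
    (hB : IsBlock k G B) {n : ℕ} {σ : Representation ℂ G (Fin n → ℂ)}
    (hσ : σ.IsIrreducible) (hp : ∀ g : G, (∃ j : ℕ, g ^ p ^ j = 1) → σ g = 1)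
    (hin : InBlock rho B σ.character) (h1 : numSimple B = 1) :
    ∃ L : Subgroup G, L.Normal ∧ L ≤ Op p G ∧ ¬ p ∣ Nat.card L ∧
      ∀ g ∈ Op p G, ∃ j : ℕ, g ^ p ^ j ∈ L := by
  classical
  have := Fintype.ofFinite G
  have hpp : p.Prime := Fact.out
  obtain ⟨m₀, hm₀⟩ := exists_simple_triv hB hσ hp hin
  have hall : ∀ m : SimpleIn B, ∀ g ∈ Op p G, ∀ x : MonoidAlgebra k G ⧸ m.1,
      MonoidAlgebra.single g (1 : k) • x = x := by
    intro m g hg x
    rw [numSimple, Nat.card_eq_one_iff_unique] at h1
    obtain ⟨hs, -⟩ := h1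
    have h2 : (Quotient.mk (simpleSetoid B) m) = Quotient.mk (simpleSetoid B) m₀ :=
      Subsingleton.elim _ _
    obtain ⟨e⟩ := Quotient.exact h2
    let e' : (MonoidAlgebra k G ⧸ m.1) ≃ₗ[MonoidAlgebra k G] (MonoidAlgebra k G ⧸ m₀.1) := e
    apply e'.injective
    rw [map_smul, hm₀ g hg]
  have hcomm : ∀ a : MonoidAlgebra k G, Commute B a := fun a => (Set.mem_center_iff.1 hB.1).comm a
  have hcp : CharP (MonoidAlgebra k G) p :=
    charP_of_injective_algebraMap (FaithfulSMul.algebraMap_injective k (MonoidAlgebra k G)) p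
  have hart : IsArtinianRing (MonoidAlgebra k G) := isArtinian_of_tower k inferInstance
  obtain ⟨N, hN⟩ := IsArtinianRing.isNilpotent_jacobson_bot (R := MonoidAlgebra k G)
  have hmem : ∀ g ∈ Op p G, (MonoidAlgebra.single g (1 : k) - 1) * B ∈
      Ideal.jacobson (⊥ : Ideal (MonoidAlgebra k G)) := by
    intro g hg
    rw [Ideal.jacobson, Submodule.mem_sInf]
    rintro m ⟨-, hm⟩
    have hs := isSimple_of_maximal hm
    rcases central_zero_or_injective (M := MonoidAlgebra k G ⧸ m) hB.1 with h | h
    · have h2 := h (Submodule.Quotient.mk 1)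
      rw [← Submodule.Quotient.mk_smul, smul_eq_mul, mul_one, Submodule.Quotient.mk_eq_zero] at h2
      exact Ideal.mul_mem_left m _ h2
    · have h2 : ∀ x : MonoidAlgebra k G ⧸ m, B • x = x := by
        intro x
        apply sub_eq_zero.1
        apply h
        rw [smul_sub, smul_smul, hB.2.2.1, sub_self]
      have h3 := acts_iff.1 (hall ⟨m, hm, h2⟩ g hg) B
      rw [sub_mul, one_mul]
      exact h3
  have hnil : ∀ g ∈ Op p G, ((MonoidAlgebra.single g (1 : k) - 1) * B) ^ N = 0 := by
    intro g hg
    have := Ideal.pow_mem_pow (hmem g hg) N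
    rw [hN] at this
    simpa using this
  have hfix : ∀ g ∈ Op p G, ∃ j : ℕ, MonoidAlgebra.single (g ^ p ^ j) (1 : k) * B = B := by
    intro g hg
    obtain ⟨j, hj⟩ : ∃ j : ℕ, N ≤ p ^ j := ⟨N, (Nat.lt_pow_self hpp.one_lt).le⟩
    refine ⟨j, ?_⟩
    have h2 : ((MonoidAlgebra.single g (1 : k) - 1) * B) ^ p ^ j = 0 := by
      rw [← Nat.sub_add_cancel hj, pow_add, hnil g hg, mul_zero]
    have h3 : (MonoidAlgebra.single g (1 : k) - 1) ^ p ^ j * B = 0 := by
      have hBp : ∀ i : ℕ, 0 < i → B ^ i = B := by
        intro i hi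
        induction i, hi using Nat.le_induction with
        | base => simp
        | succ i _ ih => rw [pow_succ, ih, hB.2.2.1]
      rw [← hBp (p ^ j) (pow_pos hpp.pos j), ← (hcomm _).symm.mul_pow, h2]
    rw [sub_pow_char_pow_of_commute _ _ (Commute.one_right _), one_pow, MonoidAlgebra.single_pow,
      one_pow, sub_mul, one_mul, sub_eq_zero] at h3
    exact h3
  let L : Subgroup G :=
    { carrier := {g | g ∈ Op p G ∧ MonoidAlgebra.single g (1 : k) * B = B}
      mul_mem' := fun {a b} ha hb => by
        refine ⟨mul_mem ha.1 hb.1, ?_⟩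
        have : MonoidAlgebra.single (a * b) (1 : k) =
            MonoidAlgebra.single a (1 : k) * MonoidAlgebra.single b (1 : k) := by simp
        rw [this, mul_assoc, show _ * B = B from hb.2, show _ * B = B from ha.2]
      one_mem' := by
        refine ⟨one_mem _, ?_⟩
        rw [← MonoidAlgebra.one_def, one_mul]
      inv_mem' := fun {a} ha => by
        refine ⟨inv_mem ha.1, ?_⟩
        have ha' : MonoidAlgebra.single a (1 : k) * B = B := ha.2
        conv_lhs => rw [← ha']
        rw [← mul_assoc]
        simp [← MonoidAlgebra.one_def] }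
  refine ⟨L, ⟨fun l hl g => ?_⟩, fun g hg => hg.1, fun hdvd => ?_, fun g hg => ?_⟩
  · refine ⟨(Op_normal p G).conj_mem l hl.1 g, ?_⟩
    have hl' : MonoidAlgebra.single l (1 : k) * B = B := hl.2
    have : MonoidAlgebra.single (g * l * g⁻¹) (1 : k) = MonoidAlgebra.single g (1 : k) *
        MonoidAlgebra.single l (1 : k) * MonoidAlgebra.single g⁻¹ (1 : k) := by simp
    rw [this, mul_assoc, ← (hcomm _).eq, ← mul_assoc, mul_assoc _ _ B, hl', ← (hcomm _).eq,
      mul_assoc]
    simp [← MonoidAlgebra.one_def]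
  · obtain ⟨u, hu⟩ := exists_prime_orderOf_dvd_card' p hdvd
    have huL : MonoidAlgebra.single (u : G) (1 : k) * B = B := u.2.2
    have huO : σ (u : G) = 1 := triv_on_Op hp _ u.2.1
    have huG : orderOf (u : G) = p := by rw [Subgroup.orderOf_coe, hu]
    have hcoef : ∀ g : G, B.coeff ((u : G) * g) = B.coeff g := by
      intro g
      conv_lhs => rw [← huL]
      rw [MonoidAlgebra.coeff_single_mul_apply]
      simp
    have hch : ∀ g : G, σ.character ((u : G) * g) = σ.character g := by
      intro g
      unfold Representation.character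
      rw [map_mul, huO, one_mul]
    let Φ : G → k := fun g => B.coeff g * red rho (σ.character g)
    have hΦ : ∀ g, Φ ((u : G) * g) = Φ g := fun g => by simp only [Φ, hcoef, hch]
    let U := Subgroup.zpowers (u : G)
    have hU : IsPGroup p U := by
      apply IsPGroup.of_card (n := 1)
      rw [Nat.card_zpowers, huG, pow_one]
    have hsum := sum_eq_sum_fixed hU (X := G) Φ (fun w g => by
      obtain ⟨w, hw⟩ := w
      obtain ⟨i, rfl⟩ := Subgroup.mem_zpowers_iff.1 hw
      change Φ ((u : G) ^ i * g) = Φ g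
      have hz : ∀ i : ℕ, ∀ g, Φ ((u : G) ^ i * g) = Φ g := by
        intro i
        induction i with
        | zero => simp
        | succ i ih => intro g; rw [pow_succ, mul_assoc, ih, hΦ]
      obtain ⟨i, hi | hi⟩ := i.eq_nat_or_neg
      · rw [hi, zpow_natCast, hz]
      · rw [hi, zpow_neg, zpow_natCast]
        conv_rhs => rw [← mul_inv_cancel_left ((u : G) ^ i) g, hz])
    have hempty : ∀ g : G, g ∉ MulAction.fixedPoints U G := by
      intro g hg
      have h2 := hg ⟨u, Subgroup.mem_zpowers _⟩
      change (u : G) * g = g at h2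
      have h3 : (u : G) = 1 := by simpa using h2
      rw [h3, orderOf_one] at huG
      exact hpp.one_lt.ne huG
    have h2 : ∑ g, Φ g = 0 := by
      rw [hsum]
      apply Finset.sum_eq_zero
      intro g hg
      exact absurd (Finset.mem_filter.1 hg).2 (hempty g)
    have h3 := natCast_mul_blockChar (rho := rho) hσ hB.1
    rw [blockChar_block hB hin, mul_one] at h3
    exact not_dvd_degree (p := p) hσ hp ((CharP.cast_eq_zero_iff k p n).1 (h3.trans h2))
  · obtain ⟨j, hj⟩ := hfix g hg
    exact ⟨j, pow_mem hg _, hj⟩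

end B

end Vale.Agent.P179
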