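import Mathlib.LinearAlgebra.Eigenspace.Minpoly
import Vale.Agent.P179.Tw.PTriv

/-! Weights in a block containing an ordinary character that is trivial on all p-elements. -/

namespace Vale.Agent.P179

open Subgroup Representation Module

universe u v

section Comb

/-- Orbit sums of a p-group without fixed points are divisible by p. -/
theorem sum_div {p : ℕ} [Fact p.Prime] {Q : Type*} [Group Q] (hQ : IsPGroup p Q) {S : Type*}
    [MulAction Q S] [Fintype S] {E : Type*} [AddCommGroup E] (Φ : S → E)
    (hinv : ∀ (q : Q) s, Φ (q • s) = Φ s)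
    (hfix : ∀ s ∈ MulAction.fixedPoints Q S, Φ s = 0) :
    ∃ A ∈ AddSubgroup.closure (Set.range Φ), ∑ s, Φ s = p • A := by
  classical
  have hdvd : ∀ b : E, b ≠ 0 → p ∣ (Finset.univ.filter (fun s => Φ s = b)).card := by
    intro b hb
    rw [← CharP.cast_eq_zero_iff (ZMod p) p]
    have h1 := sum_eq_sum_fixed hQ (X := S) (fun s => if Φ s = b then (1 : ZMod p) else 0)
      (fun q s => by rw [hinv])
    rw [Finset.card_filter, Nat.cast_sum]
    simp only [Nat.cast_ite, Nat.cast_one, Nat.cast_zero]
    rw [h1]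
    apply Finset.sum_eq_zero
    intro s hs
    rw [if_neg]
    rw [hfix s (Finset.mem_filter.1 hs).2]
    exact fun h => hb h.symm
  refine ⟨∑ b ∈ Finset.univ.image Φ, ((Finset.univ.filter (fun s => Φ s = b)).card / p) • b,
    ?_, ?_⟩
  · refine sum_mem fun b hb => nsmul_mem ?_ _
    obtain ⟨s, -, rfl⟩ := Finset.mem_image.1 hb
    exact AddSubgroup.subset_closure ⟨s, rfl⟩
  · rw [Finset.smul_sum]
    have h1 := Finset.sum_comp (s := (Finset.univ : Finset S)) (fun b : E => b) Φ
    rw [h1]
    refine Finset.sum_congr rfl fun b _ => ?_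
    by_cases hb : b = 0
    · rw [hb]; simp
    · rw [smul_smul, Nat.mul_div_cancel' (hdvd b hb)]

/-- Integral combinations of the operators of a finite group have integral eigenvalues. -/
theorem isIntegral_eigen {Γ : Type*} [Group Γ] [Finite Γ] {V : Type*} [AddCommGroup V]
    [Module ℂ V] (ξ : Representation ℂ Γ V) {A : V →ₗ[ℂ] V}
    (hA : A ∈ AddSubgroup.closure (Set.range ξ)) {u : V} (hu : u ≠ 0) {c : ℂ}
    (h : A u = c • u) : IsIntegral ℤ c := by
  obtain ⟨a, ha⟩ : ∃ a : MonoidAlgebra ℤ Γ,
      MonoidAlgebra.lift ℤ (End ℂ V) Γ (ξ : Γ →* End ℂ V) a = A := by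
    clear h
    induction hA using AddSubgroup.closure_induction with
    | mem x hx =>
      obtain ⟨γ, rfl⟩ := hx
      exact ⟨MonoidAlgebra.single γ 1, by simp⟩
    | zero => exact ⟨0, map_zero _⟩
    | add x y _ _ hx hy =>
      obtain ⟨a, rfl⟩ := hx
      obtain ⟨b, rfl⟩ := hy
      exact ⟨a + b, map_add _ _ _⟩
    | neg x _ hx =>
      obtain ⟨a, rfl⟩ := hx
      exact ⟨-a, map_neg _ _⟩
  have hint : IsIntegral ℤ (A : End ℂ V) := by
    rw [← ha]
    exact (IsIntegral.of_finite ℤ a).map _
  obtain ⟨f, hf, hf0⟩ := hint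
  refine ⟨f, hf, ?_⟩
  have hv : Module.End.HasEigenvector (A : End ℂ V) c u :=
    ⟨Module.End.mem_eigenspace_iff.2 h, hu⟩
  have h1 := Module.End.aeval_apply_of_hasEigenvector (p := f.map (Int.castRingHom ℂ)) hv
  have h2 : Polynomial.aeval (A : End ℂ V) (f.map (Int.castRingHom ℂ)) = 0 := by
    have h3 : Polynomial.aeval (A : End ℂ V) (f.map (algebraMap ℤ ℂ)) =
      Polynomial.aeval (A : End ℂ V) f := Polynomial.aeval_map_algebraMap ℂ _ f
    rw [show Int.castRingHom ℂ = algebraMap ℤ ℂ from rfl, h3, Polynomial.aeval_def]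
    exact hf0
  rw [h2, LinearMap.zero_apply] at h1
  rcases smul_eq_zero.1 h1.symm with h3 | h3
  · rw [Polynomial.eval_map] at h3
    exact h3
  · exact absurd h3 hu

end Comb

section Space

variable {G : Type u} [Group G] {n : ℕ}

/-- The group G × X acts on the functions from X to the space of a representation of G. -/
noncomputable def Xi (σ : Representation ℂ G (Fin n → ℂ)) (X : Type u) [Group X] :
    Representation ℂ (G × X) (X → Fin n → ℂ) where
  toFun γ :=
    { toFun := fun F y => σ γ.1 (F (γ.2⁻¹ * y))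
      map_add' := fun F F' => by
        funext y
        simp only [Pi.add_apply, map_add]
      map_smul' := fun c F => by
        funext y
        simp only [Pi.smul_apply, map_smul, RingHom.id_apply] }
  map_one' := by
    apply LinearMap.ext
    intro F
    funext y
    simp
  map_mul' a b := by
    apply LinearMap.ext
    intro F
    funext y
    simp [mul_assoc]

theorem Xi_apply (σ : Representation ℂ G (Fin n → ℂ)) (X : Type u) [Group X] (g : G) (x : X)
    (F : X → Fin n → ℂ) (y : X) : Xi σ X (g, x) F y = σ g (F (x⁻¹ * y)) := rfl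

/-- The restriction to N_G(Q), embedded in the product by the map to N_G(Q) / Q C_G(Q). -/
noncomputable def rhoQ (σ : Representation ℂ G (Fin n → ℂ)) (Q : Subgroup G) :
    Representation ℂ (normalizer (Q : Set G))
      ((normalizer (Q : Set G) ⧸ core Q) → Fin n → ℂ) :=
  (Xi σ (normalizer (Q : Set G) ⧸ core Q)).comp
    (MonoidHom.prod (normalizer (Q : Set G)).subtype (QuotientGroup.mk' (core Q)))

theorem rhoQ_apply (σ : Representation ℂ G (Fin n → ℂ)) (Q : Subgroup G)
    (x : normalizer (Q : Set G)) :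
    rhoQ σ Q x = Xi σ (normalizer (Q : Set G) ⧸ core Q) ((x : G), QuotientGroup.mk x) := rfl

end Space

section Scalar

/-- A class-invariant sum of operators acts by the normalized character sum. -/
theorem class_scalar {Γ : Type*} [Group Γ] [Fintype Γ] {V : Type*} [AddCommGroup V] [Module ℂ V]
    (ψ : Representation ℂ Γ V) [h : ψ.IsIrreducible] [FiniteDimensional ℂ V] (S : Γ → Prop)
    [DecidablePred S] (hS : ∀ g x, S (g * x * g⁻¹) ↔ S x) (v : V) :
    ∑ x, (if S x then ψ x v else 0) =
      (∑ x, if S x then ψ.character x / ψ.character 1 else 0) • v := by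
  classical
  have hV := irr_nontrivial ψ
  let f : End ℂ V := ∑ x, if S x then ψ x else 0
  have hfa : ∀ v, f v = ∑ x, (if S x then ψ x v else 0) := by
    intro v
    simp only [f]
    rw [LinearMap.sum_apply]
    refine Finset.sum_congr rfl fun x _ => ?_
    split_ifs <;> rfl
  have hcomm : ∀ g v, f (ψ g v) = ψ g (f v) := by
    intro g v
    rw [hfa, hfa, map_sum, ← Equiv.sum_comp (MulAut.conj g).toEquiv]
    refine Finset.sum_congr rfl fun x _ => ?_
    have h1 : (MulAut.conj g).toEquiv x = g * x * g⁻¹ := rfl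
    rw [h1]
    simp only [hS]
    split_ifs
    · rw [← Module.End.mul_apply, ← map_mul, ← Module.End.mul_apply, ← map_mul]
      congr 2
      group
    · rw [map_zero]
  obtain ⟨c, hc⟩ := schur_scalar ψ f hcomm
  have hfc : f = algebraMap ℂ (End ℂ V) c := by
    ext v
    rw [hc, Module.algebraMap_end_apply]
  have htr : LinearMap.trace ℂ V f = ∑ x, if S x then ψ.character x else 0 := by
    simp only [f, map_sum]
    refine Finset.sum_congr rfl fun x _ => ?_
    split_ifs
    · rfl
    · rw [map_zero]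
  have hd : ψ.character 1 ≠ 0 := by
    rw [char_one]
    exact_mod_cast (Module.finrank_pos (R := ℂ) (M := V)).ne'
  have h2 : c * ψ.character 1 = ∑ x, if S x then ψ.character x else 0 := by
    rw [← htr, hfc, Algebra.algebraMap_eq_smul_one, map_smul, LinearMap.trace_one, smul_eq_mul,
      char_one]
  rw [← hfa, hc]
  congr 1
  have h3 : ∀ x, (if S x then ψ.character x / ψ.character 1 else 0) =
      (if S x then ψ.character x else 0) / ψ.character 1 := by
    intro x
    split_ifs
    · rfl
    · rw [zero_div]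
  rw [Finset.sum_congr rfl (fun x _ => h3 x), ← Finset.sum_div, ← h2, mul_div_assoc, div_self hd,
    mul_one]

end Scalar

section Char

variable {k : Type v} [Field k] {G : Type u} [Group G]

theorem red_zero (rho : integralClosure ℤ ℂ →+* k) : red rho (0 : ℂ) = 0 := by
  have := red_natCast rho 0
  simpa using this

theorem mk_conj (g x : G) : ConjClasses.mk (g * x * g⁻¹) = ConjClasses.mk x :=
  ConjClasses.mk_eq_mk_iff_isConj.2 (isConj_iff.2 ⟨g⁻¹, by group⟩)

theorem coeff_out {z : MonoidAlgebra k G} (hz : z ∈ Set.center (MonoidAlgebra k G)) (x : G) :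
    z.coeff (Quotient.out (ConjClasses.mk x)) = z.coeff x := by
  have h1 : ConjClasses.mk (Quotient.out (ConjClasses.mk x)) = ConjClasses.mk x :=
    Quotient.out_eq _
  obtain ⟨g, hg⟩ := isConj_iff.1 (ConjClasses.mk_eq_mk_iff_isConj.1 h1)
  have h2 := coeff_conj hz g (Quotient.out (ConjClasses.mk x))
  rw [hg] at h2
  exact h2.symm

theorem blockChar_res [Finite G] (rho : integralClosure ℤ ℂ →+* k) {N : Subgroup G} {f : N → ℂ}
    (hf : IsIrrChar N f) [Fintype N] [Fintype (ConjClasses G)] [DecidableEq (ConjClasses G)]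
    {z : MonoidAlgebra k G} (hz : z ∈ Set.center (MonoidAlgebra k G)) :
    blockChar rho f (resCoeff N z) = ∑ K : ConjClasses G, z.coeff K.out *
      red rho (∑ x : N, if ConjClasses.mk (x : G) = K then f x / f 1 else 0) := by
  classical
  have : Fintype (ConjClasses N) := Fintype.ofFinite _
  have h0 : ∀ K : ConjClasses G,
      (∑ x : N, if ConjClasses.mk (x : G) = K then f x / f 1 else 0) =
      ∑ C : ConjClasses N, (if ConjClasses.mk ((Quotient.out C : N) : G) = K then
        (Nat.card C.carrier : ℂ) * f C.out / f 1 else 0) := by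
    intro K
    rw [sum_classes (fun x : N => if ConjClasses.mk (x : G) = K then f x / f 1 else 0) ?_]
    · refine Finset.sum_congr rfl fun C _ => ?_
      split_ifs <;> ring
    · intro g x
      have : ConjClasses.mk ((g * x * g⁻¹ : N) : G) = ConjClasses.mk (x : G) :=
        mk_conj (g : G) (x : G)
      rw [this, irr_conj hf]
  have h1 : ∀ K : ConjClasses G,
      red rho (∑ x : N, if ConjClasses.mk (x : G) = K then f x / f 1 else 0) =
      ∑ C : ConjClasses N, (if ConjClasses.mk ((Quotient.out C : N) : G) = K then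
        red rho ((Nat.card C.carrier : ℂ) * f C.out / f 1) else 0) := by
    intro K
    rw [h0, red_sum rho]
    · refine Finset.sum_congr rfl fun C _ => ?_
      split_ifs
      · rfl
      · exact red_zero rho
    · intro C _
      split_ifs
      · exact isIntegral_isIrrChar hf C _ (mem_carrier_out C)
      · exact isIntegral_zero
  simp only [h1, Finset.mul_sum]
  rw [Finset.sum_comm, blockChar_eq_sum]
  refine Finset.sum_congr rfl fun C _ => ?_
  rw [resCoeff_coeff, Finset.sum_eq_single (ConjClasses.mk ((Quotient.out C : N) : G))]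
  · rw [if_pos rfl, coeff_out hz]
  · intro K _ hK
    rw [if_neg (Ne.symm hK), mul_zero]
  · simp

theorem blockChar_self [Finite G] (rho : integralClosure ℤ ℂ →+* k) {f : G → ℂ}
    (hf : IsIrrChar G f) [Fintype G] [Fintype (ConjClasses G)] [DecidableEq (ConjClasses G)]
    (z : MonoidAlgebra k G) :
    blockChar rho f z = ∑ K : ConjClasses G, z.coeff K.out *
      red rho (∑ x : G, if ConjClasses.mk x = K then f x / f 1 else 0) := by
  classical
  rw [blockChar_eq_sum]
  refine Finset.sum_congr rfl fun K _ => ?_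
  rw [sum_classes (fun x : G => if ConjClasses.mk x = K then f x / f 1 else 0)
    (fun g x => by rw [mk_conj, irr_conj hf])]
  have h1 : ∀ C : ConjClasses G, ConjClasses.mk (Quotient.out C) = C := fun C => Quotient.out_eq C
  simp only [h1]
  rw [Finset.sum_eq_single K]
  · rw [if_pos rfl, mul_div_assoc]
  · intro C _ hC
    rw [if_neg hC, mul_zero]
  · simp

end Char

section Cong

variable {k : Type v} [Field k] {p : ℕ} [Fact p.Prime] [CharP k p] {G : Type u} [Group G]

/-- The central characters of the constituents of the local space are induced from that of the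
character we started with. -/
theorem blockChar_rhoQ [Finite G] (rho : integralClosure ℤ ℂ →+* k) {n : ℕ}
    {σ : Representation ℂ G (Fin n → ℂ)} (hσ : σ.IsIrreducible)
    (hp : ∀ g : G, (∃ j : ℕ, g ^ p ^ j = 1) → σ g = 1) {Q : Subgroup G} (hQ : IsPGroup p Q)
    (U : Subrepresentation (rhoQ σ Q)) (hU : U.toRepresentation.IsIrreducible)
    {z : MonoidAlgebra k G} (hz : z ∈ Set.center (MonoidAlgebra k G)) :
    blockChar rho U.toRepresentation.character (resCoeff (normalizer (Q : Set G)) z) =
      blockChar rho σ.character z := by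
  classical
  have := Fintype.ofFinite G
  let N := normalizer (Q : Set G)
  have : Fintype N := Fintype.ofFinite _
  have : Fintype (ConjClasses G) := Fintype.ofFinite _
  have : Fintype (ConjSet G) := Fintype.ofEquiv G (conjSetEquiv G).symm
  have hpp : p.Prime := Fact.out
  have hirr : IsIrrChar G σ.character := ⟨n, σ, hσ, rfl⟩
  have hirrU : IsIrrChar N U.toRepresentation.character := isIrrChar_of_rep U.toRepresentation
  rw [blockChar_res rho hirrU hz, blockChar_self rho hirr]
  refine Finset.sum_congr rfl fun K _ => ?_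
  congr 1
  set f : N → ℂ := U.toRepresentation.character with hf
  set c : ℂ := ∑ x : N, if ConjClasses.mk (x : G) = K then f x / f 1 else 0 with hc
  set ω : ℂ := ∑ x : G, if ConjClasses.mk x = K then σ.character x / σ.character 1 else 0 with hω
  let X := N ⧸ core Q
  let φ₁ : G → ((X → Fin n → ℂ) →ₗ[ℂ] (X → Fin n → ℂ)) := fun x =>
    if h : x ∈ N then (if ConjClasses.mk x = K then
      Xi σ X (x, (QuotientGroup.mk (⟨x, h⟩ : N) : X)) else 0) else 0
  let φ₂ : G → ((X → Fin n → ℂ) →ₗ[ℂ] (X → Fin n → ℂ)) := fun x =>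
    if ConjClasses.mk x = K then Xi σ X (x, (1 : X)) else 0
  have hσQ : ∀ q ∈ Q, σ q = 1 := fun q hq => by
    obtain ⟨j, hj⟩ := hQ ⟨q, hq⟩
    exact hp q ⟨j, congrArg Subtype.val hj⟩
  have hXiext : ∀ (a b : G) (x : X), σ a = σ b → Xi σ X (a, x) = Xi σ X (b, x) := by
    intro a b x h
    apply LinearMap.ext
    intro F
    funext y
    rw [Xi_apply, Xi_apply, h]
  have hσconj : ∀ q ∈ Q, ∀ x : G, σ (q * x * q⁻¹) = σ x := by
    intro q hq x
    rw [map_mul, map_mul, hσQ q hq, hσQ q⁻¹ (inv_mem hq), one_mul, mul_one]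
  have hmk1 : ∀ y : N, (y : G) ∈ Q → (QuotientGroup.mk y : X) = 1 := fun y hy =>
    (QuotientGroup.eq_one_iff y).2 (le_sup_left (α := Subgroup N) (mem_subgroupOf.2 hy))
  have hmk2 : ∀ y : N, (y : G) ∈ centralizer (Q : Set G) → (QuotientGroup.mk y : X) = 1 :=
    fun y hy => (QuotientGroup.eq_one_iff y).2
      (le_sup_right (α := Subgroup N) (mem_subgroupOf.2 hy))
  have hφ₁ : ∀ q ∈ Q, ∀ x, φ₁ (q * x * q⁻¹) = φ₁ x := by
    intro q hq x
    have hqN : q ∈ N := le_normalizer hq
    by_cases hx : x ∈ N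
    · have hx' : q * x * q⁻¹ ∈ N := mul_mem (mul_mem hqN hx) (inv_mem hqN)
      simp only [φ₁, dif_pos hx, dif_pos hx', mk_conj]
      split_ifs
      · have h1 : (QuotientGroup.mk (⟨q * x * q⁻¹, hx'⟩ : N) : X) =
            QuotientGroup.mk (⟨x, hx⟩ : N) := by
          have h2 : (⟨q * x * q⁻¹, hx'⟩ : N) = ⟨q, hqN⟩ * ⟨x, hx⟩ * (⟨q, hqN⟩ : N)⁻¹ := rfl
          rw [h2, QuotientGroup.mk_mul, QuotientGroup.mk_mul, QuotientGroup.mk_inv,
            hmk1 ⟨q, hqN⟩ hq, one_mul, inv_one, mul_one]
        rw [h1]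
        exact hXiext _ _ _ (hσconj q hq x)
      · rfl
    · have hx' : q * x * q⁻¹ ∉ N := by
        intro h
        apply hx
        have := mul_mem (mul_mem (inv_mem hqN) h) hqN
        simpa [mul_assoc] using this
      simp only [φ₁, dif_neg hx, dif_neg hx']
  have hφ₂ : ∀ q ∈ Q, ∀ x, φ₂ (q * x * q⁻¹) = φ₂ x := by
    intro q hq x
    simp only [φ₂, mk_conj]
    split_ifs
    · exact hXiext _ _ _ (hσconj q hq x)
    · rfl
  have hφ12 : ∀ x ∈ centralizer (Q : Set G), φ₁ x = φ₂ x := by
    intro x hx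
    have hxN : x ∈ N := centralizer_le_normalizer _ hx
    simp only [φ₁, φ₂, dif_pos hxN, hmk2 ⟨x, hxN⟩ hx]
  let Φ : ConjSet G → ((X → Fin n → ℂ) →ₗ[ℂ] (X → Fin n → ℂ)) := fun s => φ₁ s.val - φ₂ s.val
  obtain ⟨A, hA, hAsum⟩ := sum_div hQ Φ
    (fun q s => by
      change φ₁ ((q : G) * s.val * (q : G)⁻¹) - φ₂ ((q : G) * s.val * (q : G)⁻¹) = _
      rw [hφ₁ q q.2, hφ₂ q q.2])
    (fun s hs => by
      have h3 : s.val ∈ centralizer (Q : Set G) := by
        rw [mem_centralizer_iff]
        intro q hq
        have h4 : q * s.val * q⁻¹ = s.val := congrArg ConjSet.val (hs ⟨q, hq⟩)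
        exact mul_inv_eq_iff_eq_mul.1 h4
      change φ₁ s.val - φ₂ s.val = 0
      rw [hφ12 _ h3, sub_self])
  have hA' : A ∈ AddSubgroup.closure (Set.range (Xi σ X)) := by
    refine (AddSubgroup.closure_le _).2 ?_ hA
    rintro _ ⟨s, rfl⟩
    refine sub_mem ?_ ?_
    · simp only [φ₁]
      split_ifs
      · exact AddSubgroup.subset_closure ⟨_, rfl⟩
      · exact zero_mem _
      · exact zero_mem _
    · simp only [φ₂]
      split_ifs
      · exact AddSubgroup.subset_closure ⟨_, rfl⟩
      · exact zero_mem _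
  have hnt := irr_nontrivial U.toRepresentation
  obtain ⟨u, hu⟩ := exists_ne (0 : U.toSubmodule)
  have hu0 : (u : X → Fin n → ℂ) ≠ 0 := fun h => hu (Subtype.ext h)
  have hsum1 : (∑ x, φ₁ x) (u : X → Fin n → ℂ) = c • (u : X → Fin n → ℂ) := by
    have h1 : ∑ x, φ₁ x = ∑ x : N, φ₁ (x : G) := by
      rw [← Finset.sum_subtype (F := (inferInstance : Fintype N))
        (Finset.univ.filter (· ∈ N)) (p := (· ∈ N)) (by simp) φ₁]
      symm
      apply Finset.sum_subset (Finset.filter_subset _ _)
      intro x _ hx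
      have : x ∉ N := fun h => hx (Finset.mem_filter.2 ⟨Finset.mem_univ _, h⟩)
      simp only [φ₁, dif_neg this]
    have h2 := class_scalar U.toRepresentation (fun x : N => ConjClasses.mk (x : G) = K)
      (fun g x => by
        have : ConjClasses.mk ((g * x * g⁻¹ : N) : G) = ConjClasses.mk (x : G) :=
          mk_conj (g : G) (x : G)
        rw [this]) u
    have h3 := congrArg Subtype.val h2
    rw [AddSubmonoidClass.coe_finsetSum] at h3
    rw [h1, LinearMap.sum_apply]
    refine Eq.trans ?_ h3
    refine Finset.sum_congr rfl fun x _ => ?_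
    simp only [φ₁, dif_pos x.2]
    split_ifs
    · rfl
    · rfl
  have hsum2 : (∑ x, φ₂ x) (u : X → Fin n → ℂ) = ω • (u : X → Fin n → ℂ) := by
    funext y
    have h2 := class_scalar σ (fun x : G => ConjClasses.mk x = K)
      (fun g x => by rw [mk_conj]) ((u : X → Fin n → ℂ) y)
    rw [LinearMap.sum_apply, Finset.sum_apply]
    refine Eq.trans ?_ h2
    refine Finset.sum_congr rfl fun x _ => ?_
    simp only [φ₂]
    split_ifs
    · rw [Xi_apply, inv_one, one_mul]
    · rfl
  have hsum : ∑ s, Φ s = ∑ x, φ₁ x - ∑ x, φ₂ x := by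
    rw [← Finset.sum_sub_distrib, ← Equiv.sum_comp (conjSetEquiv G)]
    rfl
  have hp0 : (p : ℂ) ≠ 0 := by exact_mod_cast hpp.ne_zero
  have hAu : A (u : X → Fin n → ℂ) = ((c - ω) / p) • (u : X → Fin n → ℂ) := by
    have h1 : (p : ℂ) • A (u : X → Fin n → ℂ) = (c - ω) • (u : X → Fin n → ℂ) := by
      rw [sub_smul, ← hsum1, ← hsum2, ← LinearMap.sub_apply, ← hsum, hAsum, Nat.cast_smul_eq_nsmul]
      rfl
    rw [div_eq_inv_mul, mul_smul, ← h1, smul_smul, inv_mul_cancel₀ hp0, one_smul]
  have hδ := isIntegral_eigen (Xi σ X) hA' hu0 hAu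
  have hωint : IsIntegral ℤ ω := by
    rw [hω, sum_classes (fun x : G => if ConjClasses.mk x = K then σ.character x /
      σ.character 1 else 0) (fun g x => by rw [mk_conj, irr_conj hirr])]
    refine IsIntegral.sum _ fun C _ => ?_
    split_ifs
    · rw [← mul_div_assoc]
      exact isIntegral_isIrrChar hirr C _ (mem_carrier_out C)
    · rw [mul_zero]
      exact isIntegral_zero
  have hcω : c = ω + (p : ℂ) * ((c - ω) / p) := by
    rw [mul_div_cancel₀ _ hp0]
    ring
  have hpδ : IsIntegral ℤ ((p : ℂ) * ((c - ω) / p)) :=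
    (isIntegral_algebraMap (x := (p : ℤ))).mul hδ
  have hadd : red rho (ω + (p : ℂ) * ((c - ω) / p)) =
      red rho ω + red rho ((p : ℂ) * ((c - ω) / p)) := by
    rw [red_of_isIntegral rho hωint, red_of_isIntegral rho hpδ,
      red_of_isIntegral rho (hωint.add hpδ), ← map_add]
    rfl
  rw [hcω, hadd, red_natCast_mul rho p hδ, CharP.cast_eq_zero k p, zero_mul, add_zero]

end Cong

end Vale.Agent.P179
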