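import Vale.Agent.P179.Tw.PTriv2

/-! The two weights. -/

namespace Vale.Agent.P179

open Subgroup Representation Module

universe u v

section Local

variable {p : ℕ} [Fact p.Prime] {G : Type u} [Group G]

/-- The p-local data of a normal subgroup that is not p-nilpotent. -/
theorem local_data [Finite G] {M : Subgroup G} [hMn : M.Normal]
    (hpM : ∀ T : Subgroup G, IsPGroup p T → T ≤ M) (hM : ¬ FrobCond p M) :
    ∃ Q : Subgroup G, IsPGroup p Q ∧
      (∀ T : Subgroup G, IsPGroup p T → T ≤ centralizer (Q : Set G) → T ≤ Q) ∧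
      ∃ L : Subgroup (normalizer (Q : Set G) ⧸ core Q), L.Normal ∧ L ≠ ⊥ ∧
        L ≤ (M.subgroupOf (normalizer (Q : Set G))).map (QuotientGroup.mk' (core Q)) ∧
        ∀ u ∈ (M.subgroupOf (normalizer (Q : Set G))).map (QuotientGroup.mk' (core Q)),
          (∃ j : ℕ, u ^ p ^ j = 1) → u ≠ 1 → ∀ d ∈ L, d * u = u * d → d = 1 := by
  classical
  have hpp : p.Prime := Fact.out
  obtain ⟨Q₁, hQ₁, hbad, hmax⟩ := exists_maximal_bad hM
  have hcentric := centric_of_maximal_bad hQ₁ hbad hmax
  have hloc := local_isPGroup hQ₁ hmax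
  have hnot := not_isPGroup_quot hQ₁ hbad
  let H := normalizer (Q₁ : Set M)
  have hfrob : FrobCond p (H ⧸ core Q₁) := by
    intro V hV g hg
    by_cases hV0 : V = ⊥
    · refine ⟨0, ?_⟩
      subst hV0
      rw [mem_centralizer_iff]
      intro h hh
      have : h = 1 := by simpa using hh
      rw [this]
      simp
    · obtain ⟨n, hn⟩ := hloc V hV hV0 ⟨g, hg⟩
      have hn' : g ^ p ^ n = 1 := congrArg Subtype.val hn
      exact ⟨n, by rw [hn']; exact one_mem _⟩
  obtain ⟨L₁, hL₁n, hL₁p, hL₁⟩ := exists_normal_complement _ (H ⧸ core Q₁) rfl hfrob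
  have hL₁0 : L₁ ≠ ⊥ := by
    rintro rfl
    exact hnot fun h => by
      obtain ⟨n, hn⟩ := hL₁ h
      exact ⟨n, by simpa using hn⟩
  let Q := Q₁.map M.subtype
  have hQ : IsPGroup p Q := hQ₁.map _
  have hQM : Q ≤ M := map_subtype_le _
  let N := normalizer (Q : Set G)
  have hmemQ : ∀ x : M, (x : G) ∈ Q ↔ x ∈ Q₁ := by
    intro x
    constructor
    · rintro ⟨y, hy, hyx⟩
      have : y = x := Subtype.ext hyx
      rwa [← this]
    · intro hx
      exact ⟨x, hx, rfl⟩
  have hHN : ∀ h : M, h ∈ H ↔ (h : G) ∈ N := by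
    intro h
    rw [mem_normalizer_iff, mem_normalizer_iff]
    constructor
    · intro hh t
      constructor
      · rintro ⟨s, hs, rfl⟩
        exact ⟨h * s * h⁻¹, (hh s).1 hs, rfl⟩
      · intro ht
        have htM : t ∈ M := by
          have h1 := hMn.conj_mem _ (hQM ht) (h : G)⁻¹
          simpa [mul_assoc] using h1
        have h2 : (⟨t, htM⟩ : M) ∈ Q₁ := (hh _).2 ((hmemQ (h * ⟨t, htM⟩ * h⁻¹)).1 ht)
        exact ⟨_, h2, rfl⟩
    · intro hh t
      have h1 := hh (t : G)
      rw [hmemQ] at h1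
      exact h1.trans (hmemQ (h * t * h⁻¹))
  let j : H →* N :=
    { toFun := fun h => ⟨((h : M) : G), (hHN h).1 h.2⟩
      map_one' := rfl
      map_mul' := fun _ _ => rfl }
  let π : N →* N ⧸ core Q := QuotientGroup.mk' (core Q)
  have hπ : Function.Surjective π := QuotientGroup.mk'_surjective _
  have hker : ∀ h : H, π (j h) = 1 ↔ h ∈ core Q₁ := by
    intro h
    constructor
    · intro hh
      have hh' : j h ∈ core Q := (QuotientGroup.eq_one_iff _).1 hh
      rw [core, mem_sup_of_normal_right] at hh'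
      obtain ⟨q, hq, c, hc, hqc⟩ := hh'
      rw [mem_subgroupOf] at hq hc
      obtain ⟨q₁, hq₁, hqq⟩ := hq
      have hqH : q₁ ∈ H := le_normalizer hq₁
      have hh2 : h = (⟨q₁, hqH⟩ : H) * ((⟨q₁, hqH⟩ : H)⁻¹ * h) := by group
      have hc2 : ((((⟨q₁, hqH⟩ : H)⁻¹ * h : H) : M) : G) = (c : G) := by
        have h1 : ((h : M) : G) = (q : G) * c := (congrArg Subtype.val hqc).symm
        have h2 : ((q₁ : M) : G) = q := hqq
        change ((q₁ : M) : G)⁻¹ * ((h : M) : G) = c
        rw [h1, h2, inv_mul_cancel_left]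
      rw [hh2]
      refine mul_mem ?_ ?_
      · exact le_sup_left (α := Subgroup H) (mem_subgroupOf.2 hq₁)
      · refine le_sup_right (α := Subgroup H) (mem_subgroupOf.2 ?_)
        rw [mem_centralizer_iff]
        intro s hs
        apply Subtype.ext
        have h3 := mem_centralizer_iff.1 hc (s : G) ((hmemQ s).2 hs)
        change (s : G) * ((((⟨q₁, hqH⟩ : H)⁻¹ * h : H) : M) : G) =
          ((((⟨q₁, hqH⟩ : H)⁻¹ * h : H) : M) : G) * (s : G)
        rw [hc2]
        exact h3
    · intro hh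
      rw [core, mem_sup_of_normal_right] at hh
      obtain ⟨q, hq, c, hc, rfl⟩ := hh
      rw [mem_subgroupOf] at hq hc
      refine (QuotientGroup.eq_one_iff _).2 ?_
      rw [map_mul]
      refine mul_mem ?_ ?_
      · exact le_sup_left (α := Subgroup N) (mem_subgroupOf.2 ((hmemQ q).2 hq))
      · refine le_sup_right (α := Subgroup N) (mem_subgroupOf.2 ?_)
        rw [mem_centralizer_iff]
        rintro _ ⟨s, hs, rfl⟩
        exact congrArg Subtype.val (mem_centralizer_iff.1 hc s hs)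
  let ι : (H ⧸ core Q₁) →* N ⧸ core Q :=
    QuotientGroup.lift (core Q₁) (π.comp j) (fun h hh => (hker h).2 hh)
  have hιmk : ∀ h : H, ι (QuotientGroup.mk h) = π (j h) := fun h => rfl
  have hι : Function.Injective ι := by
    refine (injective_iff_map_eq_one ι).2 fun a ha => ?_
    obtain ⟨h, rfl⟩ := QuotientGroup.mk_surjective a
    rw [hιmk, hker] at ha
    exact (QuotientGroup.eq_one_iff h).2 ha
  have hrange : ∀ y, y ∈ (M.subgroupOf N).map π ↔ ∃ a, ι a = y := by
    intro y
    constructor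
    · rintro ⟨m, hm, rfl⟩
      have hm' : (m : G) ∈ M := mem_subgroupOf.1 hm
      exact ⟨QuotientGroup.mk ⟨⟨m, hm'⟩, (hHN _).2 m.2⟩, rfl⟩
    · rintro ⟨a, rfl⟩
      obtain ⟨h, rfl⟩ := QuotientGroup.mk_surjective a
      exact ⟨j h, mem_subgroupOf.2 (h : M).2, rfl⟩
  refine ⟨Q, hQ, fun T hT hTC => ?_, L₁.map ι, ?_, ?_, ?_, ?_⟩
  · have hTM := hpM T hT
    have h1 := hcentric (T.subgroupOf M) (hT.comap_of_injective _ Subtype.val_injective) (by
      intro t ht
      rw [mem_subgroupOf] at ht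
      rw [mem_centralizer_iff]
      intro s hs
      exact Subtype.ext (mem_centralizer_iff.1 (hTC ht) (s : G) ((hmemQ s).2 hs)))
    intro t ht
    exact (hmemQ ⟨t, hTM ht⟩).2 (h1 (mem_subgroupOf.2 ht))
  · constructor
    rintro _ ⟨l, hl, rfl⟩ x
    have hTn : ((M.subgroupOf N).map π).Normal := (inferInstance : (M.subgroupOf N).Normal).map _ hπ
    obtain ⟨a, ha⟩ := (hrange _).1 (hTn.conj_mem _ ((hrange (ι l)).2 ⟨l, rfl⟩) x)
    have hord : orderOf a = orderOf l := by
      rw [← orderOf_injective ι hι a, ha, ← orderOf_injective ι hι l]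
      have := orderOf_injective (MulAut.conj x).toMonoidHom (MulAut.conj x).injective (ι l)
      simpa [MulAut.conj_apply] using this
    obtain ⟨m, hm⟩ := hL₁ a
    refine ⟨a, mem_of_pow_mem_of_coprime L₁ ?_ hm, ha⟩
    rw [hord]
    intro h
    exact hL₁p (h.trans (Subgroup.orderOf_dvd_natCard L₁ hl))
  · rw [Ne, Subgroup.map_eq_bot_iff_of_injective _ hι]
    exact hL₁0
  · rintro _ ⟨l, hl, rfl⟩
    exact (hrange _).2 ⟨l, rfl⟩
  · rintro _ hu ⟨i, hi⟩ hu1 _ ⟨d, hd, rfl⟩ hdu
    obtain ⟨u, rfl⟩ := (hrange _).1 hu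
    have hui : u ^ p ^ i = 1 := by
      apply hι
      rw [map_pow, hi, map_one]
    have hu1' : u ≠ 1 := fun h => hu1 (by rw [h, map_one])
    have hdu' : d * u = u * d := by
      apply hι
      rw [map_mul, map_mul]
      exact hdu
    have hV : IsPGroup p (zpowers u) := by
      intro z
      obtain ⟨z, hz⟩ := z
      obtain ⟨e, rfl⟩ := mem_zpowers_iff.1 hz
      refine ⟨i, Subtype.ext ?_⟩
      change (u ^ e) ^ p ^ i = 1
      rw [← zpow_natCast, ← zpow_mul, mul_comm, zpow_mul, zpow_natCast, hui, one_zpow]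
    have hV0 : zpowers u ≠ ⊥ := by
      rw [Ne, zpowers_eq_bot]
      exact hu1'
    have hdN : d ∈ normalizer ((zpowers u : Subgroup (H ⧸ core Q₁)) : Set (H ⧸ core Q₁)) := by
      apply centralizer_le_normalizer
      rw [mem_centralizer_iff]
      intro h hh
      obtain ⟨e, rfl⟩ := mem_zpowers_iff.1 hh
      exact ((Commute.zpow_right (show Commute d u from hdu') e).eq).symm
    obtain ⟨m, hm⟩ := hloc _ hV hV0 ⟨d, hdN⟩
    have hm' : d ^ p ^ m = 1 := congrArg Subtype.val hm
    have h1 : orderOf d ∣ Nat.card L₁ := Subgroup.orderOf_dvd_natCard L₁ hd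
    obtain ⟨e, -, he⟩ := (Nat.dvd_prime_pow hpp).1 (orderOf_dvd_of_pow_eq_one hm')
    have he0 : e = 0 := by
      by_contra he0
      exact hL₁p ((dvd_pow_self p he0).trans (he ▸ h1))
    rw [he0, pow_zero] at he
    rw [orderOf_eq_one_iff.1 he, map_one]

/-- For centric Q the group N_G(Q)/Q and its quotient N_G(Q)/QC_G(Q) have the same p-part. -/
theorem card_core [Finite G] {Q : Subgroup G} (hQ : IsPGroup p Q)
    (hcentric : ∀ T : Subgroup G, IsPGroup p T → T ≤ centralizer (Q : Set G) → T ≤ Q) :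
    (Nat.card (normalizer (Q : Set G) ⧸ Q.subgroupOf (normalizer (Q : Set G)))).factorization p =
      (Nat.card (normalizer (Q : Set G) ⧸ core Q)).factorization p := by
  classical
  have hpp : p.Prime := Fact.out
  let N := normalizer (Q : Set G)
  let Q' := Q.subgroupOf N
  have hle : Q' ≤ core Q := le_sup_left
  let π : N ⧸ Q' →* N ⧸ core Q := QuotientGroup.map Q' (core Q) (MonoidHom.id N) (by
    rw [Subgroup.comap_id]; exact hle)
  have hπmk : ∀ x : N, π (QuotientGroup.mk x) = QuotientGroup.mk x := fun x => rfl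
  have hπ : Function.Surjective π := by
    intro y
    obtain ⟨x, rfl⟩ := QuotientGroup.mk_surjective y
    exact ⟨QuotientGroup.mk x, rfl⟩
  have hker : ¬ p ∣ Nat.card π.ker := by
    intro hdvd
    obtain ⟨y, hy⟩ := exists_prime_orderOf_dvd_card' p hdvd
    obtain ⟨x, hx⟩ := QuotientGroup.mk_surjective (y : N ⧸ Q')
    have hy1 : (y : N ⧸ Q') ≠ 1 := by
      intro h
      have : y = 1 := Subtype.ext h
      rw [this, orderOf_one] at hy
      exact hpp.one_lt.ne hy
    have hyp : (y : N ⧸ Q') ^ p = 1 := by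
      have := pow_orderOf_eq_one y
      rw [hy] at this
      exact congrArg Subtype.val this
    have hxcore : x ∈ core Q := by
      have h2 : π (y : N ⧸ Q') = 1 := y.2
      rw [← hx, hπmk, QuotientGroup.eq_one_iff] at h2
      exact h2
    rw [core, mem_sup_of_normal_right] at hxcore
    obtain ⟨q, hq, c, hc, hqc⟩ := hxcore
    have hyc : (y : N ⧸ Q') = QuotientGroup.mk c := by
      rw [← hx, ← hqc, QuotientGroup.mk_mul, (QuotientGroup.eq_one_iff q).2 hq, one_mul]
    have hcp : c ^ p ∈ Q' := by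
      rw [← QuotientGroup.eq_one_iff, QuotientGroup.mk_pow, ← hyc, hyp]
    rw [mem_subgroupOf] at hc hcp
    obtain ⟨j, hj⟩ := hQ ⟨_, hcp⟩
    have hj' : ((c : G) ^ p) ^ p ^ j = 1 := congrArg Subtype.val hj
    have hz : IsPGroup p (zpowers (c : G)) := by
      intro z
      obtain ⟨z, hz⟩ := z
      obtain ⟨i, rfl⟩ := mem_zpowers_iff.1 hz
      refine ⟨1 + j, Subtype.ext ?_⟩
      change ((c : G) ^ i) ^ p ^ (1 + j) = 1
      rw [← zpow_natCast, ← zpow_mul, mul_comm, zpow_mul, zpow_natCast, pow_add, pow_mul, pow_one,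
        hj', one_zpow]
    have hcQ : (c : G) ∈ Q := hcentric _ hz (by rw [zpowers_le]; exact hc) (mem_zpowers _)
    apply hy1
    rw [hyc, QuotientGroup.eq_one_iff]
    exact mem_subgroupOf.2 hcQ
  have hcardN : Nat.card (N ⧸ Q') = Nat.card (N ⧸ core Q) * Nat.card π.ker := by
    rw [Subgroup.card_eq_card_quotient_mul_card_subgroup π.ker]
    congr 1
    exact Nat.card_congr (QuotientGroup.quotientKerEquivOfSurjective π hπ).toEquiv
  change (Nat.card (N ⧸ Q')).factorization p = _
  rw [hcardN, Nat.factorization_mul Nat.card_pos.ne' Nat.card_pos.ne',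
    Finsupp.add_apply, Nat.factorization_eq_zero_of_not_dvd hker, add_zero]

end Local

end Vale.Agent.P179
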