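import Vale.Agent.P179.Tw.PTriv3

/-! The two weights, continued. -/

namespace Vale.Agent.P179

open Subgroup Representation Module

universe u v

section Wt

variable {p : ℕ} [Fact p.Prime] {G : Type u} [Group G] {n : ℕ}

theorem rhoQ_one {σ : Representation ℂ G (Fin n → ℂ)}
    (hp : ∀ g : G, (∃ j : ℕ, g ^ p ^ j = 1) → σ g = 1) {Q : Subgroup G} (hQ : IsPGroup p Q)
    (x : normalizer (Q : Set G)) (hx : (x : G) ∈ Q) : rhoQ σ Q x = 1 := by
  obtain ⟨j, hj⟩ := hQ ⟨_, hx⟩
  have h1 : σ (x : G) = 1 := hp _ ⟨j, congrArg Subtype.val hj⟩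
  have h2 : (QuotientGroup.mk x : normalizer (Q : Set G) ⧸ core Q) = 1 :=
    (QuotientGroup.eq_one_iff x).2
      (le_sup_left (α := Subgroup (normalizer (Q : Set G))) (mem_subgroupOf.2 hx))
  apply LinearMap.ext
  intro F
  funext y
  rw [rhoQ_apply, Xi_apply, h1, h2, inv_one, one_mul]
  rfl

theorem rhoQ_Op {σ : Representation ℂ G (Fin n → ℂ)}
    (hp : ∀ g : G, (∃ j : ℕ, g ^ p ^ j = 1) → σ g = 1) {Q : Subgroup G}
    (x : normalizer (Q : Set G)) (hx : (x : G) ∈ Op p G) :
    rhoQ σ Q x = Xi σ (normalizer (Q : Set G) ⧸ core Q) (1, QuotientGroup.mk x) := by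
  have h1 : σ (x : G) = 1 := triv_on_Op hp _ hx
  apply LinearMap.ext
  intro F
  funext y
  rw [rhoQ_apply, Xi_apply, Xi_apply, h1, map_one]

/-- A constituent of the local space as a representation of N_G(Q)/Q. -/
noncomputable def quotRep {σ : Representation ℂ G (Fin n → ℂ)} {Q : Subgroup G}
    (h : ∀ x : normalizer (Q : Set G), (x : G) ∈ Q → rhoQ σ Q x = 1)
    (U : Subrepresentation (rhoQ σ Q)) :
    Representation ℂ (normalizer (Q : Set G) ⧸ Q.subgroupOf (normalizer (Q : Set G)))
      U.toSubmodule :=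
  QuotientGroup.lift (Q.subgroupOf (normalizer (Q : Set G))) U.toRepresentation
    (fun x hx => LinearMap.ext fun u => Subtype.ext (by
      change rhoQ σ Q x (u : (normalizer (Q : Set G) ⧸ core Q) → Fin n → ℂ) = u
      rw [h x (mem_subgroupOf.1 hx)]
      rfl))

theorem quotRep_mk {σ : Representation ℂ G (Fin n → ℂ)} {Q : Subgroup G}
    (h : ∀ x : normalizer (Q : Set G), (x : G) ∈ Q → rhoQ σ Q x = 1)
    (U : Subrepresentation (rhoQ σ Q)) (x : normalizer (Q : Set G)) :
    quotRep h U (QuotientGroup.mk x) = U.toRepresentation x := rfl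

theorem quotRep_irr {σ : Representation ℂ G (Fin n → ℂ)} {Q : Subgroup G}
    (h : ∀ x : normalizer (Q : Set G), (x : G) ∈ Q → rhoQ σ Q x = 1)
    (U : Subrepresentation (rhoQ σ Q)) (hU : U.toRepresentation.IsIrreducible) :
    (quotRep h U).IsIrreducible := by
  have := irr_nontrivial U.toRepresentation
  apply irr_of_forall
  intro W hW
  apply irr_bot_or_top U.toRepresentation
  intro g v hv
  exact hW (QuotientGroup.mk g) v hv

/-- The weight given by a constituent of the local space. -/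
noncomputable def wt [Finite G] {σ : Representation ℂ G (Fin n → ℂ)} {Q : Subgroup G}
    (hQ : IsPGroup p Q)
    (h : ∀ x : normalizer (Q : Set G), (x : G) ∈ Q → rhoQ σ Q x = 1)
    (U : Subrepresentation (rhoQ σ Q)) (hU : U.toRepresentation.IsIrreducible)
    (hd : (finrank ℂ U.toSubmodule).factorization p =
      (Nat.card (normalizer (Q : Set G) ⧸ Q.subgroupOf (normalizer (Q : Set G)))).factorization
        p) : Weight p G where
  Q := Q
  phi := (quotRep h U).character
  isPGroup := hQ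
  irr := by
    have := quotRep_irr h U hU
    exact isIrrChar_of_rep (quotRep h U)
  defectZero := ⟨_, char_one _, hd⟩

theorem wt_infl [Finite G] {σ : Representation ℂ G (Fin n → ℂ)} {Q : Subgroup G}
    (hQ : IsPGroup p Q)
    (h : ∀ x : normalizer (Q : Set G), (x : G) ∈ Q → rhoQ σ Q x = 1)
    (U : Subrepresentation (rhoQ σ Q)) (hU : U.toRepresentation.IsIrreducible)
    (hd : (finrank ℂ U.toSubmodule).factorization p =
      (Nat.card (normalizer (Q : Set G) ⧸ Q.subgroupOf (normalizer (Q : Set G)))).factorization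
        p) (x : normalizer (Q : Set G)) :
    (wt hQ h U hU hd).infl x = U.toRepresentation.character x := rfl

theorem wt_belongs {k : Type v} [Field k] [CharP k p] [Finite G]
    (rho : integralClosure ℤ ℂ →+* k) {B : MonoidAlgebra k G}
    {σ : Representation ℂ G (Fin n → ℂ)} (hσ : σ.IsIrreducible)
    (hp : ∀ g : G, (∃ j : ℕ, g ^ p ^ j = 1) → σ g = 1) (hin : InBlock rho B σ.character)
    {Q : Subgroup G} (hQ : IsPGroup p Q)
    (h : ∀ x : normalizer (Q : Set G), (x : G) ∈ Q → rhoQ σ Q x = 1)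
    (U : Subrepresentation (rhoQ σ Q)) (hU : U.toRepresentation.IsIrreducible)
    (hd : (finrank ℂ U.toSubmodule).factorization p =
      (Nat.card (normalizer (Q : Set G) ⧸ Q.subgroupOf (normalizer (Q : Set G)))).factorization
        p) : (wt hQ h U hU hd).Belongs rho B := by
  intro m z hz x
  have h1 := hin m z hz x
  rw [← blockChar_rhoQ rho hσ hp hQ U hU hz] at h1
  exact h1

/-- The first weight, at a Sylow p-subgroup. -/
theorem first [Finite G] {σ : Representation ℂ G (Fin n → ℂ)} (hσ : σ.IsIrreducible)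
    (hp : ∀ g : G, (∃ j : ℕ, g ^ p ^ j = 1) → σ g = 1) (P : Sylow p G)
    (h : ∀ x : normalizer ((P : Subgroup G) : Set G), (x : G) ∈ (P : Subgroup G) →
      rhoQ σ (P : Subgroup G) x = 1) :
    ∃ U : Subrepresentation (rhoQ σ (P : Subgroup G)), U.toRepresentation.IsIrreducible ∧
      (finrank ℂ U.toSubmodule).factorization p = (Nat.card (normalizer ((P : Subgroup G) : Set G) ⧸
        (P : Subgroup G).subgroupOf (normalizer ((P : Subgroup G) : Set G)))).factorization p ∧
      ∀ x : normalizer ((P : Subgroup G) : Set G), (x : G) ∈ Op p G →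
        U.toRepresentation.character x = finrank ℂ U.toSubmodule := by
  classical
  let X := normalizer ((P : Subgroup G) : Set G) ⧸ core (P : Subgroup G)
  let J : Submodule ℂ (X → Fin n → ℂ) :=
    { carrier := {F | ∀ x y, F x = F y}
      add_mem' := fun {F F'} hF hF' x y => by
        rw [Pi.add_apply, Pi.add_apply, hF x y, hF' x y]
      zero_mem' := fun x y => rfl
      smul_mem' := fun c F hF x y => by rw [Pi.smul_apply, Pi.smul_apply, hF x y] }
  have hV := irr_nontrivial σ
  obtain ⟨v, hv⟩ := exists_ne (0 : Fin n → ℂ)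
  have hJ : J ≠ ⊥ := by
    intro h0
    have h1 : (fun _ => v : X → Fin n → ℂ) ∈ J := fun x y => rfl
    rw [h0, Submodule.mem_bot] at h1
    exact hv (congrFun h1 1)
  obtain ⟨U, hUJ, hU⟩ := exists_irr_sub (rhoQ σ (P : Subgroup G)) J hJ (fun g F hF x y => by
    rw [rhoQ_apply, Xi_apply, Xi_apply, hF _ ((QuotientGroup.mk g)⁻¹ * y)])
  refine ⟨U, hU, ?_, ?_⟩
  · have h1 := not_dvd_card_quot_sylow P
    have h2 := quotRep_irr h U hU
    have h3 := finrank_dvd_card (quotRep h U)
    rw [Nat.factorization_eq_zero_of_not_dvd h1,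
      Nat.factorization_eq_zero_of_not_dvd (fun h4 => h1 (h4.trans h3))]
  · intro x hx
    have h1 : U.toRepresentation x = 1 := by
      apply LinearMap.ext
      intro u
      apply Subtype.ext
      change rhoQ σ (P : Subgroup G) x (u : X → Fin n → ℂ) = u
      rw [rhoQ_Op hp x hx]
      funext y
      rw [Xi_apply, map_one]
      exact hUJ u.2 _ _
    unfold Representation.character
    rw [h1, LinearMap.trace_one]

/-- The second weight. -/
theorem second [Finite G] {σ : Representation ℂ G (Fin n → ℂ)} (hσ : σ.IsIrreducible)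
    (hp : ∀ g : G, (∃ j : ℕ, g ^ p ^ j = 1) → σ g = 1) {Q : Subgroup G} (hQ : IsPGroup p Q)
    (h : ∀ x : normalizer (Q : Set G), (x : G) ∈ Q → rhoQ σ Q x = 1)
    (hcentric : ∀ T : Subgroup G, IsPGroup p T → T ≤ centralizer (Q : Set G) → T ≤ Q)
    (L : Subgroup (normalizer (Q : Set G) ⧸ core Q)) (hLn : L.Normal) (hL0 : L ≠ ⊥)
    (hLT : L ≤ ((Op p G).subgroupOf (normalizer (Q : Set G))).map (QuotientGroup.mk' (core Q)))
    (hLu : ∀ u ∈ ((Op p G).subgroupOf (normalizer (Q : Set G))).map (QuotientGroup.mk' (core Q)),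
      (∃ j : ℕ, u ^ p ^ j = 1) → u ≠ 1 → ∀ d ∈ L, d * u = u * d → d = 1) :
    ∃ U : Subrepresentation (rhoQ σ Q), U.toRepresentation.IsIrreducible ∧
      (finrank ℂ U.toSubmodule).factorization p = (Nat.card (normalizer (Q : Set G) ⧸
        Q.subgroupOf (normalizer (Q : Set G)))).factorization p ∧
      ¬ ∀ x : normalizer (Q : Set G), (x : G) ∈ Op p G →
        U.toRepresentation.character x = finrank ℂ U.toSubmodule := by
  classical
  have hpp : p.Prime := Fact.out
  let N := normalizer (Q : Set G)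
  let X := N ⧸ core Q
  let T : Subgroup X := ((Op p G).subgroupOf N).map (QuotientGroup.mk' (core Q))
  have := Fintype.ofFinite L
  have hV := irr_nontrivial σ
  obtain ⟨v, hv⟩ := exists_ne (0 : Fin n → ℂ)
  let τ : (X → Fin n → ℂ) →ₗ[ℂ] (X → Fin n → ℂ) := ∑ l : L, Xi σ X (1, (l : X))
  have hτ : ∀ F, τ F = ∑ l : L, Xi σ X (1, (l : X)) F := fun F => by
    simp only [τ]
    rw [LinearMap.sum_apply]
  have hright : ∀ d ∈ L, ∀ F, τ (Xi σ X (1, d) F) = τ F := by
    intro d hd F
    rw [hτ, hτ, ← Equiv.sum_comp (Equiv.mulRight (⟨d, hd⟩ : L)) (fun l : L => Xi σ X (1, (l : X)) F)]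
    refine Finset.sum_congr rfl fun l _ => ?_
    rw [← Module.End.mul_apply, ← map_mul]
    congr 2
    simp
  have hcomm : ∀ (g : N) F, rhoQ σ Q g (τ F) = τ (rhoQ σ Q g F) := by
    intro g F
    rw [hτ, hτ, map_sum, ← Equiv.sum_comp (MulAut.conjNormal (H := L)
      (QuotientGroup.mk g : X)).toEquiv (fun l : L => Xi σ X (1, (l : X)) (rhoQ σ Q g F))]
    refine Finset.sum_congr rfl fun l _ => ?_
    rw [rhoQ_apply, ← Module.End.mul_apply, ← map_mul, ← Module.End.mul_apply, ← map_mul]
    congr 2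
    simp
  obtain ⟨d, hd1⟩ := Subgroup.ne_bot_iff_exists_ne_one.1 hL0
  have hd1' : (d : X) ≠ 1 := fun h => hd1 (Subtype.ext h)
  let F₀ : X → Fin n → ℂ := fun y => if y = 1 then v else 0
  have hJ : LinearMap.ker τ ≠ ⊥ := by
    intro h0
    have h1 : F₀ - Xi σ X (1, (d : X)) F₀ ∈ LinearMap.ker τ := by
      rw [LinearMap.mem_ker, map_sub, hright d d.2, sub_self]
    rw [h0, Submodule.mem_bot] at h1
    have h2 := congrFun h1 1
    rw [Pi.sub_apply, Xi_apply, map_one, mul_one, Pi.zero_apply] at h2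
    have h3 : (d : X)⁻¹ ≠ 1 := fun h => hd1' (inv_eq_one.1 h)
    simp only [F₀, if_neg h3, if_true] at h2
    rw [map_zero, sub_zero] at h2
    exact hv h2
  obtain ⟨U, hUJ, hU⟩ := exists_irr_sub (rhoQ σ Q) (LinearMap.ker τ) hJ (fun g F hF => by
    rw [LinearMap.mem_ker] at hF ⊢
    rw [← hcomm, hF, map_zero])
  let θ : Representation ℂ T (X → Fin n → ℂ) :=
    (Xi σ X).comp ((MonoidHom.inr G X).comp T.subtype)
  have hθ : ∀ t : T, θ t = Xi σ X (1, (t : X)) := fun t => rfl
  have hθU : ∀ t : T, ∃ x : N, (x : G) ∈ Op p G ∧ (QuotientGroup.mk x : X) = t ∧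
      θ t = rhoQ σ Q x := by
    rintro ⟨_, x, hx, rfl⟩
    exact ⟨x, mem_subgroupOf.1 hx, rfl, (rhoQ_Op hp x (mem_subgroupOf.1 hx)).symm⟩
  let U' : Subrepresentation θ := ⟨U.toSubmodule, fun t F hF => by
    obtain ⟨x, -, -, hx⟩ := hθU t
    rw [hx]
    exact U.apply_mem_toSubmodule x hF⟩
  have hU'U : ∀ t : T, ∀ x : N, θ t = rhoQ σ Q x →
      U'.toRepresentation t = U.toRepresentation x := by
    intro t x hx
    apply LinearMap.ext
    intro u
    apply Subtype.ext
    change θ t (u : X → Fin n → ℂ) = rhoQ σ Q x (u : X → Fin n → ℂ)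
    rw [hx]
  let D : Subgroup T := L.subgroupOf T
  have hDn : D.Normal := hLn.subgroupOf T
  have := Fintype.ofFinite D
  have hD : ∀ u : U'.toSubmodule, ∑ t : D, U'.toRepresentation (t : T) u = 0 := by
    intro u
    have h1 : τ (u : X → Fin n → ℂ) = 0 := hUJ u.2
    rw [hτ, ← Equiv.sum_comp (Subgroup.subgroupOfEquivOfLe hLT).toEquiv] at h1
    apply Subtype.ext
    rw [Submodule.coe_zero, ← h1, AddSubmonoidClass.coe_finsetSum]
    rfl
  have hchar : ∀ t : T, (∃ j : ℕ, (t : X) ^ p ^ j = 1) → t ≠ 1 →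
      U'.toRepresentation.character t = 0 := by
    intro t ht ht1
    apply character_eq_zero U'.toRepresentation D hD t
    intro d hd hdt
    apply Subtype.ext
    exact hLu _ t.2 ht (fun h => ht1 (Subtype.ext h)) _ (mem_subgroupOf.1 hd)
      (congrArg Subtype.val hdt)
  have hnt := irr_nontrivial U.toRepresentation
  have hfr : finrank ℂ U.toSubmodule ≠ 0 := (Module.finrank_pos (R := ℂ) (M := U.toSubmodule)).ne'
  refine ⟨U, hU, ?_, ?_⟩
  · obtain ⟨S⟩ : Nonempty (Sylow p T) := inferInstance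
    have hS : Nat.card S ∣ finrank ℂ U'.toSubmodule := by
      refine card_dvd_finrank U'.toRepresentation (S : Subgroup T) fun u hu hu1 => ?_
      obtain ⟨j, hj⟩ := S.isPGroup' ⟨u, hu⟩
      refine hchar u ⟨j, ?_⟩ hu1
      exact congrArg (fun s : (S : Subgroup T) => ((s : T) : X)) hj
    have h2 := quotRep_irr h U hU
    have h3 := finrank_dvd_card (quotRep h U)
    have hTX : (Nat.card X).factorization p = (Nat.card T).factorization p := by
      rw [← Subgroup.card_mul_index T, Nat.factorization_mul Nat.card_pos.ne'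
        Subgroup.index_ne_zero_of_finite, Finsupp.add_apply,
        Nat.factorization_eq_zero_of_not_dvd (n := T.index), add_zero]
      intro hdvd
      have h4 : T.index ∣ ((Op p G).subgroupOf N).index :=
        Subgroup.index_map_dvd _ (QuotientGroup.mk'_surjective _)
      have h5 : ((Op p G).subgroupOf N).index ∣ (Op p G).index :=
        Subgroup.relIndex_dvd_index_of_normal _ _
      exact not_dvd_index_Op (p := p) (G := G) (hdvd.trans (h4.trans h5))
    apply le_antisymm
    · exact (Nat.factorization_le_iff_dvd hfr Nat.card_pos.ne').2 h3 p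
    · rw [card_core hQ hcentric]
      change (Nat.card X).factorization p ≤ _
      rw [hTX, ← hpp.pow_dvd_iff_le_factorization hfr, ← S.card_eq_multiplicity]
      exact hS
  · intro hall
    obtain ⟨u, hu⟩ := exists_ne (0 : U.toSubmodule)
    have h1 : ∑ t : D, U'.toRepresentation.character (t : T) = 0 := by
      have h2 : LinearMap.trace ℂ U'.toSubmodule (∑ t : D, U'.toRepresentation (t : T)) = 0 := by
        have : (∑ t : D, U'.toRepresentation (t : T)) = 0 := by
          apply LinearMap.ext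
          intro v
          rw [LinearMap.sum_apply, hD v, LinearMap.zero_apply]
        rw [this, map_zero]
      rw [map_sum] at h2
      exact h2
    have h2 : ∀ t : D, U'.toRepresentation.character (t : T) = finrank ℂ U.toSubmodule := by
      intro t
      obtain ⟨x, hx, -, hxt⟩ := hθU t
      have h3 : U'.toRepresentation.character (t : T) = U.toRepresentation.character x := by
        unfold Representation.character
        rw [hU'U _ x hxt]
      rw [h3, hall x hx]
    rw [Finset.sum_congr rfl (fun t _ => h2 t), Finset.sum_const, nsmul_eq_mul] at h1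
    rcases mul_eq_zero.1 h1 with h3 | h3
    · rw [Nat.cast_eq_zero, Finset.card_eq_zero] at h3
      have : (1 : D) ∈ (Finset.univ : Finset D) := Finset.mem_univ _
      rw [h3] at this
      simp at this
    · exact hfr (by exact_mod_cast h3)

end Wt

section Main

variable {k : Type v} [Field k] {p : ℕ} [Fact p.Prime] [CharP k p] {G : Type u} [Group G]

/-- If B has only one weight then the subgroup generated by the p-elements is p-nilpotent. -/
theorem frobCond_Op [Finite G] (rho : integralClosure ℤ ℂ →+* k) {B : MonoidAlgebra k G}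
    {n : ℕ} {σ : Representation ℂ G (Fin n → ℂ)}
    (hσ : σ.IsIrreducible) (hp : ∀ g : G, (∃ j : ℕ, g ^ p ^ j = 1) → σ g = 1)
    (hin : InBlock rho B σ.character) (h1 : numWeights p rho B = 1) : FrobCond p (Op p G) := by
  classical
  by_contra hcon
  obtain ⟨Q, hQ, hcentric, L, hLn, hL0, hLT, hLu⟩ := local_data (M := Op p G)
    (fun T hT => isPGroup_le_Op hT) hcon
  obtain ⟨P⟩ : Nonempty (Sylow p G) := inferInstance
  have hQ1 := rhoQ_one (σ := σ) hp hQ
  have hP1 := rhoQ_one (σ := σ) hp P.isPGroup'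
  obtain ⟨U₁, hU₁, hd₁, hc₁⟩ := first hσ hp P hP1
  obtain ⟨U₂, hU₂, hd₂, hc₂⟩ := second hσ hp hQ hQ1 hcentric L hLn hL0 hLT hLu
  let w₁ : Weight p G := wt P.isPGroup' hP1 U₁ hU₁ hd₁
  let w₂ : Weight p G := wt hQ hQ1 U₂ hU₂ hd₂
  have hw₁ : w₁.Belongs rho B := wt_belongs rho hσ hp hin P.isPGroup' hP1 U₁ hU₁ hd₁
  have hw₂ : w₂.Belongs rho B := wt_belongs rho hσ hp hin hQ hQ1 U₂ hU₂ hd₂
  rw [numWeights, Nat.card_eq_one_iff_unique] at h1
  obtain ⟨hs, -⟩ := h1
  obtain ⟨g, hgQ, hg⟩ := Quotient.exact (Subsingleton.elim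
    (Quotient.mk ((weightSetoid p G).comap
      (Subtype.val : {w : Weight p G // w.Belongs rho B} → Weight p G)) ⟨w₁, hw₁⟩)
    (Quotient.mk _ ⟨w₂, hw₂⟩))
  have hgQ' : ∀ x, x ∈ Q ↔ g⁻¹ * x * g ∈ (P : Subgroup G) := hgQ
  have hg' : ∀ (x : normalizer ((P : Subgroup G) : Set G)) (y : normalizer (Q : Set G)),
      (y : G) = g * x * g⁻¹ → U₂.toRepresentation.character y =
        U₁.toRepresentation.character x := hg
  have hconst : ∀ y : normalizer (Q : Set G), (y : G) ∈ Op p G →
      U₂.toRepresentation.character y = finrank ℂ U₁.toSubmodule := by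
    intro y hy
    have hx : g⁻¹ * (y : G) * g ∈ normalizer ((P : Subgroup G) : Set G) := by
      rw [mem_normalizer_iff]
      intro t
      have h2 := hgQ' (g * t * g⁻¹)
      have h3 := hgQ' (g * (g⁻¹ * (y : G) * g * t * (g⁻¹ * (y : G) * g)⁻¹) * g⁻¹)
      have h4 : g⁻¹ * (g * t * g⁻¹) * g = t := by group
      have h5 : g⁻¹ * (g * (g⁻¹ * (y : G) * g * t * (g⁻¹ * (y : G) * g)⁻¹) * g⁻¹) * g =
        g⁻¹ * (y : G) * g * t * (g⁻¹ * (y : G) * g)⁻¹ := by group
      rw [h4] at h2
      rw [h5] at h3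
      have h6 : g * (g⁻¹ * (y : G) * g * t * (g⁻¹ * (y : G) * g)⁻¹) * g⁻¹ =
        (y : G) * (g * t * g⁻¹) * (y : G)⁻¹ := by group
      rw [h6] at h3
      have h7 := mem_normalizer_iff.1 y.2 (g * t * g⁻¹)
      exact (h2.symm.trans h7).trans h3
    have hxO : g⁻¹ * (y : G) * g ∈ Op p G := by
      have := (Op_normal p G).conj_mem _ hy g⁻¹
      simpa using this
    rw [hg' ⟨_, hx⟩ y (by
      change (y : G) = g * (g⁻¹ * (y : G) * g) * g⁻¹
      group)]
    exact hc₁ ⟨_, hx⟩ hxO
  apply hc₂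
  intro x hx
  rw [hconst x hx, ← hconst 1 (one_mem _), char_one]

theorem pNilpotent_Op [Finite G] (rho : integralClosure ℤ ℂ →+* k) {B : MonoidAlgebra k G}
    (hB : IsBlock k G B) {n : ℕ} {σ : Representation ℂ G (Fin n → ℂ)}
    (hσ : σ.IsIrreducible) (hp : ∀ g : G, (∃ j : ℕ, g ^ p ^ j = 1) → σ g = 1)
    (hin : InBlock rho B σ.character) (h1 : numSimple B = 1 ∨ numWeights p rho B = 1) :
    PNilpotent p (Op p G) := by
  rw [pNilpotent_iff]
  rcases h1 with h1 | h1
  · obtain ⟨L, hLn, hLO, hLp, hL⟩ := nilp_of_numSimple hB hσ hp hin h1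
    refine ⟨L.subgroupOf (Op p G), inferInstance, ?_, fun g => ?_⟩
    · rw [Nat.card_congr (Subgroup.subgroupOfEquivOfLe hLO).toEquiv]
      exact hLp
    · obtain ⟨j, hj⟩ := hL g g.2
      exact ⟨j, mem_subgroupOf.2 hj⟩
  · exact exists_normal_complement _ (Op p G) rfl (frobCond_Op rho hσ hp hin h1)

end Main

end Vale.Agent.P179
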