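import Vale.Agent.P179.Tw.PTriv4

/-! The principal block contains the trivial character; p-length one. -/

namespace Vale.Agent.P179

open Subgroup Representation Module

universe u v

theorem plength_of_pNilpotent {p : ℕ} [Fact p.Prime] {G : Type u} [Group G] [Finite G]
    (h : PNilpotent p (Op p G)) : ∃ K M : Subgroup G, K.Normal ∧ M.Normal ∧ K ≤ M ∧
      ¬ p ∣ Nat.card K ∧ (∃ n : ℕ, K.relIndex M = p ^ n) ∧ ¬ p ∣ M.index := by
  obtain ⟨L, hLn, hLp, n, hn⟩ := h
  have hcard : Nat.card (L.map (Op p G).subtype) = Nat.card L :=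
    (Nat.card_congr (L.equivMapOfInjective _ (Op p G).subtype_injective).toEquiv).symm
  refine ⟨L.map (Op p G).subtype, Op p G, ⟨?_⟩, inferInstance, map_subtype_le _,
    by rw [hcard]; exact hLp, ⟨n, ?_⟩, not_dvd_index_Op⟩
  · rintro _ ⟨x, hx, rfl⟩ g
    have hord : ¬ p ∣ orderOf x := by
      intro h
      apply hLp
      have h1 : orderOf (⟨x, hx⟩ : L) = orderOf x := by
        rw [← Subgroup.orderOf_coe]
      exact h.trans (h1 ▸ orderOf_dvd_natCard (⟨x, hx⟩ : L))
    have hgx : g * (x : G) * g⁻¹ ∈ Op p G := (Op_normal p G).conj_mem x x.2 g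
    have hmem : (⟨g * (x : G) * g⁻¹, hgx⟩ : Op p G) ^ p ^ n ∈ L := by
      rw [← hn]
      exact Subgroup.pow_index_mem L _
    refine ⟨⟨g * (x : G) * g⁻¹, hgx⟩, ?_, rfl⟩
    refine mem_of_pow_mem_of_coprime L ?_ hmem
    have h2 : orderOf (⟨g * (x : G) * g⁻¹, hgx⟩ : Op p G) = orderOf x := by
      rw [← Subgroup.orderOf_coe, ← Subgroup.orderOf_coe x]
      simp only
      have := orderOf_injective (MulAut.conj g).toMonoidHom (MulAut.conj g).injective (x : G)
      simpa [MulAut.conj_apply] using this
    rw [h2]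
    exact hord
  · rw [← hn, Subgroup.relIndex, Subgroup.subgroupOf, Subgroup.comap_map_eq_self_of_injective
      (Op p G).subtype_injective]

theorem blockChar_triv {k : Type v} [Field k] {G : Type u} [Group G] [Finite G]
    (rho : integralClosure ℤ ℂ →+* k) {z : MonoidAlgebra k G}
    (hz : z ∈ Set.center (MonoidAlgebra k G)) :
    blockChar rho (fun _ : G => (1 : ℂ)) z = aug z := by
  classical
  have := Fintype.ofFinite G
  have : Fintype (ConjClasses G) := Fintype.ofFinite _
  rw [blockChar_eq_sum, aug_eq_sum', sum_classes (fun x => z.coeff x) (fun g x => coeff_conj hz g x)]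
  refine Finset.sum_congr rfl fun C _ => ?_
  rw [mul_one, div_one, red_natCast, mul_comm]

theorem inBlock_principal {k : Type v} [Field k] {G : Type u} [Group G] [Finite G]
    (rho : integralClosure ℤ ℂ →+* k) {B : MonoidAlgebra k G} (hB : IsBlock k G B)
    (h1 : aug B = 1) : InBlock rho B (fun _ : G => (1 : ℂ)) := by
  intro m z hz x
  rw [blockChar_triv rho hz]
  exact central_smul hB h1 m hz x

end Vale.Agent.P179
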