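import Vale.Agent.P179.Tw.PTriv5
import Vale.Agent.P179.Tw.Ito

/-! Weights of a group whose subgroup generated by the p-elements is p-nilpotent. -/

namespace Vale.Agent.P179

open Subgroup Representation Module

universe u v

section WN

variable {k : Type v} [Field k] {p : ℕ} [Fact p.Prime] [CharP k p] {G : Type u} [Group G]

/-- The value of the central character at the sum of a normal subgroup acting trivially. -/
theorem blockChar_sum_subgroup [Finite G] (rho : integralClosure ℤ ℂ →+* k) {n : ℕ}
    {σ : Representation ℂ G (Fin n → ℂ)} (hσ : σ.IsIrreducible)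
    (hp : ∀ g : G, (∃ j : ℕ, g ^ p ^ j = 1) → σ g = 1) (K : Subgroup G) [K.Normal] [Fintype K]
    (hKM : K ≤ Op p G) :
    blockChar rho σ.character (∑ x : K, MonoidAlgebra.single (x : G) (1 : k)) = Nat.card K := by
  classical
  have := Fintype.ofFinite G
  have hnk : (n : k) ≠ 0 := fun h =>
    not_dvd_degree (p := p) hσ hp ((CharP.cast_eq_zero_iff k p n).1 h)
  have h1 := natCast_mul_blockChar (rho := rho) hσ (sum_subgroup_mem_center (k := k) K)
  have h2 : ∑ x : G, (∑ y : K, MonoidAlgebra.single (y : G) (1 : k)).coeff x *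
      red rho (σ.character x) = (n : k) * Nat.card K := by
    have h3 : ∀ x : G, (∑ y : K, MonoidAlgebra.single (y : G) (1 : k)).coeff x *
        red rho (σ.character x) = if x ∈ K then (n : k) else 0 := by
      intro x
      rw [coeff_sum_subgroup]
      split_ifs with hx
      · have h4 : σ.character x = n := by
          unfold Representation.character
          rw [triv_on_Op hp x (hKM hx), LinearMap.trace_one]
          simp
        rw [h4, red_natCast, one_mul]
      · rw [zero_mul]
    rw [Finset.sum_congr rfl (fun x _ => h3 x), ← Finset.sum_filter, Finset.sum_const,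
      nsmul_eq_mul, mul_comm]
    congr 2
    rw [← Fintype.card_subtype, ← Nat.card_eq_fintype_card]
  rw [h2] at h1
  exact mul_left_cancel₀ hnk h1

/-- If the subgroup generated by the p-elements is p-nilpotent, the weights of a block containing
a character trivial on p-elements live on Sylow subgroups and are trivial on p-elements. -/
theorem weight_nilp [Finite G] (rho : integralClosure ℤ ℂ →+* k) {K : Subgroup G}
    (hKn : K.Normal) (hKM : K ≤ Op p G) (hKp : ¬ p ∣ Nat.card K)
    (hK : ∀ g ∈ Op p G, ∃ j : ℕ, g ^ p ^ j ∈ K) {n : ℕ}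
    {σ : Representation ℂ G (Fin n → ℂ)} (hσ : σ.IsIrreducible)
    (hp : ∀ g : G, (∃ j : ℕ, g ^ p ^ j = 1) → σ g = 1) (w : Weight p G)
    (hw : ∀ z ∈ Set.center (MonoidAlgebra k G),
      blockChar rho w.infl (resCoeff (normalizer (w.Q : Set G)) z) = blockChar rho σ.character z) :
    (∃ S : Sylow p G, (S : Subgroup G) = w.Q) ∧
    ∃ (n' : ℕ) (σ' : Representation ℂ (normalizer (w.Q : Set G) ⧸
      w.Q.subgroupOf (normalizer (w.Q : Set G))) (Fin n' → ℂ)), σ'.IsIrreducible ∧
      σ'.character = w.phi ∧
      ∀ x : normalizer (w.Q : Set G), (x : G) ∈ Op p G → σ' (QuotientGroup.mk x) = 1 := by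
  classical
  have hpp : p.Prime := Fact.out
  have := Fintype.ofFinite G
  have := Fintype.ofFinite K
  let N := normalizer (w.Q : Set G)
  let Q' := w.Q.subgroupOf N
  have : Fintype N := Fintype.ofFinite _
  have : Fintype (ConjClasses N) := Fintype.ofFinite _
  let D : Subgroup N := K.subgroupOf N
  have : Fintype D := Fintype.ofFinite _
  have hbc := hw _ (sum_subgroup_mem_center (k := k) K)
  rw [blockChar_sum_subgroup rho hσ hp K hKM] at hbc
  have hcard : (Nat.card K : k) ≠ 0 := by
    rwa [Ne, CharP.cast_eq_zero_iff k p]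
  obtain ⟨n', σ', hσ', hchar⟩ := w.irr
  let π : N →* N ⧸ Q' := QuotientGroup.mk' Q'
  have hπ : Function.Surjective π := QuotientGroup.mk'_surjective Q'
  have hσπ := irr_comp σ' π hπ
  have hinfl : ∀ x, w.infl x = Representation.character (σ'.comp π) x := by
    intro x
    change w.phi _ = _
    rw [← hchar]
    rfl
  have hirr : IsIrrChar N w.infl := by
    have := isIrrChar_comp π hπ w.irr
    exact this
  have hf1 : w.infl 1 ≠ 0 := irr_one_ne_zero hirr
  rcases sum_normal (σ'.comp π : Representation ℂ N (Fin n' → ℂ)) D with h0 | h0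
  · exfalso
    have hsum : ∑ d : D, w.infl (d : N) = 0 := by
      have h2 : LinearMap.trace ℂ (Fin n' → ℂ)
          (∑ d : D, (σ'.comp π : Representation ℂ N (Fin n' → ℂ)) (d : N)) = 0 := by
        have : (∑ d : D, (σ'.comp π : Representation ℂ N (Fin n' → ℂ)) (d : N)) = 0 := by
          apply LinearMap.ext
          intro v
          rw [LinearMap.sum_apply, h0 v, LinearMap.zero_apply]
        rw [this, map_zero]
      rw [map_sum] at h2
      rw [← h2]
      exact Finset.sum_congr rfl fun d _ => hinfl d
    let F : N → ℂ := fun x => if (x : G) ∈ K then w.infl x / w.infl 1 else 0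
    have hF : ∀ g x, F (g * x * g⁻¹) = F x := by
      intro g x
      have h2 : ((g * x * g⁻¹ : N) : G) ∈ K ↔ (x : G) ∈ K := by
        constructor
        · intro h
          have := hKn.conj_mem _ h (g : G)⁻¹
          simpa [mul_assoc] using this
        · intro h
          exact hKn.conj_mem _ h (g : G)
      simp only [F, h2, irr_conj hirr]
    have hFsum : ∑ x, F x = 0 := by
      have h2 : ∑ x, F x = ∑ x ∈ Finset.univ.filter (fun x : N => (x : G) ∈ K),
          w.infl x / w.infl 1 := by
        rw [Finset.sum_filter]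
      have h3 := Finset.sum_subtype (F := (inferInstance : Fintype D))
        (Finset.univ.filter (fun x : N => (x : G) ∈ K)) (p := (· ∈ D))
        (by simp [D, mem_subgroupOf]) (fun x => w.infl x / w.infl 1)
      rw [h2, h3, ← Finset.sum_div]
      have h4 : ∑ a : D, w.infl (a : N) = 0 := hsum
      rw [h4, zero_div]
    rw [sum_classes F hF] at hFsum
    have hint : ∀ C : ConjClasses N, IsIntegral ℤ ((Nat.card C.carrier : ℂ) * F C.out) := by
      intro C
      by_cases hC : ((Quotient.out C : N) : G) ∈ K
      · simp only [F, if_pos hC]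
        rw [← mul_div_assoc]
        exact isIntegral_isIrrChar hirr C _ (mem_carrier_out C)
      · simp only [F, if_neg hC, mul_zero]
        exact isIntegral_zero
    have h5 := red_sum rho Finset.univ (fun C : ConjClasses N => (Nat.card C.carrier : ℂ) * F C.out)
      (fun C _ => hint C)
    have h6 : red rho (0 : ℂ) = 0 := red_zero rho
    rw [hFsum, h6] at h5
    apply hcard
    rw [← hbc, h5, blockChar_eq_sum]
    refine Finset.sum_congr rfl fun C _ => ?_
    rw [resCoeff_coeff, coeff_sum_subgroup]
    by_cases hC : ((Quotient.out C : N) : G) ∈ K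
    · rw [if_pos hC, one_mul]
      simp only [F, if_pos hC]
      rw [← mul_div_assoc]
    · rw [if_neg hC, zero_mul]
      simp only [F, if_neg hC, mul_zero, h6]
  · -- D acts trivially
    have hdeg : w.phi 1 = n' := by
      rw [← hchar, Representation.char_one]
      simp
    obtain ⟨d, hd1, hd2⟩ := w.defectZero
    have hdn : d = n' := by
      rw [hdeg] at hd1
      exact_mod_cast hd1.symm
    rw [hdn] at hd2
    let Γ := N ⧸ Q'
    let Dq : Subgroup Γ := D.map π
    have hDq : Dq.Normal := (inferInstance : D.Normal).map _ hπ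
    have hDqt : ∀ x ∈ Dq, σ' x = 1 := by
      rintro _ ⟨x, hx, rfl⟩
      exact LinearMap.ext fun v => h0 x hx v
    let σ'' : Representation ℂ (Γ ⧸ Dq) (Fin n' → ℂ) := QuotientGroup.lift Dq σ' hDqt
    have hσ'' : σ''.IsIrreducible := by
      have := irr_nontrivial σ'
      apply irr_of_forall
      intro W hW
      apply irr_bot_or_top σ'
      intro g v hv
      exact hW (QuotientGroup.mk g) v hv
    have hn0 : n' ≠ 0 := by
      rintro rfl
      have := irr_nontrivial σ'
      exact not_subsingleton (Fin 0 → ℂ) inferInstance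
    have h3 : n' ∣ Nat.card (Γ ⧸ Dq) := by
      have := finrank_dvd_card σ''
      simpa using this
    have h4 : (finrank ℂ (Fin n' → ℂ)).factorization p = (Nat.card (Γ ⧸ Dq)).factorization p := by
      rw [Module.finrank_fin_fun]
      apply le_antisymm
      · exact (Nat.factorization_le_iff_dvd hn0 Nat.card_pos.ne').2 h3 p
      · rw [hd2]
        exact (Nat.factorization_le_iff_dvd Nat.card_pos.ne' Nat.card_pos.ne').2
          (Subgroup.card_quotient_dvd_card Dq) p
    let R₀ : Subgroup Γ := ((Op p G).subgroupOf N).map π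
    have hR₀ : R₀.Normal := (inferInstance : ((Op p G).subgroupOf N).Normal).map _ hπ
    let R : Subgroup (Γ ⧸ Dq) := R₀.map (QuotientGroup.mk' Dq)
    have hRn : R.Normal := hR₀.map _ (QuotientGroup.mk'_surjective Dq)
    have hRp : IsPGroup p R := by
      rintro ⟨_, _, ⟨x, hx, rfl⟩, rfl⟩
      obtain ⟨j, hj⟩ := hK (x : G) (mem_subgroupOf.1 hx)
      refine ⟨j, Subtype.ext ?_⟩
      change (QuotientGroup.mk' Dq (π x)) ^ p ^ j = 1
      rw [← map_pow, ← map_pow]
      refine (QuotientGroup.eq_one_iff _).2 ⟨x ^ p ^ j, ?_, rfl⟩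
      rw [SetLike.mem_coe, mem_subgroupOf]
      simpa using hj
    have hR := eq_bot_of_defect_zero σ'' h4 R hRp
    have hR₀D : R₀ ≤ Dq := by
      intro x hx
      have : QuotientGroup.mk' Dq x ∈ R := ⟨x, hx, rfl⟩
      rw [hR, mem_bot] at this
      exact (QuotientGroup.eq_one_iff x).1 this
    have hndvd : ¬ p ∣ Nat.card Γ := by
      rw [← Subgroup.card_mul_index R₀, hpp.dvd_mul]
      rintro (h5 | h5)
      · apply hKp
        have h6 : Nat.card R₀ ∣ Nat.card Dq := Subgroup.card_dvd_of_le hR₀D
        have h7 : Nat.card Dq ∣ Nat.card D := Subgroup.card_map_dvd D π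
        have h8 : Nat.card D ∣ Nat.card K :=
          Subgroup.card_dvd_of_injective (N.subtype.subgroupComap K) (by
            rintro ⟨a, ha⟩ ⟨b, hb⟩ hab
            exact Subtype.ext (Subtype.ext (congrArg (fun t : K => (t : G)) hab)))
        exact h5.trans (h6.trans (h7.trans h8))
      · have h6 : R₀.index ∣ ((Op p G).subgroupOf N).index :=
          Subgroup.index_map_dvd _ hπ
        have h7 : ((Op p G).subgroupOf N).index ∣ (Op p G).index :=
          Subgroup.relIndex_dvd_index_of_normal _ _
        exact not_dvd_index_Op (p := p) (G := G) (h5.trans (h6.trans h7))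
    refine ⟨exists_sylow_eq w.isPGroup hndvd, n', σ', hσ', hchar, fun x hx => ?_⟩
    exact hDqt _ (hR₀D ⟨x, mem_subgroupOf.2 hx, rfl⟩)

end WN

end Vale.Agent.P179
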