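import Vale.Agent.P179.Tw.PTriv6

/-! Weights on Sylow subgroups and characters of G trivial on the p-elements. -/

namespace Vale.Agent.P179

open Subgroup Representation Module

universe u v

section CS

variable {G : Type u} [Group G] {n : ℕ}

/-- The constant functions. -/
noncomputable def constSub (σ : Representation ℂ G (Fin n → ℂ)) (Q : Subgroup G) :
    Subrepresentation (rhoQ σ Q) :=
  ⟨{ carrier := {F | ∀ x y, F x = F y}
     add_mem' := fun {F F'} hF hF' x y => by
       rw [Pi.add_apply, Pi.add_apply, hF x y, hF' x y]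
     zero_mem' := fun x y => rfl
     smul_mem' := fun c F hF x y => by rw [Pi.smul_apply, Pi.smul_apply, hF x y] },
   fun g F hF x y => by
    rw [rhoQ_apply, Xi_apply, Xi_apply, hF _ ((QuotientGroup.mk g)⁻¹ * y)]⟩

/-- Evaluation at one. -/
noncomputable def constEquiv (σ : Representation ℂ G (Fin n → ℂ)) (Q : Subgroup G) :
    (constSub σ Q).toSubmodule ≃ₗ[ℂ] (Fin n → ℂ) where
  toFun F := F.1 1
  map_add' F F' := rfl
  map_smul' c F := rfl
  invFun v := ⟨fun _ => v, fun x y => rfl⟩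
  left_inv F := by
    apply Subtype.ext
    funext y
    exact F.2 _ _
  right_inv v := rfl

theorem constEquiv_apply (σ : Representation ℂ G (Fin n → ℂ)) (Q : Subgroup G)
    (x : normalizer (Q : Set G)) (F : (constSub σ Q).toSubmodule) :
    constEquiv σ Q ((constSub σ Q).toRepresentation x F) = σ (x : G) (constEquiv σ Q F) := by
  change rhoQ σ Q x F.1 1 = σ (x : G) (F.1 1)
  rw [rhoQ_apply, Xi_apply, F.2 _ 1]

theorem constSub_char (σ : Representation ℂ G (Fin n → ℂ)) (Q : Subgroup G)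
    (x : normalizer (Q : Set G)) :
    (constSub σ Q).toRepresentation.character x = σ.character (x : G) := by
  unfold Representation.character
  rw [← LinearMap.trace_conj' ((constSub σ Q).toRepresentation x) (constEquiv σ Q)]
  congr 1

theorem constSub_irr {p : ℕ} [Fact p.Prime] {σ : Representation ℂ G (Fin n → ℂ)}
    (hσ : σ.IsIrreducible) (hp : ∀ g : G, (∃ j : ℕ, g ^ p ^ j = 1) → σ g = 1) {Q : Subgroup G}
    (hfr : ∀ g : G, ∃ x ∈ normalizer (Q : Set G), ∃ m ∈ Op p G, g = x * m) :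
    (constSub σ Q).toRepresentation.IsIrreducible := by
  have hV := irr_nontrivial σ
  have : Nontrivial (constSub σ Q).toSubmodule := (constEquiv σ Q).toEquiv.nontrivial
  apply irr_of_forall
  intro W hW
  rcases irr_bot_or_top σ (W.map (constEquiv σ Q : _ →ₗ[ℂ] _)) (fun g v hv => by
    obtain ⟨F, hF, rfl⟩ := hv
    obtain ⟨x, hx, m, hm, rfl⟩ := hfr g
    refine ⟨_, hW ⟨x, hx⟩ F hF, ?_⟩
    rw [LinearEquiv.coe_coe, constEquiv_apply, map_mul, triv_on_Op hp m hm, mul_one]) with h | h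
  · left
    rw [eq_bot_iff]
    intro F hF
    have h1 : constEquiv σ Q F ∈ W.map (constEquiv σ Q : _ →ₗ[ℂ] _) := ⟨F, hF, rfl⟩
    rw [h, Submodule.mem_bot] at h1
    rw [Submodule.mem_bot]
    exact (constEquiv σ Q).map_eq_zero_iff.1 h1
  · right
    rw [eq_top_iff]
    intro F _
    have h1 : constEquiv σ Q F ∈ W.map (constEquiv σ Q : _ →ₗ[ℂ] _) := by rw [h]; trivial
    obtain ⟨F', hF', h2⟩ := h1
    rwa [← (constEquiv σ Q).injective h2]

/-- Frattini argument. -/
theorem frattini {p : ℕ} [Fact p.Prime] [Finite G] (P : Sylow p G) (g : G) :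
    ∃ x ∈ normalizer ((P : Subgroup G) : Set G), ∃ m ∈ Op p G, g = x * m := by
  have h1 := Sylow.normalizer_sup_eq_top' P (sylow_le_Op P)
  have h2 : g ∈ normalizer ((P : Subgroup G) : Set G) ⊔ Op p G := by
    rw [show normalizer ((P : Subgroup G) : Set G) ⊔ Op p G = ⊤ from h1]
    trivial
  rw [mem_sup_of_normal_right] at h2
  obtain ⟨x, hx, m, hm, rfl⟩ := h2
  exact ⟨x, hx, m, hm, rfl⟩

/-- A character of N_G(Q), Q Sylow, trivial on the part of O^{p'}(G), extends to G. -/
theorem exists_ext {p : ℕ} [Fact p.Prime] [Finite G] {Q : Subgroup G}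
    (hS : ∃ S : Sylow p G, (S : Subgroup G) = Q)
    (σ' : Representation ℂ (normalizer (Q : Set G) ⧸ Q.subgroupOf (normalizer (Q : Set G)))
      (Fin n → ℂ)) (hσ' : σ'.IsIrreducible)
    (ht : ∀ x : normalizer (Q : Set G), (x : G) ∈ Op p G → σ' (QuotientGroup.mk x) = 1) :
    ∃ σ₂ : Representation ℂ G (Fin n → ℂ), σ₂.IsIrreducible ∧
      (∀ g : G, (∃ j : ℕ, g ^ p ^ j = 1) → σ₂ g = 1) ∧
      ∀ x : normalizer (Q : Set G), σ₂.character (x : G) = σ'.character (QuotientGroup.mk x) := by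
  classical
  obtain ⟨S, rfl⟩ := hS
  let N := normalizer ((S : Subgroup G) : Set G)
  have hfr : ∀ g : G, ∃ x : N, (x : G)⁻¹ * g ∈ Op p G := by
    intro g
    obtain ⟨x, hx, m, hm, rfl⟩ := frattini S g
    exact ⟨⟨x, hx⟩, by simpa using hm⟩
  choose s hs using hfr
  have hkey : ∀ (g : G) (x : N), (x : G)⁻¹ * g ∈ Op p G →
      σ' (QuotientGroup.mk (s g)) = σ' (QuotientGroup.mk x) := by
    intro g x hx
    have h1 : ((x⁻¹ * s g : N) : G) ∈ Op p G := by
      have h2 := mul_mem hx (inv_mem (hs g))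
      have h3 : (x : G)⁻¹ * g * (((s g : N) : G)⁻¹ * g)⁻¹ = (x : G)⁻¹ * ((s g : N) : G) := by group
      rw [h3] at h2
      exact h2
    have h4 := ht _ h1
    rw [QuotientGroup.mk_mul, map_mul] at h4
    calc σ' (QuotientGroup.mk (s g)) = σ' (QuotientGroup.mk x) *
          (σ' (QuotientGroup.mk x⁻¹) * σ' (QuotientGroup.mk (s g))) := by
            rw [← mul_assoc, ← map_mul, ← QuotientGroup.mk_mul, mul_inv_cancel,
              QuotientGroup.mk_one, map_one, one_mul]
      _ = _ := by rw [h4, mul_one]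
  have hOn := Op_normal p G
  let σ₂ : Representation ℂ G (Fin n → ℂ) :=
    { toFun := fun g => σ' (QuotientGroup.mk (s g))
      map_one' := by
        rw [hkey 1 1 (by simp), QuotientGroup.mk_one, map_one]
      map_mul' := fun g h => by
        rw [hkey (g * h) (s g * s h) ?_, QuotientGroup.mk_mul, map_mul]
        have h1 := hOn.conj_mem _ (hs g) ((s h : N) : G)⁻¹
        have h2 := mul_mem h1 (hs h)
        have h3 : ((s h : N) : G)⁻¹ * (((s g : N) : G)⁻¹ * g) * (((s h : N) : G)⁻¹)⁻¹ *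
            (((s h : N) : G)⁻¹ * h) = ((s g * s h : N) : G)⁻¹ * (g * h) := by
          rw [Subgroup.coe_mul]
          group
        rw [h3] at h2
        exact h2 }
  have hσ₂ : ∀ x : N, σ₂ (x : G) = σ' (QuotientGroup.mk x) := fun x =>
    hkey (x : G) x (by simp)
  refine ⟨σ₂, ?_, ?_, fun x => ?_⟩
  · have := irr_nontrivial σ'
    apply irr_of_forall
    intro W hW
    apply irr_bot_or_top σ'
    intro g v hv
    obtain ⟨x, rfl⟩ := QuotientGroup.mk_surjective g
    have h1 := hW (x : G) v hv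
    rwa [hσ₂] at h1
  · intro g hg
    have h1 : σ₂ g = σ' (QuotientGroup.mk (1 : N)) := hkey g 1 (by
      rw [OneMemClass.coe_one, inv_one, one_mul]
      exact Subgroup.subset_closure hg)
    rw [h1, QuotientGroup.mk_one, map_one]
  · unfold Representation.character
    rw [hσ₂]

end CS

section Wt

variable {k : Type v} [Field k] {p : ℕ} [Fact p.Prime] [CharP k p] {G : Type u} [Group G]

theorem blockChar_sylow [Finite G] (rho : integralClosure ℤ ℂ →+* k) {n : ℕ}
    {σ : Representation ℂ G (Fin n → ℂ)} (hσ : σ.IsIrreducible)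
    (hp : ∀ g : G, (∃ j : ℕ, g ^ p ^ j = 1) → σ g = 1) {Q : Subgroup G}
    (hS : ∃ S : Sylow p G, (S : Subgroup G) = Q)
    {z : MonoidAlgebra k G} (hz : z ∈ Set.center (MonoidAlgebra k G)) :
    blockChar rho (fun x : normalizer (Q : Set G) => σ.character (x : G))
      (resCoeff (normalizer (Q : Set G)) z) = blockChar rho σ.character z := by
  obtain ⟨S, rfl⟩ := hS
  rw [← blockChar_rhoQ rho hσ hp S.isPGroup' (constSub σ (S : Subgroup G))
    (constSub_irr hσ hp (frattini S)) hz]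
  congr 1
  funext x
  rw [constSub_char]

/-- The weight at a Sylow p-subgroup given by a character trivial on the p-elements. -/
noncomputable def sylW [Finite G] {n : ℕ} {σ : Representation ℂ G (Fin n → ℂ)}
    (hσ : σ.IsIrreducible) (hp : ∀ g : G, (∃ j : ℕ, g ^ p ^ j = 1) → σ g = 1) (P : Sylow p G) :
    Weight p G :=
  wt P.isPGroup' (rhoQ_one hp P.isPGroup') (constSub σ (P : Subgroup G))
    (constSub_irr hσ hp (frattini P)) (by
      have h1 := not_dvd_card_quot_sylow P
      have h2 := quotRep_irr (rhoQ_one hp P.isPGroup') (constSub σ (P : Subgroup G))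
        (constSub_irr hσ hp (frattini P))
      have h3 := finrank_dvd_card (quotRep (rhoQ_one hp P.isPGroup')
        (constSub σ (P : Subgroup G)))
      rw [Nat.factorization_eq_zero_of_not_dvd h1,
        Nat.factorization_eq_zero_of_not_dvd (fun h4 => h1 (h4.trans h3))])

theorem sylW_infl [Finite G] {n : ℕ} {σ : Representation ℂ G (Fin n → ℂ)}
    (hσ : σ.IsIrreducible) (hp : ∀ g : G, (∃ j : ℕ, g ^ p ^ j = 1) → σ g = 1) (P : Sylow p G)
    (x : normalizer ((P : Subgroup G) : Set G)) :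
    (sylW hσ hp P).infl x = σ.character (x : G) :=
  constSub_char σ (P : Subgroup G) x

theorem sylW_belongs [Finite G] (rho : integralClosure ℤ ℂ →+* k) {B : MonoidAlgebra k G} {n : ℕ}
    {σ : Representation ℂ G (Fin n → ℂ)}
    (hσ : σ.IsIrreducible) (hp : ∀ g : G, (∃ j : ℕ, g ^ p ^ j = 1) → σ g = 1)
    (hin : InBlock rho B σ.character) (P : Sylow p G) : (sylW hσ hp P).Belongs rho B :=
  wt_belongs rho hσ hp hin P.isPGroup' (rhoQ_one hp P.isPGroup') (constSub σ (P : Subgroup G))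
    (constSub_irr hσ hp (frattini P)) _

/-- Conjugate Sylow weights come from the same character. -/
theorem char_eq_of_rel [Finite G] {n n' : ℕ} {σ : Representation ℂ G (Fin n → ℂ)}
    (hσ : σ.IsIrreducible) (hp : ∀ g : G, (∃ j : ℕ, g ^ p ^ j = 1) → σ g = 1)
    {σ' : Representation ℂ G (Fin n' → ℂ)}
    (hσ' : σ'.IsIrreducible) (hp' : ∀ g : G, (∃ j : ℕ, g ^ p ^ j = 1) → σ' g = 1)
    (P : Sylow p G) (h : (weightSetoid p G).r (sylW hσ hp P) (sylW hσ' hp' P)) :
    σ.character = σ'.character := by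
  obtain ⟨g, hgQ, hg⟩ := h
  have hgQ' : ∀ x, x ∈ (P : Subgroup G) ↔ g⁻¹ * x * g ∈ (P : Subgroup G) := hgQ
  have hg' : ∀ (x y : normalizer ((P : Subgroup G) : Set G)),
      (y : G) = g * x * g⁻¹ → σ'.character (y : G) = σ.character (x : G) := by
    intro x y hxy
    rw [← sylW_infl hσ hp P x, ← sylW_infl hσ' hp' P y]
    exact hg x y hxy
  have hgN : g ∈ normalizer ((P : Subgroup G) : Set G) := by
    rw [mem_normalizer_iff]
    intro t
    have h2 := hgQ' (g * t * g⁻¹)
    have h4 : g⁻¹ * (g * t * g⁻¹) * g = t := by group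
    rw [h4] at h2
    exact h2.symm
  funext y
  obtain ⟨x, hx, m, hm, rfl⟩ := frattini P y
  have h1 : ∀ {n : ℕ} (τ : Representation ℂ G (Fin n → ℂ)),
      (∀ g : G, (∃ j : ℕ, g ^ p ^ j = 1) → τ g = 1) → τ.character (x * m) = τ.character x := by
    intro n τ hτ
    unfold Representation.character
    rw [map_mul, triv_on_Op hτ m hm, mul_one]
  rw [h1 σ hp, h1 σ' hp']
  have h2 := hg' ⟨x, hx⟩ (⟨g, hgN⟩ * ⟨x, hx⟩ * (⟨g, hgN⟩ : normalizer ((P : Subgroup G) : Set G))⁻¹)
    rfl
  have h3 : σ'.character (g * x * g⁻¹) = σ'.character x := Representation.char_conj σ' x g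
  exact h2.symm.trans h3

/-- If O^{p'}(G) is p-nilpotent, every weight of B is conjugate to a Sylow weight given by an
ordinary character in B trivial on the p-elements. -/
theorem weight_rel [Finite G] (rho : integralClosure ℤ ℂ →+* k) {B : MonoidAlgebra k G}
    (hB : IsBlock k G B) {K : Subgroup G}
    (hKn : K.Normal) (hKM : K ≤ Op p G) (hKp : ¬ p ∣ Nat.card K)
    (hK : ∀ g ∈ Op p G, ∃ j : ℕ, g ^ p ^ j ∈ K) {n : ℕ}
    {σ : Representation ℂ G (Fin n → ℂ)} (hσ : σ.IsIrreducible)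
    (hp : ∀ g : G, (∃ j : ℕ, g ^ p ^ j = 1) → σ g = 1) (hin : InBlock rho B σ.character)
    (P : Sylow p G) (w : Weight p G) (hwB : w.Belongs rho B) :
    ∃ (n₂ : ℕ) (σ₂ : Representation ℂ G (Fin n₂ → ℂ)) (hσ₂ : σ₂.IsIrreducible)
      (hp₂ : ∀ g : G, (∃ j : ℕ, g ^ p ^ j = 1) → σ₂ g = 1), InBlock rho B σ₂.character ∧
      (weightSetoid p G).r (sylW hσ₂ hp₂ P) w := by
  obtain ⟨m⟩ := exists_simpleIn hB
  have hms := isSimple_of_maximal m.2.1
  have hnt : Nontrivial (MonoidAlgebra k G ⧸ m.1) :=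
    IsSimpleModule.nontrivial (MonoidAlgebra k G) _
  obtain ⟨x₀, hx₀⟩ := exists_ne (0 : MonoidAlgebra k G ⧸ m.1)
  have hscal : ∀ a b : k, algebraMap k (MonoidAlgebra k G) a • x₀ =
      algebraMap k (MonoidAlgebra k G) b • x₀ → a = b := by
    intro a b hab
    by_contra hne
    have h1 : algebraMap k (MonoidAlgebra k G) (a - b) • x₀ = 0 := by
      rw [map_sub, sub_smul, hab, sub_self]
    have h2 : algebraMap k (MonoidAlgebra k G) (a - b)⁻¹ •
        (algebraMap k (MonoidAlgebra k G) (a - b) • x₀) = x₀ := by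
      rw [smul_smul, ← map_mul, inv_mul_cancel₀ (sub_ne_zero.2 hne), map_one, one_smul]
    rw [h1, smul_zero] at h2
    exact hx₀ h2.symm
  have hw : ∀ z ∈ Set.center (MonoidAlgebra k G),
      blockChar rho w.infl (resCoeff (normalizer (w.Q : Set G)) z) =
        blockChar rho σ.character z := by
    intro z hz
    exact hscal _ _ ((hwB m z hz x₀).symm.trans (hin m z hz x₀))
  obtain ⟨hS, n', σ', hσ', hchar, ht⟩ := weight_nilp rho hKn hKM hKp hK hσ hp w hw
  obtain ⟨σ₂, hσ₂, hp₂, hc₂⟩ := exists_ext hS σ' hσ' ht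
  have hinfl : w.infl = fun x : normalizer (w.Q : Set G) => σ₂.character (x : G) := by
    funext x
    rw [hc₂]
    change w.phi _ = _
    rw [hchar]
  refine ⟨n', σ₂, hσ₂, hp₂, ?_, ?_⟩
  · intro m' z hz x
    have h1 := hwB m' z hz x
    rw [hinfl, blockChar_sylow rho hσ₂ hp₂ hS hz] at h1
    exact h1
  · obtain ⟨S, hS'⟩ := hS
    obtain ⟨g, hg⟩ := MulAction.exists_smul_eq G P S
    refine ⟨g, fun x => ?_, fun x y hxy => ?_⟩
    · have h2 : x ∈ (S : Subgroup G) ↔ g⁻¹ * x * g ∈ (P : Subgroup G) := by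
        rw [← hg, Sylow.coe_subgroup_smul, Subgroup.mem_pointwise_smul_iff_inv_smul_mem]
        simp [MulAut.smul_def]
      rw [hS'] at h2
      exact h2
    · have hxy' : (y : G) = g * (x : G) * g⁻¹ := hxy
      rw [hinfl]
      change σ₂.character (y : G) = _
      rw [show (sylW hσ₂ hp₂ P).infl x = σ₂.character (x : G) from sylW_infl hσ₂ hp₂ P x, hxy',
        Representation.char_conj]

end Wt

end Vale.Agent.P179
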