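import Vale.Agent.P179.Tw.PTriv7

/-! Central idempotents of group algebras. -/

namespace Vale.Agent.P179

open Subgroup Representation Module

universe u v

section Gen

variable {F : Type*} [Field F] {Γ : Type*} [Group Γ] {V : Type*} [AddCommGroup V] [Module F V]

theorem irrF_bot_or_top (σ : Representation F Γ V) [h : σ.IsIrreducible] (W : Submodule F V)
    (hW : ∀ g, ∀ v ∈ W, σ g v ∈ W) : W = ⊥ ∨ W = ⊤ := by
  rcases h.eq_bot_or_eq_top ⟨W, fun g v hv => hW g v hv⟩ with h | h
  · left
    exact congrArg Subrepresentation.toSubmodule h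
  · right
    exact congrArg Subrepresentation.toSubmodule h

theorem irrF_nontrivial (σ : Representation F Γ V) [h : σ.IsIrreducible] : Nontrivial V := by
  by_contra hV
  rw [not_nontrivial_iff_subsingleton] at hV
  have h2 : (⊥ : Subrepresentation σ) ≠ ⊤ := bot_ne_top
  apply h2
  apply Subrepresentation.toSubmodule_injective
  exact Subsingleton.elim _ _

theorem irrF_of_forall (σ : Representation F Γ V) [hV : Nontrivial V]
    (h : ∀ W : Submodule F V, (∀ g, ∀ v ∈ W, σ g v ∈ W) → W = ⊥ ∨ W = ⊤) : σ.IsIrreducible := by
  have : Nontrivial (Subrepresentation σ) := ⟨⊥, ⊤, fun h2 => by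
    have h3 : (⊥ : Submodule F V) = ⊤ := congrArg Subrepresentation.toSubmodule h2
    exact bot_ne_top h3⟩
  refine ⟨fun W => ?_⟩
  rcases h W.toSubmodule (fun g v hv => W.apply_mem_toSubmodule g hv) with h | h
  · left
    exact Subrepresentation.toSubmodule_injective h
  · right
    exact Subrepresentation.toSubmodule_injective h

/-- Class functions act by scalars on irreducible representations. -/
theorem weighted [IsAlgClosed F] [Fintype Γ] (ψ : Representation F Γ V) [h : ψ.IsIrreducible]
    [FiniteDimensional F V] (θ : Γ → F) (hθ : ∀ g x, θ (g * x * g⁻¹) = θ x) :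
    ∃ c : F, (∀ v, ∑ x, θ x • ψ x v = c • v) ∧
      c * finrank F V = ∑ x, θ x * ψ.character x := by
  classical
  have hV := irrF_nontrivial ψ
  let f : End F V := ∑ x, θ x • ψ x
  have hfa : ∀ v, f v = ∑ x, θ x • ψ x v := fun v => by
    simp only [f, LinearMap.sum_apply, LinearMap.smul_apply]
  have hcomm : ∀ g v, f (ψ g v) = ψ g (f v) := by
    intro g v
    rw [hfa, hfa, map_sum, ← Equiv.sum_comp (MulAut.conj g).toEquiv]
    refine Finset.sum_congr rfl fun x _ => ?_
    have h1 : (MulAut.conj g).toEquiv x = g * x * g⁻¹ := rfl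
    rw [h1, hθ, map_smul, ← Module.End.mul_apply, ← map_mul, ← Module.End.mul_apply, ← map_mul]
    congr 3
    group
  obtain ⟨c, hc⟩ := Module.End.exists_eigenvalue f
  have hall : ∀ v, f v = c • v := by
    rcases irrF_bot_or_top ψ (f.eigenspace c) (fun g v hv => by
      rw [Module.End.mem_eigenspace_iff] at hv ⊢
      rw [hcomm, hv, map_smul]) with h | h
    · exact absurd h hc
    · intro v
      have : v ∈ f.eigenspace c := by rw [h]; trivial
      exact Module.End.mem_eigenspace_iff.1 this
  refine ⟨c, fun v => by rw [← hfa, hall], ?_⟩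
  have hfc : f = algebraMap F (End F V) c := by
    ext v
    rw [hall, Module.algebraMap_end_apply]
  have h2 : LinearMap.trace F V f = ∑ x, θ x * ψ.character x := by
    simp only [f, map_sum, map_smul, smul_eq_mul]
    rfl
  rw [← h2, hfc, Algebra.algebraMap_eq_smul_one, map_smul, LinearMap.trace_one, smul_eq_mul]

/-- The representation of Γ on the simple module A / m. -/
noncomputable def modRep (m : Ideal (MonoidAlgebra F Γ)) :
    Representation F Γ (MonoidAlgebra F Γ ⧸ m) where
  toFun g :=
    { toFun := fun x => MonoidAlgebra.single g (1 : F) • x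
      map_add' := smul_add _
      map_smul' := fun c x => by
        obtain ⟨a, rfl⟩ := Submodule.Quotient.mk_surjective _ x
        rw [RingHom.id_apply, ← Submodule.Quotient.mk_smul, ← Submodule.Quotient.mk_smul,
          ← Submodule.Quotient.mk_smul, ← Submodule.Quotient.mk_smul, smul_eq_mul, smul_eq_mul,
          mul_smul_comm] }
  map_one' := by
    apply LinearMap.ext
    intro x
    change MonoidAlgebra.single (1 : Γ) (1 : F) • x = x
    rw [← MonoidAlgebra.one_def, one_smul]
  map_mul' g h := by
    apply LinearMap.ext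
    intro x
    change MonoidAlgebra.single (g * h) (1 : F) • x =
      MonoidAlgebra.single g (1 : F) • (MonoidAlgebra.single h (1 : F) • x)
    rw [smul_smul, MonoidAlgebra.single_mul_single, one_mul]

theorem modRep_apply (m : Ideal (MonoidAlgebra F Γ)) (g : Γ) (x : MonoidAlgebra F Γ ⧸ m) :
    modRep m g x = MonoidAlgebra.single g (1 : F) • x := rfl

theorem smul_eq_sum [Fintype Γ] (m : Ideal (MonoidAlgebra F Γ)) (a : MonoidAlgebra F Γ)
    (x : MonoidAlgebra F Γ ⧸ m) : a • x = ∑ g, a.coeff g • modRep m g x := by
  classical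
  induction a using MonoidAlgebra.induction_linear with
  | zero => simp
  | add a b ha hb =>
    rw [add_smul, ha, hb, ← Finset.sum_add_distrib]
    refine Finset.sum_congr rfl fun g _ => ?_
    rw [MonoidAlgebra.coeff_add, Finsupp.add_apply, add_smul]
  | single g r =>
    rw [Finset.sum_eq_single g]
    · rw [modRep_apply]
      obtain ⟨b, rfl⟩ := Submodule.Quotient.mk_surjective _ x
      rw [← Submodule.Quotient.mk_smul, ← Submodule.Quotient.mk_smul,
        ← Submodule.Quotient.mk_smul, smul_eq_mul, smul_eq_mul, ← smul_mul_assoc]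
      simp
    · intro h _ hh
      simp [MonoidAlgebra.coeff_single, Ne.symm hh]
    · simp

theorem modRep_irr [Finite Γ] {m : Ideal (MonoidAlgebra F Γ)} (hm : m.IsMaximal) :
    (modRep m).IsIrreducible := by
  have := Fintype.ofFinite Γ
  have hs := isSimple_of_maximal hm
  have hnt : Nontrivial (MonoidAlgebra F Γ ⧸ m) := IsSimpleModule.nontrivial (MonoidAlgebra F Γ) _
  apply irrF_of_forall
  intro W hW
  let W' : Submodule (MonoidAlgebra F Γ) (MonoidAlgebra F Γ ⧸ m) :=
    { carrier := W
      add_mem' := fun ha hb => W.add_mem ha hb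
      zero_mem' := W.zero_mem
      smul_mem' := fun a x hx => by
        rw [smul_eq_sum]
        exact W.sum_mem fun g _ => W.smul_mem _ (hW g x hx) }
  rcases eq_bot_or_eq_top W' with h | h
  · left
    rw [eq_bot_iff]
    intro x hx
    have : x ∈ W' := hx
    rw [h] at this
    exact this
  · right
    rw [eq_top_iff]
    intro x _
    have : x ∈ W' := by rw [h]; trivial
    exact this

end Gen

end Vale.Agent.P179
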