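import Mathlib.RepresentationTheory.Maschke
import Vale.Agent.P179.Tw.PTriv8

/-! The central idempotents given by the ordinary irreducible characters of a group of order
prime to p. -/

namespace Vale.Agent.P179

open Subgroup Representation Module

universe u v

section Orth

variable {H : Type u} [Group H]

theorem irr_orth [Finite H] [Fintype H] {f g : H → ℂ} (hf : IsIrrChar H f) (hg : IsIrrChar H g) :
    ∑ x, f x * g x⁻¹ = if f = g then (Nat.card H : ℂ) else 0 := by
  classical
  have hc : (Nat.card H : ℂ) ≠ 0 := by exact_mod_cast Nat.card_pos.ne'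
  have : Invertible (Nat.card H : ℂ) := invertibleOfNonzero hc
  by_cases h : f = g
  · subst h
    obtain ⟨n, σ, hσ, rfl⟩ := hf
    have h1 := char_orthonormal σ σ
    rw [if_pos ⟨Representation.Equiv.refl σ⟩, inv_mul_eq_iff_eq_mul₀ hc, mul_one] at h1
    rw [h1, if_pos rfl]
  · obtain ⟨n, σ, hσ, rfl⟩ := hf
    obtain ⟨n', σ', hσ', rfl⟩ := hg
    have h1 := char_orthonormal σ σ'
    rw [if_neg (fun ⟨e⟩ => h (char_iso e).symm), inv_mul_eq_iff_eq_mul₀ hc, mul_zero] at h1
    rw [h1, if_neg h]

theorem finite_irr (H : Type u) [Group H] [Finite H] : {f : H → ℂ | IsIrrChar H f}.Finite := by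
  classical
  have := Fintype.ofFinite H
  have hc : (Nat.card H : ℂ) ≠ 0 := by exact_mod_cast Nat.card_pos.ne'
  have h1 : LinearIndependent ℂ (fun f : {f : H → ℂ | IsIrrChar H f} => (f : H → ℂ)) := by
    rw [linearIndependent_iff']
    intro s c hs i hi
    have h2 : ∑ x, (∑ j ∈ s, c j • (j : H → ℂ)) x * (i : H → ℂ) x⁻¹ = 0 := by
      rw [hs]
      simp
    have h3 : ∑ x, (∑ j ∈ s, c j • (j : H → ℂ)) x * (i : H → ℂ) x⁻¹ =
        ∑ j ∈ s, c j * ∑ x, (j : H → ℂ) x * (i : H → ℂ) x⁻¹ := by
      simp only [Finset.sum_apply, Pi.smul_apply, smul_eq_mul, Finset.sum_mul, Finset.mul_sum]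
      rw [Finset.sum_comm]
      exact Finset.sum_congr rfl fun j _ => Finset.sum_congr rfl fun x _ => by ring
    rw [h3, Finset.sum_eq_single i] at h2
    · rw [irr_orth i.2 i.2, if_pos rfl] at h2
      exact (mul_eq_zero.1 h2).resolve_right hc
    · intro j _ hj
      rw [irr_orth j.2 i.2, if_neg (fun h => hj (Subtype.ext h)), mul_zero]
    · exact fun h => absurd hi h
  exact h1.setFinite

/-- The irreducible characters. -/
noncomputable def Irr (H : Type u) [Group H] [Finite H] : Finset (H → ℂ) :=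
  (finite_irr H).toFinset

theorem mem_Irr [Finite H] {f : H → ℂ} : f ∈ Irr H ↔ IsIrrChar H f := by
  unfold Irr
  rw [Set.Finite.mem_toFinset]
  rfl

theorem irr_one [Finite H] {f : H → ℂ} (hf : IsIrrChar H f) :
    ∃ n : ℕ, f 1 = n ∧ n ∣ Nat.card H := by
  obtain ⟨n, σ, hσ, rfl⟩ := hf
  refine ⟨n, ?_, ?_⟩
  · rw [char_one]
    simp
  · have := finrank_dvd_card σ
    simpa using this

/-- The decomposition of the regular character. -/
theorem regular_char [Finite H] (h : H) [Decidable (h = 1)] :
    ∑ f ∈ Irr H, f 1 * f h⁻¹ = if h = 1 then (Nat.card H : ℂ) else 0 := by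
  classical
  have := Fintype.ofFinite H
  have hc : (Nat.card H : ℂ) ≠ 0 := by exact_mod_cast Nat.card_pos.ne'
  let e : (H → ℂ) → MonoidAlgebra ℂ H := fun f =>
    ∑ x, MonoidAlgebra.single x (f 1 / Nat.card H * f x⁻¹)
  have he : ∀ f x, (e f).coeff x = f 1 / Nat.card H * f x⁻¹ := by
    intro f x
    simp only [e]
    rw [MonoidAlgebra.coeff_sum, Finsupp.finsetSum_apply, Finset.sum_eq_single x]
    · simp [MonoidAlgebra.coeff_single]
    · intro y _ hy
      simp [MonoidAlgebra.coeff_single, hy]
    · simp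
  let z : MonoidAlgebra ℂ H := 1 - ∑ f ∈ Irr H, e f
  have hz : z = 0 := by
    have h1 : z ∈ Ideal.jacobson (⊥ : Ideal (MonoidAlgebra ℂ H)) := by
      rw [Ideal.jacobson, Submodule.mem_sInf]
      rintro m ⟨-, hm⟩
      have hirr := modRep_irr hm
      have hfd : FiniteDimensional ℂ (MonoidAlgebra ℂ H ⧸ m) := inferInstance
      have hχ := isIrrChar_of_rep (modRep m)
      set χ : H → ℂ := (modRep m).character with hχdef
      have hef : ∀ f ∈ Irr H, ∀ x : MonoidAlgebra ℂ H ⧸ m,
          e f • x = if f = χ then x else 0 := by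
        intro f hf x
        have hf' := mem_Irr.1 hf
        obtain ⟨c, hc1, hc2⟩ := weighted (modRep m) (fun y => f y⁻¹) (fun g y => by
          have : (g * y * g⁻¹)⁻¹ = g * y⁻¹ * g⁻¹ := by group
          simp only [this]
          exact irr_conj hf' g y⁻¹)
        have h2 : e f • x = (f 1 / Nat.card H * c) • x := by
          rw [smul_eq_sum, mul_smul, ← hc1 x, Finset.smul_sum]
          refine Finset.sum_congr rfl fun y _ => ?_
          rw [he, smul_smul]
        have h3 : ∑ y, f y⁻¹ * χ y = if f = χ then (Nat.card H : ℂ) else 0 := by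
          have h4 := irr_orth hχ hf'
          rw [Finset.sum_congr rfl (fun y _ => mul_comm (f y⁻¹) (χ y)), h4]
          split_ifs with h5 h6 h6
          · rfl
          · exact absurd h5.symm h6
          · exact absurd h6.symm h5
          · rfl
        have hfr : (finrank ℂ (MonoidAlgebra ℂ H ⧸ m) : ℂ) = χ 1 := (char_one _).symm
        have hχ1 : χ 1 ≠ 0 := irr_one_ne_zero hχ
        rw [h3, hfr] at hc2
        rw [h2]
        split_ifs at hc2 ⊢ with h5
        · rw [h5]
          have : χ 1 / Nat.card H * c = 1 := by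
            rw [div_mul_eq_mul_div, mul_comm, hc2, div_self hc]
          rw [this, one_smul]
        · have : c = 0 := (mul_eq_zero.1 hc2).resolve_right hχ1
          rw [this, mul_zero, zero_smul]
      have h2 : z • (Submodule.Quotient.mk 1 : MonoidAlgebra ℂ H ⧸ m) = 0 := by
        simp only [z]
        rw [sub_smul, one_smul, Finset.sum_smul, Finset.sum_congr rfl (fun f hf => hef f hf _),
          Finset.sum_ite_eq' (Irr H) χ, if_pos (mem_Irr.2 hχ), sub_self]
      rw [← Submodule.Quotient.mk_smul, smul_eq_mul, mul_one, Submodule.Quotient.mk_eq_zero] at h2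
      exact h2
    have hne : NeZero (Nat.card H : ℂ) := ⟨hc⟩
    rw [Ideal.jacobson_bot, IsSemisimpleRing.jacobson_eq_bot] at h1
    exact h1
  have h2 : z.coeff h = 0 := by rw [hz]; simp
  have h3 : z.coeff h = (if h = 1 then 1 else 0) - ∑ f ∈ Irr H, f 1 / Nat.card H * f h⁻¹ := by
    simp only [z]
    rw [MonoidAlgebra.coeff_sub, Finsupp.sub_apply, MonoidAlgebra.coeff_sum,
      Finsupp.finsetSum_apply, Finset.sum_congr rfl (fun f _ => he f h)]
    congr 1
    rw [MonoidAlgebra.one_def, MonoidAlgebra.coeff_single, Finsupp.single_apply]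
    simp only [eq_comm]
  rw [h3, sub_eq_zero] at h2
  have h4 : ∑ f ∈ Irr H, f 1 * f h⁻¹ = (Nat.card H : ℂ) * ∑ f ∈ Irr H, f 1 / Nat.card H * f h⁻¹ := by
    rw [Finset.mul_sum]
    refine Finset.sum_congr rfl fun f _ => ?_
    field_simp
  rw [h4, ← h2]
  split_ifs <;> simp

end Orth

section Idem

variable {k : Type v} [Field k] (rho : integralClosure ℤ ℂ →+* k) {H : Type u} [Group H]

/-- The reduction of the central idempotent of a character. -/
noncomputable def idem [Fintype H] (f : H → ℂ) : MonoidAlgebra k H :=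
  ∑ x, MonoidAlgebra.single x (red rho (f 1) / Nat.card H * red rho (f x⁻¹))

theorem coeff_idem [Fintype H] (f : H → ℂ) (x : H) :
    (idem rho f).coeff x = red rho (f 1) / Nat.card H * red rho (f x⁻¹) := by
  classical
  unfold idem
  rw [MonoidAlgebra.coeff_sum, Finsupp.finsetSum_apply, Finset.sum_eq_single x]
  · simp [MonoidAlgebra.coeff_single]
  · intro y _ hy
    simp [MonoidAlgebra.coeff_single, hy]
  · simp

theorem irr_integral [Finite H] {f : H → ℂ} (hf : IsIrrChar H f) (x : H) :
    IsIntegral ℤ (f x) := by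
  obtain ⟨n, σ, hσ, rfl⟩ := hf
  exact isIntegral_character σ x

theorem idem_center [Finite H] [Fintype H] {f : H → ℂ} (hf : IsIrrChar H f) :
    idem rho f ∈ Set.center (MonoidAlgebra k H) := by
  rw [mem_center_iff_single]
  intro g
  ext x
  rw [MonoidAlgebra.coeff_single_mul_apply, MonoidAlgebra.coeff_mul_single_apply, one_mul,
    mul_one, coeff_idem, coeff_idem]
  congr 2
  have h1 : (g⁻¹ * x)⁻¹ = g⁻¹ * (g * (x⁻¹ * g) * g⁻¹) * g := by group
  have h2 : (x * g⁻¹)⁻¹ = g * (x⁻¹ * g) * g⁻¹ := by group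
  have h3 : (g⁻¹ * x)⁻¹ = x⁻¹ * g := by group
  rw [h3, h2, irr_conj hf]

theorem sum_idem {p : ℕ} [Fact p.Prime] [CharP k p] [Finite H] [Fintype H]
    (hp : ¬ p ∣ Nat.card H) : ∑ f ∈ Irr H, idem rho f = 1 := by
  classical
  have hk : (Nat.card H : k) ≠ 0 := by rwa [Ne, CharP.cast_eq_zero_iff k p]
  ext x
  rw [MonoidAlgebra.coeff_sum, Finsupp.finsetSum_apply,
    Finset.sum_congr rfl (fun f _ => coeff_idem rho f x)]
  have h1 : ∀ f ∈ Irr H, red rho (f 1) / Nat.card H * red rho (f x⁻¹) =
      (Nat.card H : k)⁻¹ * red rho (f 1 * f x⁻¹) := by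
    intro f hf
    have hf' := mem_Irr.1 hf
    rw [red_mul (irr_integral hf' 1) (irr_integral hf' x⁻¹)]
    ring
  rw [Finset.sum_congr rfl h1, ← Finset.mul_sum, ← red_sum rho _ _ (fun f hf =>
    (irr_integral (mem_Irr.1 hf) 1).mul (irr_integral (mem_Irr.1 hf) x⁻¹)), regular_char,
    MonoidAlgebra.one_def, MonoidAlgebra.coeff_single, Finsupp.single_apply]
  by_cases hx : x = 1
  · rw [if_pos hx, if_pos hx.symm, red_natCast, inv_mul_cancel₀ hk]
  · rw [if_neg hx, if_neg (Ne.symm hx), red_zero, mul_zero]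

theorem coeff_mul_eq_sum [Fintype H] (z e : MonoidAlgebra k H) (h : H) :
    (z * e).coeff h = ∑ x, z.coeff x * e.coeff (x⁻¹ * h) := by
  classical
  induction z using MonoidAlgebra.induction_linear with
  | zero => simp
  | add a b ha hb =>
    rw [add_mul, MonoidAlgebra.coeff_add, Finsupp.add_apply, ha, hb, ← Finset.sum_add_distrib]
    refine Finset.sum_congr rfl fun x _ => ?_
    rw [MonoidAlgebra.coeff_add, Finsupp.add_apply, add_mul]
  | single g r =>
    rw [MonoidAlgebra.coeff_single_mul_apply, Finset.sum_eq_single g]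
    · simp [MonoidAlgebra.coeff_single]
    · intro x _ hx
      simp [MonoidAlgebra.coeff_single, Ne.symm hx]
    · simp

theorem idem_mul [Finite H] [Fintype H] {f : H → ℂ} (hf : IsIrrChar H f) {z : MonoidAlgebra k H}
    (hz : z ∈ Set.center (MonoidAlgebra k H)) :
    z * idem rho f = blockChar rho f z • idem rho f := by
  classical
  have : Fintype (ConjClasses H) := Fintype.ofFinite _
  ext h
  rw [coeff_mul_eq_sum, MonoidAlgebra.coeff_smul, Finsupp.smul_apply, smul_eq_mul, coeff_idem]
  have h1 : ∀ x, z.coeff x * (idem rho f).coeff (x⁻¹ * h) =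
      red rho (f 1) / Nat.card H * (z.coeff x * red rho (f (h⁻¹ * x))) := by
    intro x
    rw [coeff_idem, mul_inv_rev, inv_inv]
    ring
  rw [Finset.sum_congr rfl (fun x _ => h1 x), ← Finset.mul_sum, mul_left_comm]
  congr 1
  rw [blockChar_self rho hf]
  have hω : ∀ K : ConjClasses H, IsIntegral ℤ
      (∑ x, if ConjClasses.mk x = K then f x / f 1 else 0) := by
    intro K
    rw [sum_classes (fun x : H => if ConjClasses.mk x = K then f x / f 1 else 0)
      (fun g x => by rw [mk_conj, irr_conj hf])]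
    refine IsIntegral.sum _ fun C _ => ?_
    split_ifs
    · rw [← mul_div_assoc]
      exact isIntegral_isIrrChar hf C _ (mem_carrier_out C)
    · rw [mul_zero]
      exact isIntegral_zero
  have hS : ∀ K : ConjClasses H, ∑ x, (if ConjClasses.mk x = K then f (h⁻¹ * x) else 0) =
      (∑ x, if ConjClasses.mk x = K then f x / f 1 else 0) * f h⁻¹ := by
    intro K
    obtain ⟨n, σ, hσ, rfl⟩ := hf
    have h2 := class_scalar σ (fun x : H => ConjClasses.mk x = K) (fun g x => by rw [mk_conj])
    set ω := ∑ x, (if ConjClasses.mk x = K then σ.character x / σ.character 1 else 0) with hωdef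
    have h3 : (∑ x, (if ConjClasses.mk x = K then σ (h⁻¹ * x) else 0)) = ω • σ h⁻¹ := by
      apply LinearMap.ext
      intro v
      rw [LinearMap.sum_apply, LinearMap.smul_apply, ← map_smul, ← h2 v, map_sum]
      refine Finset.sum_congr rfl fun x _ => ?_
      split_ifs
      · rw [map_mul, Module.End.mul_apply]
      · rw [map_zero, LinearMap.zero_apply]
    have h4 := congrArg (LinearMap.trace ℂ (Fin n → ℂ)) h3
    rw [map_sum, map_smul, smul_eq_mul] at h4
    refine Eq.trans ?_ h4
    refine Finset.sum_congr rfl fun x _ => ?_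
    split_ifs
    · rfl
    · rw [map_zero]
  have h5 : ∑ x, z.coeff x * red rho (f (h⁻¹ * x)) = ∑ K : ConjClasses H, z.coeff K.out *
      ∑ x, (if ConjClasses.mk x = K then red rho (f (h⁻¹ * x)) else 0) := by
    simp only [Finset.mul_sum]
    rw [Finset.sum_comm]
    refine Finset.sum_congr rfl fun x _ => ?_
    rw [Finset.sum_eq_single (ConjClasses.mk x)]
    · rw [if_pos rfl, coeff_out hz]
    · intro K _ hK
      rw [if_neg (Ne.symm hK), mul_zero]
    · simp
  rw [h5, Finset.sum_mul]
  refine Finset.sum_congr rfl fun K _ => ?_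
  rw [mul_assoc]
  congr 1
  rw [← red_mul (hω K) (irr_integral hf h⁻¹), ← hS K, red_sum rho _ _ (fun x _ => by
    split_ifs
    · exact irr_integral hf _
    · exact isIntegral_zero)]
  refine Finset.sum_congr rfl fun x _ => ?_
  split_ifs
  · rfl
  · exact (red_zero rho).symm

theorem blockChar_idem {p : ℕ} [Fact p.Prime] [CharP k p] [Finite H] [Fintype H]
    (hp : ¬ p ∣ Nat.card H) {f g : H → ℂ} (hf : IsIrrChar H f) (hg : IsIrrChar H g)
    [Decidable (g = f)] : blockChar rho g (idem rho f) = if g = f then 1 else 0 := by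
  classical
  have hk : (Nat.card H : k) ≠ 0 := by rwa [Ne, CharP.cast_eq_zero_iff k p]
  have hone : ∀ {f : H → ℂ}, IsIrrChar H f → red rho (f 1) ≠ 0 := by
    intro f hf
    obtain ⟨n, hn, hd⟩ := irr_one hf
    rw [hn, red_natCast, Ne, CharP.cast_eq_zero_iff k p]
    exact fun h => hp (h.trans hd)
  have h1 : red rho (g 1) * blockChar rho g (idem rho f) =
      ∑ x, (idem rho f).coeff x * red rho (g x) := by
    obtain ⟨n, σ, hσ, rfl⟩ := hg
    rw [← natCast_mul_blockChar (rho := rho) hσ (idem_center rho hf), char_one, red_natCast]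
    simp
  have h2 : ∑ x, (idem rho f).coeff x * red rho (g x) =
      red rho (f 1) / Nat.card H * red rho (∑ x, g x * f x⁻¹) := by
    rw [red_sum rho _ _ (fun x _ => (irr_integral hg x).mul (irr_integral hf x⁻¹)),
      Finset.mul_sum]
    refine Finset.sum_congr rfl fun x _ => ?_
    rw [coeff_idem, red_mul (irr_integral hg x) (irr_integral hf x⁻¹)]
    ring
  rw [h2, irr_orth hg hf] at h1
  by_cases h : g = f
  · subst h
    rw [if_pos rfl] at h1 ⊢
    rw [red_natCast, div_mul_cancel₀ _ hk] at h1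
    exact mul_left_cancel₀ (hone hg) (h1.trans (mul_one _).symm)
  · rw [if_neg h] at h1 ⊢
    rw [red_zero, mul_zero] at h1
    exact (mul_eq_zero.1 h1).resolve_left (hone hg)

end Idem

end Vale.Agent.P179
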