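import Vale.Agent.P179.Tw.PTriv9

/-! Simple modules of a block that are trivial on the subgroup generated by the p-elements. -/

namespace Vale.Agent.P179

open Subgroup Representation Module

universe u v

section Mod

variable {k : Type v} [Field k] {p : ℕ} [Fact p.Prime] [CharP k p] {G : Type u} [Group G]

/-- If O^{p'}(G) is p-nilpotent it acts trivially on the simple modules of B. -/
theorem triv_of_nilp [Finite G] {rho : integralClosure ℤ ℂ →+* k} {B : MonoidAlgebra k G}
    {K : Subgroup G}
    (hKn : K.Normal) (hKM : K ≤ Op p G) (hKp : ¬ p ∣ Nat.card K)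
    (hK : ∀ g ∈ Op p G, ∃ j : ℕ, g ^ p ^ j ∈ K) {n : ℕ}
    {σ : Representation ℂ G (Fin n → ℂ)} (hσ : σ.IsIrreducible)
    (hp : ∀ g : G, (∃ j : ℕ, g ^ p ^ j = 1) → σ g = 1) (hin : InBlock rho B σ.character)
    (m : SimpleIn B) : ∀ g ∈ Op p G, ∀ x : MonoidAlgebra k G ⧸ m.1,
      MonoidAlgebra.single g (1 : k) • x = x := by
  classical
  have := Fintype.ofFinite K
  have hs := isSimple_of_maximal m.2.1
  have hcard : (Nat.card K : k) ≠ 0 := by
    rwa [Ne, CharP.cast_eq_zero_iff k p]
  have hKtriv : ∀ l ∈ K, ∀ x : MonoidAlgebra k G ⧸ m.1, MonoidAlgebra.single l (1 : k) • x = x := by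
    intro l hl x
    have h2 := hin m _ (sum_subgroup_mem_center (k := k) K)
    rw [blockChar_sum_subgroup rho hσ hp K hKM] at h2
    have h3 : algebraMap k (MonoidAlgebra k G) (Nat.card K) • MonoidAlgebra.single l (1 : k) • x =
        algebraMap k (MonoidAlgebra k G) (Nat.card K) • x := by
      rw [← h2 x, ← h2 (MonoidAlgebra.single l (1 : k) • x), smul_smul]
      congr 1
      have h4 := mem_center_iff_single.1 (sum_subgroup_mem_center (k := k) K) l
      rw [← h4, single_mul_sum_subgroup K hl]
    have h5 : ∀ t : MonoidAlgebra k G ⧸ m.1, algebraMap k (MonoidAlgebra k G) (Nat.card K : k)⁻¹ •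
        algebraMap k (MonoidAlgebra k G) (Nat.card K : k) • t = t := by
      intro t
      rw [smul_smul, ← map_mul, inv_mul_cancel₀ hcard, map_one, one_smul]
    rw [← h5 (MonoidAlgebra.single l (1 : k) • x), h3, h5]
  have hnt : Nontrivial (MonoidAlgebra k G ⧸ m.1) :=
    IsSimpleModule.nontrivial (MonoidAlgebra k G) _
  obtain ⟨x, hx⟩ := exists_ne (0 : MonoidAlgebra k G ⧸ m.1)
  obtain ⟨P⟩ : Nonempty (Sylow p G) := inferInstance
  obtain ⟨y, hy0, hy⟩ := exists_fixed (k := k) (P : Subgroup G) P.isPGroup' x hx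
  have htop : Op p G ≤ K ⊔ (P : Subgroup G) := by
    intro g hg
    have h1 := sup_sylow_eq_top (K.subgroupOf (Op p G)) (fun g => by
      obtain ⟨j, hj⟩ := hK g g.2
      exact ⟨j, mem_subgroupOf.2 hj⟩) (P.subtype (sylow_le_Op P))
    have h2 : (⟨g, hg⟩ : Op p G) ∈ K.subgroupOf (Op p G) ⊔
        ((P.subtype (sylow_le_Op P) : Sylow p (Op p G)) : Subgroup (Op p G)) := by
      rw [h1]; trivial
    rw [mem_sup_of_normal_left] at h2
    obtain ⟨a, ha, b, hb, hab⟩ := h2
    have h3 : g = (a : G) * (b : G) := (congrArg Subtype.val hab).symm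
    rw [h3]
    refine mul_mem (le_sup_left (α := Subgroup G) (mem_subgroupOf.1 ha))
      (le_sup_right (α := Subgroup G) ?_)
    rw [Sylow.coe_subtype] at hb
    exact mem_subgroupOf.1 hb
  let St : Subgroup G :=
    { carrier := {g | MonoidAlgebra.single g (1 : k) • y = y}
      mul_mem' := fun {a b} ha hb => by
        change MonoidAlgebra.single (a * b) (1 : k) • y = y
        have : MonoidAlgebra.single (a * b) (1 : k) =
            MonoidAlgebra.single a (1 : k) * MonoidAlgebra.single b (1 : k) := by simp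
        rw [this, mul_smul, show _ • y = y from hb, show _ • y = y from ha]
      one_mem' := by
        change MonoidAlgebra.single (1 : G) (1 : k) • y = y
        rw [← MonoidAlgebra.one_def, one_smul]
      inv_mem' := fun {a} ha => by
        change MonoidAlgebra.single a⁻¹ (1 : k) • y = y
        have ha' : MonoidAlgebra.single a (1 : k) • y = y := ha
        conv_lhs => rw [← ha']
        rw [smul_smul]
        simp [← MonoidAlgebra.one_def] }
  have hall : ∀ g ∈ Op p G, MonoidAlgebra.single g (1 : k) • y = y := by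
    have h2 : Op p G ≤ St :=
      htop.trans (sup_le (fun l hl => hKtriv l hl y) (fun u hu => hy u hu))
    exact fun g hg => h2 hg
  let W : Submodule (MonoidAlgebra k G) (MonoidAlgebra k G ⧸ m.1) :=
    { carrier := {x | ∀ g ∈ Op p G, MonoidAlgebra.single g (1 : k) • x = x}
      add_mem' := fun {a b} ha hb g hg => by rw [smul_add, ha g hg, hb g hg]
      zero_mem' := fun g _ => smul_zero _
      smul_mem' := fun a x hx => by
        induction a using MonoidAlgebra.induction_linear with
        | zero => intro g _; simp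
        | add a b ha hb =>
          intro g hg
          rw [add_smul, smul_add, ha g hg, hb g hg]
        | single h r =>
          intro g hg
          have h1 := hx _ ((Op_normal p G).conj_mem g hg h⁻¹)
          have h2 : MonoidAlgebra.single g (1 : k) * MonoidAlgebra.single h r =
              MonoidAlgebra.single h r * MonoidAlgebra.single (h⁻¹ * g * h⁻¹⁻¹) (1 : k) := by
            simp [mul_assoc]
          rw [smul_smul, h2, mul_smul, h1] }
  have hW : W = ⊤ := by
    rcases eq_bot_or_eq_top W with h | h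
    · exfalso
      have : y ∈ W := hall
      rw [h, Submodule.mem_bot] at this
      exact hy0 this
    · exact h
  intro g hg x
  have hxW : x ∈ W := by rw [hW]; trivial
  exact hxW g hg

omit [Fact p.Prime] [CharP k p] in
theorem proj_surjective : Function.Surjective (proj p k G) := by
  intro c
  induction c using MonoidAlgebra.induction_linear with
  | zero => exact ⟨0, map_zero _⟩
  | add a b ha hb =>
    obtain ⟨a', rfl⟩ := ha
    obtain ⟨b', rfl⟩ := hb
    exact ⟨a' + b', map_add _ _ _⟩
  | single h r =>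
    obtain ⟨g, rfl⟩ := QuotientGroup.mk_surjective h
    exact ⟨MonoidAlgebra.single g r, proj_single g r⟩

omit [Fact p.Prime] [CharP k p] in
theorem proj_center {z : MonoidAlgebra k G} (hz : z ∈ Set.center (MonoidAlgebra k G)) :
    proj p k G z ∈ Set.center (MonoidAlgebra k (G ⧸ Op p G)) := by
  apply Semigroup.mem_center_iff.2
  intro c
  obtain ⟨a, rfl⟩ := proj_surjective c
  rw [← map_mul, ← map_mul, (Semigroup.mem_center_iff.1 hz) a]

/-- The representation of G / O^{p'}(G) on a simple module. -/
noncomputable def quotMod (m : Ideal (MonoidAlgebra k G))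
    (ht : ∀ g ∈ Op p G, ∀ x : MonoidAlgebra k G ⧸ m, MonoidAlgebra.single g (1 : k) • x = x) :
    Representation k (G ⧸ Op p G) (MonoidAlgebra k G ⧸ m) :=
  QuotientGroup.lift (Op p G) (modRep m) (fun g hg => LinearMap.ext (ht g hg))

omit [Fact p.Prime] [CharP k p] in
theorem smul_quot [Fintype (G ⧸ Op p G)] (m : Ideal (MonoidAlgebra k G))
    (ht : ∀ g ∈ Op p G, ∀ x : MonoidAlgebra k G ⧸ m, MonoidAlgebra.single g (1 : k) • x = x)
    (a : MonoidAlgebra k G) (x : MonoidAlgebra k G ⧸ m) :
    a • x = ∑ h, (proj p k G a).coeff h • quotMod m ht h x := by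
  classical
  induction a using MonoidAlgebra.induction_linear with
  | zero => simp
  | add a b ha hb =>
    rw [add_smul, ha, hb, ← Finset.sum_add_distrib]
    refine Finset.sum_congr rfl fun g _ => ?_
    rw [map_add, MonoidAlgebra.coeff_add, Finsupp.add_apply, add_smul]
  | single g r =>
    rw [proj_single, Finset.sum_eq_single (QuotientGroup.mk g : G ⧸ Op p G)]
    · change _ = _ • (MonoidAlgebra.single g (1 : k) • x)
      obtain ⟨b, rfl⟩ := Submodule.Quotient.mk_surjective _ x
      rw [← Submodule.Quotient.mk_smul, ← Submodule.Quotient.mk_smul,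
        ← Submodule.Quotient.mk_smul, smul_eq_mul, smul_eq_mul, ← smul_mul_assoc]
      simp
    · intro h _ hh
      simp [MonoidAlgebra.coeff_single, Ne.symm hh]
    · simp

omit [Fact p.Prime] [CharP k p] in
theorem smul_congr [Finite G] (m : Ideal (MonoidAlgebra k G))
    (ht : ∀ g ∈ Op p G, ∀ x : MonoidAlgebra k G ⧸ m, MonoidAlgebra.single g (1 : k) • x = x)
    {a b : MonoidAlgebra k G} (hab : proj p k G a = proj p k G b) (x : MonoidAlgebra k G ⧸ m) :
    a • x = b • x := by
  have : Fintype (G ⧸ Op p G) := Fintype.ofFinite _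
  rw [smul_quot m ht, smul_quot m ht, hab]

omit [Fact p.Prime] [CharP k p] in
theorem quotMod_irr [Finite G] {m : Ideal (MonoidAlgebra k G)} (hm : m.IsMaximal)
    (ht : ∀ g ∈ Op p G, ∀ x : MonoidAlgebra k G ⧸ m, MonoidAlgebra.single g (1 : k) • x = x) :
    (quotMod m ht).IsIrreducible := by
  have h1 := modRep_irr hm
  have := irrF_nontrivial (modRep m)
  apply irrF_of_forall
  intro W hW
  apply irrF_bot_or_top (modRep m)
  intro g v hv
  exact hW (QuotientGroup.mk g) v hv

omit [Fact p.Prime] [CharP k p] in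
/-- Central idempotents of the quotient act as zero or as the identity. -/
theorem central_acts [Finite G] {m : Ideal (MonoidAlgebra k G)} (hm : m.IsMaximal)
    (ht : ∀ g ∈ Op p G, ∀ x : MonoidAlgebra k G ⧸ m, MonoidAlgebra.single g (1 : k) • x = x)
    {e : MonoidAlgebra k G} (he : proj p k G e ∈ Set.center (MonoidAlgebra k (G ⧸ Op p G)))
    (hee : proj p k G e * proj p k G e = proj p k G e) :
    (∀ x : MonoidAlgebra k G ⧸ m, e • x = 0) ∨ ∀ x : MonoidAlgebra k G ⧸ m, e • x = x := by
  have hs := isSimple_of_maximal hm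
  let K : Submodule (MonoidAlgebra k G) (MonoidAlgebra k G ⧸ m) :=
    { carrier := {x | e • x = 0}
      add_mem' := fun {a b} ha hb => by
        change e • (a + b) = 0
        rw [smul_add, show e • a = 0 from ha, show e • b = 0 from hb, add_zero]
      zero_mem' := smul_zero e
      smul_mem' := fun c x hx => by
        change e • (c • x) = 0
        have h1 : proj p k G (e * c) = proj p k G (c * e) := by
          rw [map_mul, map_mul, (Semigroup.mem_center_iff.1 he) (proj p k G c)]
        rw [smul_smul, smul_congr m ht h1, mul_smul, show e • x = 0 from hx, smul_zero] }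
  rcases eq_bot_or_eq_top K with h | h
  · right
    intro x
    have h1 : e • x - x ∈ K := by
      change e • (e • x - x) = 0
      have h2 : proj p k G (e * e) = proj p k G e := by rw [map_mul, hee]
      rw [smul_sub, smul_smul, smul_congr m ht h2, sub_self]
    rw [h, Submodule.mem_bot] at h1
    exact sub_eq_zero.1 h1
  · left
    intro x
    have : x ∈ K := by rw [h]; trivial
    exact this

/-- The central idempotent of f acts as the identity. -/
def Acts (rho : integralClosure ℤ ℂ →+* k) [Fintype (G ⧸ Op p G)] (m : Ideal (MonoidAlgebra k G))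
    (f : G ⧸ Op p G → ℂ) : Prop :=
  ∀ a : MonoidAlgebra k G, proj p k G a = idem rho f → ∀ x : MonoidAlgebra k G ⧸ m, a • x = x

theorem not_dvd_card_quot_Op [Finite G] : ¬ p ∣ Nat.card (G ⧸ Op p G) := not_dvd_index_Op

theorem idem_idem [Finite G] [Fintype (G ⧸ Op p G)] (rho : integralClosure ℤ ℂ →+* k)
    {f : G ⧸ Op p G → ℂ} (hf : IsIrrChar (G ⧸ Op p G) f) :
    idem rho f * idem rho f = idem rho f := by
  classical
  rw [idem_mul rho hf (idem_center rho hf), blockChar_idem rho not_dvd_card_quot_Op hf hf,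
    if_pos rfl, one_smul]

theorem exists_acts [Finite G] [Fintype (G ⧸ Op p G)] (rho : integralClosure ℤ ℂ →+* k)
    {m : Ideal (MonoidAlgebra k G)} (hm : m.IsMaximal)
    (ht : ∀ g ∈ Op p G, ∀ x : MonoidAlgebra k G ⧸ m, MonoidAlgebra.single g (1 : k) • x = x) :
    ∃ f : G ⧸ Op p G → ℂ, IsIrrChar (G ⧸ Op p G) f ∧ Acts rho m f := by
  classical
  by_contra hcon
  push Not at hcon
  have hs := isSimple_of_maximal hm
  have hnt : Nontrivial (MonoidAlgebra k G ⧸ m) := IsSimpleModule.nontrivial (MonoidAlgebra k G) _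
  choose a ha using fun f : G ⧸ Op p G → ℂ => proj_surjective (p := p) (k := k) (G := G)
    (idem rho f)
  have h0 : ∀ f ∈ Irr (G ⧸ Op p G), ∀ x : MonoidAlgebra k G ⧸ m, a f • x = 0 := by
    intro f hf
    have hf' := mem_Irr.1 hf
    rcases central_acts hm ht (e := a f) (by rw [ha]; exact idem_center rho hf')
      (by rw [ha]; exact idem_idem rho hf') with h | h
    · exact h
    · exfalso
      apply hcon f hf'
      intro b hb x
      rw [smul_congr m ht (hb.trans (ha f).symm), h]
  obtain ⟨x, hx⟩ := exists_ne (0 : MonoidAlgebra k G ⧸ m)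
  apply hx
  have h1 : proj p k G (∑ f ∈ Irr (G ⧸ Op p G), a f) = proj p k G 1 := by
    rw [map_sum, map_one, Finset.sum_congr rfl (fun f _ => ha f),
      sum_idem rho not_dvd_card_quot_Op]
  have h2 := smul_congr m ht h1 x
  rw [one_smul, Finset.sum_smul, Finset.sum_congr rfl (fun f hf => h0 f hf x),
    Finset.sum_const_zero] at h2
  exact h2.symm

omit [Fact p.Prime] [CharP k p] in
theorem sum_proj [Fintype G] [Fintype (G ⧸ Op p G)] (φ : G ⧸ Op p G → k)
    (a : MonoidAlgebra k G) : ∑ h, (proj p k G a).coeff h * φ h =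
      ∑ g, a.coeff g * φ (QuotientGroup.mk g) := by
  classical
  induction a using MonoidAlgebra.induction_linear with
  | zero => simp
  | add a b ha hb =>
    simp only [map_add, MonoidAlgebra.coeff_add, Finsupp.add_apply, add_mul,
      Finset.sum_add_distrib, ha, hb]
  | single g r =>
    rw [proj_single, Finset.sum_eq_single (QuotientGroup.mk g : G ⧸ Op p G),
      Finset.sum_eq_single g]
    · simp [MonoidAlgebra.coeff_single]
    · intro h _ hh
      simp [MonoidAlgebra.coeff_single, Ne.symm hh]
    · simp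
    · intro h _ hh
      simp [MonoidAlgebra.coeff_single, Ne.symm hh]
    · simp

/-- A character of the quotient, as a representation of G. -/
theorem exists_infl {f : G ⧸ Op p G → ℂ} (hf : IsIrrChar (G ⧸ Op p G) f) :
    ∃ (n : ℕ) (σ : Representation ℂ G (Fin n → ℂ)), σ.IsIrreducible ∧
      (∀ g : G, (∃ j : ℕ, g ^ p ^ j = 1) → σ g = 1) ∧
      ∀ g : G, σ.character g = f (QuotientGroup.mk g) := by
  obtain ⟨n, τ, hτ, rfl⟩ := hf
  refine ⟨n, τ.comp (QuotientGroup.mk' (Op p G)),
    irr_comp τ _ (QuotientGroup.mk'_surjective _), fun g hg => ?_, fun g => rfl⟩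
  have h1 : (QuotientGroup.mk' (Op p G)) g = 1 :=
    (QuotientGroup.eq_one_iff g).2 (Subgroup.subset_closure hg)
  change τ ((QuotientGroup.mk' (Op p G)) g) = 1
  rw [h1, map_one]

/-- Conversely. -/
theorem exists_defl {n : ℕ} {σ : Representation ℂ G (Fin n → ℂ)} (hσ : σ.IsIrreducible)
    (hp : ∀ g : G, (∃ j : ℕ, g ^ p ^ j = 1) → σ g = 1) :
    ∃ f : G ⧸ Op p G → ℂ, IsIrrChar (G ⧸ Op p G) f ∧
      ∀ g : G, σ.character g = f (QuotientGroup.mk g) := by
  let τ : Representation ℂ (G ⧸ Op p G) (Fin n → ℂ) :=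
    QuotientGroup.lift (Op p G) σ (fun x hx => triv_on_Op hp x hx)
  have hV := irr_nontrivial σ
  have hirr : τ.IsIrreducible := by
    apply irr_of_forall
    intro W hW
    apply irr_bot_or_top σ
    intro g v hv
    exact hW (QuotientGroup.mk g) v hv
  exact ⟨τ.character, ⟨n, τ, hirr, rfl⟩, fun g => rfl⟩

theorem blockChar_proj [Finite G] (rho : integralClosure ℤ ℂ →+* k)
    {f : G ⧸ Op p G → ℂ} (hf : IsIrrChar (G ⧸ Op p G) f) {n : ℕ}
    {σ : Representation ℂ G (Fin n → ℂ)} (hσ : σ.IsIrreducible)
    (hσf : ∀ g : G, σ.character g = f (QuotientGroup.mk g)) {z : MonoidAlgebra k G}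
    (hz : z ∈ Set.center (MonoidAlgebra k G)) :
    blockChar rho f (proj p k G z) = blockChar rho σ.character z := by
  classical
  have := Fintype.ofFinite G
  have : Fintype (G ⧸ Op p G) := Fintype.ofFinite _
  obtain ⟨n', τ, hτ, rfl⟩ := hf
  have hnn : n' = n := by
    have h1 := hσf 1
    rw [QuotientGroup.mk_one, char_one, char_one] at h1
    simpa using h1.symm
  have hd : n' ∣ Nat.card (G ⧸ Op p G) := by
    have := finrank_dvd_card τ
    simpa using this
  have hn : (n' : k) ≠ 0 := by
    rw [Ne, CharP.cast_eq_zero_iff k p]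
    exact fun h => not_dvd_card_quot_Op (h.trans hd)
  have h1 := natCast_mul_blockChar (rho := rho) hτ (proj_center (p := p) hz)
  have h2 := natCast_mul_blockChar (rho := rho) hσ hz
  rw [sum_proj (fun h => red rho (τ.character h)) z] at h1
  simp only [← hσf] at h1
  subst hnn
  rw [← h1] at h2
  exact (mul_left_cancel₀ hn h2).symm

/-- The centre of kG acts by the central character of f. -/
theorem center_of_acts [Finite G] [Fintype (G ⧸ Op p G)] (rho : integralClosure ℤ ℂ →+* k)
    {m : Ideal (MonoidAlgebra k G)}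
    (ht : ∀ g ∈ Op p G, ∀ x : MonoidAlgebra k G ⧸ m, MonoidAlgebra.single g (1 : k) • x = x)
    {f : G ⧸ Op p G → ℂ} (hf : IsIrrChar (G ⧸ Op p G) f) (hact : Acts rho m f)
    {z : MonoidAlgebra k G} (hz : proj p k G z ∈ Set.center (MonoidAlgebra k (G ⧸ Op p G)))
    (x : MonoidAlgebra k G ⧸ m) :
    z • x = algebraMap k (MonoidAlgebra k G) (blockChar rho f (proj p k G z)) • x := by
  obtain ⟨a, ha⟩ := proj_surjective (p := p) (idem rho f)
  have h1 : proj p k G (z * a) = proj p k G
      (algebraMap k (MonoidAlgebra k G) (blockChar rho f (proj p k G z)) * a) := by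
    rw [map_mul, map_mul, ha, idem_mul rho hf hz, AlgHom.commutes, ← Algebra.smul_def]
  conv_lhs => rw [← hact a ha x]
  rw [smul_smul, smul_congr m ht h1, mul_smul, hact a ha x]

end Mod

end Vale.Agent.P179
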