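import Vale.Agent.P179.Tw.PTrivA

/-! For the blocks containing an ordinary character trivial on the p-elements:
l(B) = 1 iff |W_p(B)| = 1. -/

namespace Vale.Agent.P179

open Subgroup Representation Module

universe u v

section Iso

variable {k : Type v} [Field k] {p : ℕ} [Fact p.Prime] [CharP k p] {G : Type u} [Group G]

/-- Comparison of two simple modules with the same central idempotent. -/
theorem iso_aux [IsAlgClosed k] [Finite G] [Fintype (G ⧸ Op p G)]
    (rho : integralClosure ℤ ℂ →+* k)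
    {m m₂ : Ideal (MonoidAlgebra k G)} (hm : m.IsMaximal) (hm₂ : m₂.IsMaximal)
    (ht : ∀ g ∈ Op p G, ∀ x : MonoidAlgebra k G ⧸ m, MonoidAlgebra.single g (1 : k) • x = x)
    (ht₂ : ∀ g ∈ Op p G, ∀ x : MonoidAlgebra k G ⧸ m₂, MonoidAlgebra.single g (1 : k) • x = x)
    {f : G ⧸ Op p G → ℂ} (hf : IsIrrChar (G ⧸ Op p G) f) (h1 : Acts rho m f)
    (h2 : Acts rho m₂ f) :
    ∃ c : k, c * finrank k (MonoidAlgebra k G ⧸ m) = Nat.card (G ⧸ Op p G) ∧
      (IsEmpty (Representation.Equiv (quotMod m ht) (quotMod m₂ ht₂)) →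
        c * finrank k (MonoidAlgebra k G ⧸ m₂) = 0) := by
  classical
  have hcard : (Nat.card (G ⧸ Op p G) : k) ≠ 0 := by
    rw [Ne, CharP.cast_eq_zero_iff k p]
    exact not_dvd_card_quot_Op
  have hinv : Invertible (Nat.card (G ⧸ Op p G) : k) := invertibleOfNonzero hcard
  have hfd : FiniteDimensional k (MonoidAlgebra k G ⧸ m) := inferInstance
  have hfd₂ : FiniteDimensional k (MonoidAlgebra k G ⧸ m₂) := inferInstance
  let ρ := quotMod m ht
  let ρ₂ := quotMod m₂ ht₂
  have hρ : ρ.IsIrreducible := quotMod_irr hm ht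
  have hρ₂ : ρ₂.IsIrreducible := quotMod_irr hm₂ ht₂
  let θ : G ⧸ Op p G → k := fun h => ρ.character h⁻¹
  have hθ : ∀ g x, θ (g * x * g⁻¹) = θ x := by
    intro g x
    have h3 : (g * x * g⁻¹)⁻¹ = g * x⁻¹ * g⁻¹ := by group
    simp only [θ, h3]
    exact char_conj ρ x⁻¹ g
  let z : MonoidAlgebra k (G ⧸ Op p G) := ∑ x, MonoidAlgebra.single x (θ x)
  have hzc : ∀ x, z.coeff x = θ x := by
    intro x
    simp only [z]
    rw [MonoidAlgebra.coeff_sum, Finsupp.finsetSum_apply, Finset.sum_eq_single x]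
    · simp [MonoidAlgebra.coeff_single]
    · intro y _ hy
      simp [MonoidAlgebra.coeff_single, hy]
    · simp
  have hz : z ∈ Set.center (MonoidAlgebra k (G ⧸ Op p G)) := by
    rw [mem_center_iff_single]
    intro g
    ext x
    rw [MonoidAlgebra.coeff_single_mul_apply, MonoidAlgebra.coeff_mul_single_apply, one_mul,
      mul_one, hzc, hzc, ← hθ g (g⁻¹ * x)]
    congr 1
    group
  obtain ⟨a, ha⟩ := proj_surjective (p := p) z
  have hz' : proj p k G a ∈ Set.center (MonoidAlgebra k (G ⧸ Op p G)) := by rw [ha]; exact hz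
  set c := blockChar rho f (proj p k G a) with hc
  obtain ⟨c₁, hc₁, hc₁'⟩ := weighted ρ θ hθ
  obtain ⟨c₂, hc₂, hc₂'⟩ := weighted ρ₂ θ hθ
  have hsc : ∀ {M : Ideal (MonoidAlgebra k G)} (d : k) (x : MonoidAlgebra k G ⧸ M),
      algebraMap k (MonoidAlgebra k G) d • x = d • x := by
    intro M d x
    obtain ⟨b, rfl⟩ := Submodule.Quotient.mk_surjective _ x
    rw [← Submodule.Quotient.mk_smul, ← Submodule.Quotient.mk_smul, smul_eq_mul,
      ← Algebra.smul_def]
  have he₁ : c₁ = c := by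
    have := irrF_nontrivial ρ
    obtain ⟨x, hx⟩ := exists_ne (0 : MonoidAlgebra k G ⧸ m)
    have h3 := center_of_acts rho ht hf h1 hz' x
    rw [← hc, hsc, smul_quot m ht] at h3
    simp only [ha, hzc] at h3
    have h4 : c₁ • x = c • x := (hc₁ x).symm.trans h3
    by_contra hne
    have h5 : (c₁ - c) • x = 0 := by rw [sub_smul, h4, sub_self]
    rcases smul_eq_zero.1 h5 with h6 | h6
    · exact hne (sub_eq_zero.1 h6)
    · exact hx h6
  have he₂ : c₂ = c := by
    have := irrF_nontrivial ρ₂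
    obtain ⟨x, hx⟩ := exists_ne (0 : MonoidAlgebra k G ⧸ m₂)
    have h3 := center_of_acts rho ht₂ hf h2 hz' x
    rw [← hc, hsc, smul_quot m₂ ht₂] at h3
    simp only [ha, hzc] at h3
    have h4 : c₂ • x = c • x := (hc₂ x).symm.trans h3
    by_contra hne
    have h5 : (c₂ - c) • x = 0 := by rw [sub_smul, h4, sub_self]
    rcases smul_eq_zero.1 h5 with h6 | h6
    · exact hne (sub_eq_zero.1 h6)
    · exact hx h6
  refine ⟨c, ?_, fun hempty => ?_⟩
  · rw [← he₁, hc₁']
    have h3 := char_orthonormal ρ ρ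
    rw [if_pos ⟨Representation.Equiv.refl ρ⟩, inv_mul_eq_iff_eq_mul₀ hcard, mul_one] at h3
    rw [← h3]
    exact Finset.sum_congr rfl fun x _ => mul_comm _ _
  · rw [← he₂, hc₂']
    have h3 := char_orthonormal ρ₂ ρ
    rw [if_neg (not_nonempty_iff.2 hempty), inv_mul_eq_iff_eq_mul₀ hcard, mul_zero] at h3
    rw [← h3]
    exact Finset.sum_congr rfl fun x _ => mul_comm _ _

theorem iso_of_acts [IsAlgClosed k] [Finite G] [Fintype (G ⧸ Op p G)]
    (rho : integralClosure ℤ ℂ →+* k)
    {m m₂ : Ideal (MonoidAlgebra k G)} (hm : m.IsMaximal) (hm₂ : m₂.IsMaximal)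
    (ht : ∀ g ∈ Op p G, ∀ x : MonoidAlgebra k G ⧸ m, MonoidAlgebra.single g (1 : k) • x = x)
    (ht₂ : ∀ g ∈ Op p G, ∀ x : MonoidAlgebra k G ⧸ m₂, MonoidAlgebra.single g (1 : k) • x = x)
    {f : G ⧸ Op p G → ℂ} (hf : IsIrrChar (G ⧸ Op p G) f) (h1 : Acts rho m f)
    (h2 : Acts rho m₂ f) :
    Nonempty ((MonoidAlgebra k G ⧸ m) ≃ₗ[MonoidAlgebra k G] (MonoidAlgebra k G ⧸ m₂)) := by
  classical
  have hcard : (Nat.card (G ⧸ Op p G) : k) ≠ 0 := by
    rw [Ne, CharP.cast_eq_zero_iff k p]
    exact not_dvd_card_quot_Op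
  by_cases hne : Nonempty (Representation.Equiv (quotMod m ht) (quotMod m₂ ht₂))
  · obtain ⟨e⟩ := hne
    have hint : ∀ g (x : MonoidAlgebra k G ⧸ m), e.toLinearEquiv (quotMod m ht g x) =
        quotMod m₂ ht₂ g (e.toLinearEquiv x) := fun g x =>
      LinearMap.congr_fun (e.isIntertwining' g) x
    refine ⟨{ e.toLinearEquiv with map_smul' := fun a x => ?_ }⟩
    change e.toLinearEquiv (a • x) = a • e.toLinearEquiv x
    rw [smul_quot m ht, smul_quot m₂ ht₂, map_sum]
    refine Finset.sum_congr rfl fun g _ => ?_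
    rw [map_smul, hint]
  · exfalso
    rw [not_nonempty_iff] at hne
    obtain ⟨c, hc1, hc2⟩ := iso_aux rho hm hm₂ ht ht₂ hf h1 h2
    obtain ⟨d, hd1, -⟩ := iso_aux rho hm₂ hm ht₂ ht hf h2 h1
    have h3 : (finrank k (MonoidAlgebra k G ⧸ m₂) : k) ≠ 0 := by
      intro h
      rw [h, mul_zero] at hd1
      exact hcard hd1.symm
    have h4 : c ≠ 0 := by
      intro h
      rw [h, zero_mul] at hc1
      exact hcard hc1.symm
    exact mul_ne_zero h4 h3 (hc2 hne)

/-- Every character of the quotient lying in B has its own simple module in B. -/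
theorem exists_simple_acts [Finite G] [Fintype (G ⧸ Op p G)]
    {rho : integralClosure ℤ ℂ →+* k} {B : MonoidAlgebra k G}
    (hB : IsBlock k G B) {n : ℕ} {σ : Representation ℂ G (Fin n → ℂ)}
    (hσ : σ.IsIrreducible) (hin : InBlock rho B σ.character)
    {f : G ⧸ Op p G → ℂ} (hf : IsIrrChar (G ⧸ Op p G) f)
    (hσf : ∀ g : G, σ.character g = f (QuotientGroup.mk g)) :
    ∃ m : SimpleIn B, (∀ g ∈ Op p G, ∀ x : MonoidAlgebra k G ⧸ m.1,
      MonoidAlgebra.single g (1 : k) • x = x) ∧ Acts rho m.1 f := by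
  classical
  obtain ⟨e, he⟩ := proj_surjective (p := p) (k := k) (G := G) (idem rho f)
  have hec := idem_center rho hf
  have hee := idem_idem rho hf
  have hne : idem rho f ≠ 0 := by
    intro h0
    have h1 := blockChar_idem rho not_dvd_card_quot_Op hf hf
    rw [h0, if_pos rfl] at h1
    have h2 : blockChar rho f (0 : MonoidAlgebra k (G ⧸ Op p G)) = 0 := by
      simp [blockChar]
    exact zero_ne_one (h2.symm.trans h1)
  let I : Ideal (MonoidAlgebra k G) := RingHom.ker (proj p k G) ⊔ Ideal.span {1 - e}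
  have hI : I ≠ ⊤ := by
    intro h
    have h1 : (1 : MonoidAlgebra k G) ∈ I := by rw [h]; trivial
    obtain ⟨y, hy, w, hw, hyw⟩ := Submodule.mem_sup.1 h1
    obtain ⟨a, rfl⟩ := Ideal.mem_span_singleton'.1 hw
    have h2 := congrArg (proj p k G) hyw
    rw [map_add, map_mul, map_sub, map_one, RingHom.mem_ker.1 hy, zero_add, he] at h2
    apply hne
    calc idem rho f = 1 * idem rho f := (one_mul _).symm
      _ = proj p k G a * (1 - idem rho f) * idem rho f := by rw [h2]
      _ = proj p k G a * (idem rho f - idem rho f * idem rho f) := by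
        rw [mul_assoc, sub_mul, one_mul]
      _ = 0 := by rw [hee, sub_self, mul_zero]
  obtain ⟨m, hm, hIm⟩ := Ideal.exists_le_maximal I hI
  have ht : ∀ g ∈ Op p G, ∀ x : MonoidAlgebra k G ⧸ m,
      MonoidAlgebra.single g (1 : k) • x = x := fun g hg => acts_iff.2 fun a => by
    apply hIm
    apply Submodule.mem_sup_left
    rw [RingHom.mem_ker, map_sub, map_mul, proj_single]
    have h1 : (QuotientGroup.mk g : G ⧸ Op p G) = 1 := (QuotientGroup.eq_one_iff g).2 hg
    rw [h1, ← MonoidAlgebra.one_def, one_mul, sub_self]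
  have hact : Acts rho m f := by
    intro b hb
    refine acts_iff.2 fun a => ?_
    have h1 : b * a - a = (b * a - a * e) + (-a) * (1 - e) := by noncomm_ring
    rw [h1]
    refine m.add_mem (hIm (Submodule.mem_sup_left ?_))
      (m.mul_mem_left _ (hIm (Submodule.mem_sup_right (Ideal.subset_span rfl))))
    rw [RingHom.mem_ker, map_sub, map_mul, map_mul, hb, he,
      (Semigroup.mem_center_iff.1 hec) (proj p k G a), sub_self]
  have hBact : ∀ x : MonoidAlgebra k G ⧸ m, B • x = x := by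
    intro x
    rw [center_of_acts rho ht hf hact (proj_center hB.1) x,
      blockChar_proj rho hf hσ hσf hB.1, blockChar_block hB hin, map_one, one_smul]
  exact ⟨⟨m, hm, hBact⟩, ht, hact⟩

end Iso

section Main

variable {k : Type v} [Field k] [IsAlgClosed k] {p : ℕ} [Fact p.Prime] [CharP k p] {G : Type u}
  [Group G]

/-- If l(B) = 1, the character in B trivial on the p-elements is unique. -/
theorem char_unique_of_numSimple [Finite G] {rho : integralClosure ℤ ℂ →+* k}
    {B : MonoidAlgebra k G}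
    (hB : IsBlock k G B) {n n' : ℕ} {σ : Representation ℂ G (Fin n → ℂ)}
    (hσ : σ.IsIrreducible) (hp : ∀ g : G, (∃ j : ℕ, g ^ p ^ j = 1) → σ g = 1)
    (hin : InBlock rho B σ.character) {σ' : Representation ℂ G (Fin n' → ℂ)}
    (hσ' : σ'.IsIrreducible) (hp' : ∀ g : G, (∃ j : ℕ, g ^ p ^ j = 1) → σ' g = 1)
    (hin' : InBlock rho B σ'.character) (h1 : numSimple B = 1) :
    σ.character = σ'.character := by
  classical
  have : Fintype (G ⧸ Op p G) := Fintype.ofFinite _
  obtain ⟨f, hf, hσf⟩ := exists_defl hσ hp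
  obtain ⟨f', hf', hσf'⟩ := exists_defl hσ' hp'
  by_contra hne
  have hff : f ≠ f' := by
    rintro rfl
    apply hne
    funext g
    rw [hσf, hσf']
  obtain ⟨m, ht, ha⟩ := exists_simple_acts hB hσ hin hf hσf
  obtain ⟨m', ht', ha'⟩ := exists_simple_acts hB hσ' hin' hf' hσf'
  rw [numSimple, Nat.card_eq_one_iff_unique] at h1
  obtain ⟨hs, -⟩ := h1
  have h2 : (Quotient.mk (simpleSetoid B) m) = Quotient.mk (simpleSetoid B) m' :=
    Subsingleton.elim _ _
  obtain ⟨e⟩ := Quotient.exact h2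
  let e' : (MonoidAlgebra k G ⧸ m.1) ≃ₗ[MonoidAlgebra k G] (MonoidAlgebra k G ⧸ m'.1) := e
  obtain ⟨a, haf⟩ := proj_surjective (p := p) (k := k) (G := G) (idem rho f)
  obtain ⟨b, hbf⟩ := proj_surjective (p := p) (k := k) (G := G) (idem rho f')
  have hms := isSimple_of_maximal m'.2.1
  have hnt : Nontrivial (MonoidAlgebra k G ⧸ m'.1) :=
    IsSimpleModule.nontrivial (MonoidAlgebra k G) _
  obtain ⟨x, hx⟩ := exists_ne (0 : MonoidAlgebra k G ⧸ m'.1)
  have h3 : a • x = x := by
    have h4 : e' (a • e'.symm x) = e' (e'.symm x) := by rw [ha a haf]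
    rw [map_smul, LinearEquiv.apply_symm_apply] at h4
    exact h4
  have h5 : proj p k G (a * b) = proj p k G 0 := by
    rw [map_mul, haf, hbf, map_zero, idem_mul rho hf' (idem_center rho hf),
      blockChar_idem rho not_dvd_card_quot_Op hf hf', if_neg (Ne.symm hff), zero_smul]
  have h6 := smul_congr m'.1 ht' h5 x
  rw [mul_smul, ha' b hbf, h3, zero_smul] at h6
  exact hx h6

/-- l(B) = 1 implies |W_p(B)| = 1. -/
theorem numWeights_of_numSimple [Finite G] (rho : integralClosure ℤ ℂ →+* k)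
    {B : MonoidAlgebra k G}
    (hB : IsBlock k G B) {n : ℕ} {σ : Representation ℂ G (Fin n → ℂ)}
    (hσ : σ.IsIrreducible) (hp : ∀ g : G, (∃ j : ℕ, g ^ p ^ j = 1) → σ g = 1)
    (hin : InBlock rho B σ.character) (h1 : numSimple B = 1) : numWeights p rho B = 1 := by
  classical
  obtain ⟨K, hKn, hKM, hKp, hK⟩ := nilp_of_numSimple hB hσ hp hin h1
  obtain ⟨P⟩ : Nonempty (Sylow p G) := inferInstance
  have key : ∀ w : Weight p G, w.Belongs rho B → (weightSetoid p G).r (sylW hσ hp P) w := by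
    intro w hw
    obtain ⟨n₂, σ₂, hσ₂, hp₂, hin₂, hrel⟩ := weight_rel rho hB hKn hKM hKp hK hσ hp hin P w hw
    have hchar := char_unique_of_numSimple hB hσ hp hin hσ₂ hp₂ hin₂ h1
    refine (weightSetoid p G).iseqv.trans ?_ hrel
    refine ⟨1, fun x => ?_, fun x y hxy => ?_⟩
    · change x ∈ (P : Subgroup G) ↔ 1⁻¹ * x * 1 ∈ (P : Subgroup G)
      simp
    · have hxy' : (y : G) = 1 * (x : G) * 1⁻¹ := hxy
      rw [show (sylW hσ₂ hp₂ P).infl y = σ₂.character (y : G) from sylW_infl hσ₂ hp₂ P y,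
        show (sylW hσ hp P).infl x = σ.character (x : G) from sylW_infl hσ hp P x, hchar, hxy']
      simp
  rw [numWeights, Nat.card_eq_one_iff_unique]
  refine ⟨⟨fun a b => ?_⟩, ⟨Quotient.mk _ ⟨sylW hσ hp P, sylW_belongs rho hσ hp hin P⟩⟩⟩
  induction a using Quotient.inductionOn with | _ a
  induction b using Quotient.inductionOn with | _ b
  apply Quotient.sound
  exact (weightSetoid p G).iseqv.trans ((weightSetoid p G).iseqv.symm (key a.1 a.2))
    (key b.1 b.2)

/-- |W_p(B)| = 1 implies l(B) = 1. -/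
theorem numSimple_of_numWeights [Finite G] (rho : integralClosure ℤ ℂ →+* k)
    {B : MonoidAlgebra k G}
    (hB : IsBlock k G B) {n : ℕ} {σ : Representation ℂ G (Fin n → ℂ)}
    (hσ : σ.IsIrreducible) (hp : ∀ g : G, (∃ j : ℕ, g ^ p ^ j = 1) → σ g = 1)
    (hin : InBlock rho B σ.character) (h1 : numWeights p rho B = 1) : numSimple B = 1 := by
  classical
  have : Fintype (G ⧸ Op p G) := Fintype.ofFinite _
  have hnil := pNilpotent_Op rho hB hσ hp hin (Or.inr h1)
  obtain ⟨K₁, hK₁n, hK₁p, j₁, hK₁⟩ := hnil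
  -- K as a normal subgroup of G
  have hcard : Nat.card (K₁.map (Op p G).subtype) = Nat.card K₁ :=
    (Nat.card_congr (K₁.equivMapOfInjective _ (Op p G).subtype_injective).toEquiv).symm
  have hpow : ∀ g : Op p G, g ^ p ^ j₁ ∈ K₁ := by
    intro g
    rw [← hK₁]
    exact Subgroup.pow_index_mem K₁ g
  have hKn : (K₁.map (Op p G).subtype).Normal := by
    constructor
    rintro _ ⟨x, hx, rfl⟩ g
    have hord : ¬ p ∣ orderOf x := by
      intro h
      apply hK₁p
      have h1 : orderOf (⟨x, hx⟩ : K₁) = orderOf x := by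
        rw [← Subgroup.orderOf_coe]
      exact h.trans (h1 ▸ orderOf_dvd_natCard (⟨x, hx⟩ : K₁))
    have hgx : g * (x : G) * g⁻¹ ∈ Op p G := (Op_normal p G).conj_mem x x.2 g
    refine ⟨⟨g * (x : G) * g⁻¹, hgx⟩, ?_, rfl⟩
    refine mem_of_pow_mem_of_coprime K₁ ?_ (hpow _)
    have h2 : orderOf (⟨g * (x : G) * g⁻¹, hgx⟩ : Op p G) = orderOf x := by
      rw [← Subgroup.orderOf_coe, ← Subgroup.orderOf_coe x]
      simp only
      have := orderOf_injective (MulAut.conj g).toMonoidHom (MulAut.conj g).injective (x : G)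
      simpa [MulAut.conj_apply] using this
    rw [h2]
    exact hord
  have hKM : K₁.map (Op p G).subtype ≤ Op p G := map_subtype_le _
  have hKp : ¬ p ∣ Nat.card (K₁.map (Op p G).subtype) := by rw [hcard]; exact hK₁p
  have hK : ∀ g ∈ Op p G, ∃ j : ℕ, g ^ p ^ j ∈ K₁.map (Op p G).subtype := fun g hg =>
    ⟨j₁, _, hpow ⟨g, hg⟩, rfl⟩
  obtain ⟨f, hf, hσf⟩ := exists_defl hσ hp
  obtain ⟨P⟩ : Nonempty (Sylow p G) := inferInstance
  have htr : ∀ m : SimpleIn B, ∀ g ∈ Op p G, ∀ x : MonoidAlgebra k G ⧸ m.1,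
      MonoidAlgebra.single g (1 : k) • x = x := fun m =>
    triv_of_nilp hKn hKM hKp hK hσ hp hin m
  have hacts : ∀ m : SimpleIn B, Acts rho m.1 f := by
    intro m
    obtain ⟨f', hf', ha'⟩ := exists_acts rho m.2.1 (htr m)
    obtain ⟨n', σ', hσ', hp', hσf'⟩ := exists_infl hf'
    have hms := isSimple_of_maximal m.2.1
    have hnt : Nontrivial (MonoidAlgebra k G ⧸ m.1) :=
      IsSimpleModule.nontrivial (MonoidAlgebra k G) _
    obtain ⟨x₀, hx₀⟩ := exists_ne (0 : MonoidAlgebra k G ⧸ m.1)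
    have hscal : ∀ a b : k, algebraMap k (MonoidAlgebra k G) a • x₀ =
        algebraMap k (MonoidAlgebra k G) b • x₀ → a = b := by
      intro a b hab
      by_contra hne
      have h1 : algebraMap k (MonoidAlgebra k G) (a - b) • x₀ = 0 := by
        rw [map_sub, sub_smul, hab, sub_self]
      have h2 : algebraMap k (MonoidAlgebra k G) (a - b)⁻¹ •
          (algebraMap k (MonoidAlgebra k G) (a - b) • x₀) = x₀ := by
        rw [smul_smul, ← map_mul, inv_mul_cancel₀ (sub_ne_zero.2 hne), map_one, one_smul]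
      rw [h1, smul_zero] at h2
      exact hx₀ h2.symm
    have heq : ∀ z ∈ Set.center (MonoidAlgebra k G),
        blockChar rho σ'.character z = blockChar rho σ.character z := by
      intro z hz
      apply hscal
      rw [← hin m z hz x₀, center_of_acts rho (htr m) hf' ha' (proj_center hz) x₀,
        blockChar_proj rho hf' hσ' hσf' hz]
    have hin' : InBlock rho B σ'.character := by
      intro m' z hz x
      rw [heq z hz]
      exact hin m' z hz x
    have hs : Subsingleton (Quotient ((weightSetoid p G).comap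
        (Subtype.val : {w : Weight p G // w.Belongs rho B} → Weight p G))) := by
      rw [numWeights, Nat.card_eq_one_iff_unique] at h1
      exact h1.1
    have hrel := Quotient.exact (Subsingleton.elim
      (Quotient.mk ((weightSetoid p G).comap
        (Subtype.val : {w : Weight p G // w.Belongs rho B} → Weight p G))
        ⟨sylW hσ' hp' P, sylW_belongs rho hσ' hp' hin' P⟩)
      (Quotient.mk _ ⟨sylW hσ hp P, sylW_belongs rho hσ hp hin P⟩))
    have hch := char_eq_of_rel hσ' hp' hσ hp P hrel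
    have hff : f' = f := by
      funext y
      obtain ⟨g, rfl⟩ := QuotientGroup.mk_surjective y
      rw [← hσf', ← hσf, hch]
    rw [← hff]
    exact ha'
  rw [numSimple, Nat.card_eq_one_iff_unique]
  refine ⟨⟨fun a b => ?_⟩, ?_⟩
  · induction a using Quotient.inductionOn with | _ a
    induction b using Quotient.inductionOn with | _ b
    apply Quotient.sound
    exact iso_of_acts rho a.2.1 b.2.1 (htr a) (htr b) hf (hacts a) (hacts b)
  · obtain ⟨m⟩ := exists_simpleIn hB
    exact ⟨Quotient.mk _ m⟩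

theorem numSimple_iff_numWeights [Finite G] (rho : integralClosure ℤ ℂ →+* k)
    {B : MonoidAlgebra k G}
    (hB : IsBlock k G B) {n : ℕ} {σ : Representation ℂ G (Fin n → ℂ)}
    (hσ : σ.IsIrreducible) (hp : ∀ g : G, (∃ j : ℕ, g ^ p ^ j = 1) → σ g = 1)
    (hin : InBlock rho B σ.character) : numSimple B = 1 ↔ numWeights p rho B = 1 :=
  ⟨numWeights_of_numSimple rho hB hσ hp hin, numSimple_of_numWeights rho hB hσ hp hin⟩

end Main

end Vale.Agent.P179
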