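import Vale.Agent.P179.Bdl.B1
import Mathlib.RingTheory.Polynomial.Cyclotomic.Roots

/-! Twisting blocks, simple modules and weights by linear characters. -/

namespace Vale.Agent.P179

open Subgroup Representation Module

universe u v

section Tw

variable {k : Type v} [Field k] {G : Type u} [Group G]

/-- The k-algebra endomorphism g ↦ ν(g) g of kG given by a linear character ν : G → kˣ. -/
noncomputable def tw (ν : G →* kˣ) : MonoidAlgebra k G →ₐ[k] MonoidAlgebra k G :=
  MonoidAlgebra.lift k (MonoidAlgebra k G) G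
    { toFun := fun g => MonoidAlgebra.single g ((ν g : kˣ) : k)
      map_one' := by simp [MonoidAlgebra.one_def]
      map_mul' := fun g h => by simp [MonoidAlgebra.single_mul_single] }

theorem tw_single (ν : G →* kˣ) (g : G) (r : k) :
    tw ν (MonoidAlgebra.single g r) = MonoidAlgebra.single g (r * (ν g : k)) := by
  simp [tw, MonoidAlgebra.lift_single]

theorem coeff_tw (ν : G →* kˣ) (z : MonoidAlgebra k G) (g : G) :
    (tw ν z).coeff g = z.coeff g * (ν g : k) := by
  classical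
  induction z using MonoidAlgebra.induction_linear with
  | zero => simp
  | add a b ha hb => rw [map_add]; simp [ha, hb, add_mul]
  | single h r =>
    rw [tw_single]
    by_cases hg : h = g
    · subst hg; simp
    · simp [MonoidAlgebra.coeff_single, hg]

theorem tw_tw (ν μ : G →* kˣ) (z : MonoidAlgebra k G) : tw ν (tw μ z) = tw (ν * μ) z := by
  ext g
  simp [coeff_tw, mul_comm, mul_left_comm]

theorem tw_one (z : MonoidAlgebra k G) : tw (1 : G →* kˣ) z = z := by
  ext g
  simp [coeff_tw]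

theorem inv_mul_hom (ν : G →* kˣ) : ν⁻¹ * ν = 1 := by
  ext g
  simp

theorem mul_inv_hom (ν : G →* kˣ) : ν * ν⁻¹ = 1 := by
  ext g
  simp

/-- The twist as an automorphism. -/
noncomputable def twE (ν : G →* kˣ) : MonoidAlgebra k G ≃+* MonoidAlgebra k G :=
  { tw ν with
    invFun := tw ν⁻¹
    left_inv := fun z => by
      change tw ν⁻¹ (tw ν z) = z
      rw [tw_tw, inv_mul_hom, tw_one]
    right_inv := fun z => by
      change tw ν (tw ν⁻¹ z) = z
      rw [tw_tw, mul_inv_hom, tw_one] }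

@[simp] theorem twE_apply (ν : G →* kˣ) (z : MonoidAlgebra k G) : twE ν z = tw ν z := rfl

@[simp] theorem twE_symm_apply (ν : G →* kˣ) (z : MonoidAlgebra k G) :
    (twE ν).symm z = tw ν⁻¹ z := rfl

end Tw

section Gen

variable {A A' : Type*} [Ring A] [Ring A']

theorem center_map (e : A ≃+* A') {z : A} (hz : z ∈ Set.center A) : e z ∈ Set.center A' := by
  rw [Semigroup.mem_center_iff] at hz ⊢
  intro x
  have := congrArg e (hz (e.symm x))
  simpa using this

theorem center_map_iff (e : A ≃+* A') {z : A} : e z ∈ Set.center A' ↔ z ∈ Set.center A := by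
  refine ⟨fun h => ?_, center_map e⟩
  have := center_map e.symm h
  simpa using this

/-- Isomorphism of the simple modules A / m and A / m' in terms of elements. -/
theorem simple_rel_iff {m m' : Ideal A} (hm : m.IsMaximal) (hm' : m'.IsMaximal) :
    Nonempty ((A ⧸ m) ≃ₗ[A] (A ⧸ m')) ↔ ∃ a, a ∉ m' ∧ ∀ x, x ∈ m ↔ x * a ∈ m' := by
  constructor
  · rintro ⟨e⟩
    obtain ⟨a, ha⟩ := Submodule.Quotient.mk_surjective _ (e (Submodule.Quotient.mk 1))
    have key : ∀ x, e (Submodule.Quotient.mk x) = Submodule.Quotient.mk (p := m') (x * a) := by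
      intro x
      have h1 : (Submodule.Quotient.mk x : A ⧸ m) = x • Submodule.Quotient.mk 1 := by
        rw [← Submodule.Quotient.mk_smul, smul_eq_mul, mul_one]
      rw [h1, map_smul, ← ha, ← Submodule.Quotient.mk_smul, smul_eq_mul]
    have key2 : ∀ x, x ∈ m ↔ x * a ∈ m' := by
      intro x
      rw [← Submodule.Quotient.mk_eq_zero m, ← Submodule.Quotient.mk_eq_zero m', ← key,
        LinearEquiv.map_eq_zero_iff]
    refine ⟨a, fun h => ?_, key2⟩
    have h2 := (key2 1).2 (by rwa [one_mul])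
    exact hm.ne_top ((Ideal.eq_top_iff_one m).2 h2)
  · rintro ⟨a, ha, hx⟩
    have hs : IsSimpleModule A (A ⧸ m') := isSimple_of_maximal hm'
    let f : A →ₗ[A] A ⧸ m' := (LinearMap.toSpanSingleton A (A ⧸ m') (Submodule.Quotient.mk a))
    have hf : ∀ x, f x = Submodule.Quotient.mk (x * a) := by
      intro x
      change x • (Submodule.Quotient.mk a : A ⧸ m') = _
      rw [← Submodule.Quotient.mk_smul, smul_eq_mul]
    have hk : LinearMap.ker f = m := by
      ext x
      rw [LinearMap.mem_ker, hf, Submodule.Quotient.mk_eq_zero, hx]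
    have hsurj : LinearMap.range f = ⊤ := by
      rcases eq_bot_or_eq_top (LinearMap.range f) with h | h
      · exfalso
        apply ha
        have h1 : f 1 = 0 := by
          have : f 1 ∈ LinearMap.range f := ⟨1, rfl⟩
          rw [h] at this
          simpa using this
        rw [hf, one_mul, Submodule.Quotient.mk_eq_zero] at h1
        exact h1
      · exact h
    exact ⟨(Submodule.quotEquivOfEq _ _ hk.symm).trans
      (f.quotKerEquivOfSurjective (LinearMap.range_eq_top.1 hsurj))⟩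

theorem acts_iff {m : Ideal A} {B : A} :
    (∀ x : A ⧸ m, B • x = x) ↔ ∀ a, B * a - a ∈ m := by
  constructor
  · intro h a
    have := h (Submodule.Quotient.mk a)
    rwa [← Submodule.Quotient.mk_smul, Submodule.Quotient.eq, smul_eq_mul] at this
  · intro h x
    obtain ⟨a, rfl⟩ := Submodule.Quotient.mk_surjective _ x
    rw [← Submodule.Quotient.mk_smul, Submodule.Quotient.eq, smul_eq_mul]
    exact h a

theorem comap_max (e : A ≃+* A') {m : Ideal A'} (hm : m.IsMaximal) :
    (Ideal.comap (e : A →+* A') m).IsMaximal :=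
  Ideal.isMaximal_comap_iff_of_bijective (e : A →+* A') e.bijective |>.2 hm

/-- Transport of the simple modules in B along a ring isomorphism. -/
noncomputable def simpleEquiv (e : A ≃+* A') (B : A) : SimpleIn (e B) ≃ SimpleIn B where
  toFun m := ⟨Ideal.comap (e : A →+* A') m.1, comap_max e m.2.1, by
    rw [acts_iff]
    intro a
    have := acts_iff.1 m.2.2 (e a)
    rw [Ideal.mem_comap]
    simpa using this⟩
  invFun m := ⟨Ideal.comap (e.symm : A' →+* A) m.1, comap_max e.symm m.2.1, by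
    rw [acts_iff]
    intro a
    have := acts_iff.1 m.2.2 (e.symm a)
    rw [Ideal.mem_comap]
    simpa using this⟩
  left_inv m := by
    apply Subtype.ext
    ext x
    change e (e.symm x) ∈ m.1 ↔ x ∈ m.1
    rw [e.apply_symm_apply]
  right_inv m := by
    apply Subtype.ext
    ext x
    change e.symm (e x) ∈ m.1 ↔ x ∈ m.1
    rw [e.symm_apply_apply]

theorem mem_simpleEquiv (e : A ≃+* A') (B : A) (m : SimpleIn (e B)) (x : A) :
    x ∈ (simpleEquiv e B m).1 ↔ e x ∈ m.1 := Iff.rfl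

theorem numSimple_map (e : A ≃+* A') (B : A) : numSimple (e B) = numSimple B := by
  refine Nat.card_congr (Quotient.congr (simpleEquiv e B) fun m m' => ?_)
  change Nonempty _ ↔ Nonempty _
  rw [simple_rel_iff m.2.1 m'.2.1,
    simple_rel_iff (simpleEquiv e B m).2.1 (simpleEquiv e B m').2.1]
  constructor
  · rintro ⟨a, ha, hx⟩
    refine ⟨e.symm a, fun h => ha ?_, fun x => ?_⟩
    · rw [mem_simpleEquiv] at h
      simpa using h
    · rw [mem_simpleEquiv, mem_simpleEquiv, hx]
      simp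
  · rintro ⟨a, ha, hx⟩
    refine ⟨e a, ha, fun x => ?_⟩
    have := hx (e.symm x)
    rw [mem_simpleEquiv, mem_simpleEquiv] at this
    simpa using this

end Gen

section Blk

variable {k : Type v} [Field k] {G : Type u} [Group G]

theorem isBlock_map (e : MonoidAlgebra k G ≃+* MonoidAlgebra k G) {B : MonoidAlgebra k G}
    (hB : IsBlock k G B) : IsBlock k G (e B) := by
  obtain ⟨h1, h2, h3, h4⟩ := hB
  refine ⟨center_map e h1, fun h => h2 ?_, by rw [← map_mul, h3], ?_⟩
  · simpa using h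
  · intro x hx y hy hxx hyy hxy hs
    rcases h4 (e.symm x) (center_map e.symm hx) (e.symm y) (center_map e.symm hy)
      (by rw [← map_mul, hxx]) (by rw [← map_mul, hyy]) (by rw [← map_mul, hxy, map_zero])
      (by rw [← map_add, hs, e.symm_apply_apply]) with h | h
    · left
      simpa using h
    · right
      simpa using h

end Blk

section Lift

variable {k : Type v} [Field k] {p : ℕ} [Fact p.Prime] [CharP k p] {G : Type u} [Group G]

/-- μ : G → ℂˣ lifts ν : G → kˣ with respect to rho, and is trivial on p-elements. -/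
structure IsLift (p : ℕ) (rho : integralClosure ℤ ℂ →+* k) (ν : G →* kˣ) (μ : G →* ℂˣ) : Prop where
  int : ∀ g, IsIntegral ℤ ((μ g : ℂˣ) : ℂ)
  red_eq : ∀ g, red rho ((μ g : ℂˣ) : ℂ) = (ν g : k)
  triv : ∀ g : G, (∃ n : ℕ, g ^ p ^ n = 1) → μ g = 1

theorem exists_lift [Finite G] (rho : integralClosure ℤ ℂ →+* k) (ν : G →* kˣ) :
    ∃ μ : G →* ℂˣ, IsLift p rho ν μ := by
  classical
  have hp : p.Prime := Fact.out
  obtain ⟨a, m, hm, hcard⟩ := Nat.exists_eq_pow_mul_and_not_dvd (Nat.card_pos (α := G)).ne' p hp.ne_one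
  have hm0 : m ≠ 0 := by
    rintro rfl
    exact hm (dvd_zero p)
  have hmk : (m : k) ≠ 0 := fun h => hm ((CharP.cast_eq_zero_iff k p m).1 h)
  have : NeZero (m : k) := ⟨hmk⟩
  have : NeZero m := ⟨hm0⟩
  -- values of ν
  have hν : ∀ g, ((ν g : kˣ) : k) ^ m = 1 := by
    intro g
    have h1 : ((ν g : kˣ) : k) ^ (p ^ a * m) = 1 := by
      rw [← hcard, ← Units.val_pow_eq_pow_val, ← map_pow, pow_card_eq_one', map_one, Units.val_one]
    rw [mul_comm, pow_mul] at h1
    have h2 : (((ν g : kˣ) : k) ^ m - 1) ^ p ^ a = 0 := by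
      rw [sub_pow_char_pow, h1, one_pow, sub_self]
    exact sub_eq_zero.1 (pow_eq_zero_iff (pow_ne_zero _ hp.ne_zero) |>.1 h2)
  -- a primitive root in ℂ
  obtain ⟨ζ, hζ⟩ : ∃ ζ : ℂ, IsPrimitiveRoot ζ m := ⟨_, Complex.isPrimitiveRoot_exp m hm0⟩
  have hζi : IsIntegral ℤ ζ := hζ.isIntegral (Nat.pos_of_ne_zero hm0)
  let ζ' : integralClosure ℤ ℂ := ⟨ζ, hζi⟩
  have hroot : (Polynomial.cyclotomic m (integralClosure ℤ ℂ)).IsRoot ζ' := by
    have h1 : (Polynomial.cyclotomic m ℂ).IsRoot ζ := hζ.isRoot_cyclotomic (Nat.pos_of_ne_zero hm0)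
    rw [Polynomial.IsRoot.def] at h1 ⊢
    apply Subtype.ext
    have h2 := Polynomial.hom_eval₂ (Polynomial.cyclotomic m (integralClosure ℤ ℂ)) (RingHom.id _)
      (algebraMap (integralClosure ℤ ℂ) ℂ) ζ'
    rw [← Polynomial.eval₂_id]
    change algebraMap (integralClosure ℤ ℂ) ℂ _ = 0
    rw [h2, RingHom.comp_id, ← Polynomial.eval_map, Polynomial.map_cyclotomic]
    exact h1
  have hω : IsPrimitiveRoot (rho ζ') m := by
    rw [← Polynomial.isRoot_cyclotomic_iff, ← Polynomial.map_cyclotomic m rho]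
    exact hroot.map
  choose i hi hiν using fun g => hω.eq_pow_of_pow_eq_one (hν g)
  have hpow : ∀ a b : ℕ, rho ζ' ^ a = rho ζ' ^ b → ζ ^ a = ζ ^ b := by
    intro a b hab
    have h1 : ∀ c : ℕ, rho ζ' ^ (c % m) = rho ζ' ^ c := fun c => by
      conv_rhs => rw [← Nat.mod_add_div c m, pow_add, pow_mul, hω.pow_eq_one, one_pow, mul_one]
    have h2 : ∀ c : ℕ, ζ ^ (c % m) = ζ ^ c := fun c => by
      conv_rhs => rw [← Nat.mod_add_div c m, pow_add, pow_mul, hζ.pow_eq_one, one_pow, mul_one]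
    have h3 := hω.pow_inj (Nat.mod_lt a (Nat.pos_of_ne_zero hm0))
      (Nat.mod_lt b (Nat.pos_of_ne_zero hm0)) (by rw [h1, h1, hab])
    rw [← h2 a, ← h2 b, h3]
  have hζ0 : ζ ≠ 0 := hζ.ne_zero hm0
  let z : ℂˣ := Units.mk0 ζ hζ0
  have hz : ∀ n : ℕ, ((z ^ n : ℂˣ) : ℂ) = ζ ^ n := fun n => by
    rw [Units.val_pow_eq_pow_val]
    rfl
  refine ⟨{ toFun := fun g => z ^ i g, map_one' := ?_, map_mul' := fun g h => ?_ }, ?_, ?_, ?_⟩
  · apply Units.ext
    rw [hz, Units.val_one, ← pow_zero ζ]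
    apply hpow
    rw [hiν, map_one, Units.val_one, pow_zero]
  · apply Units.ext
    rw [Units.val_mul, hz, hz, hz, ← pow_add]
    apply hpow
    rw [hiν, pow_add, hiν, hiν, map_mul, Units.val_mul]
  · intro g
    change IsIntegral ℤ ((z ^ i g : ℂˣ) : ℂ)
    rw [hz]
    exact hζi.pow _
  · intro g
    change red rho ((z ^ i g : ℂˣ) : ℂ) = _
    rw [hz, red_of_isIntegral rho (hζi.pow _)]
    have : (⟨ζ ^ i g, hζi.pow _⟩ : integralClosure ℤ ℂ) = ζ' ^ i g := rfl
    rw [this, map_pow, hiν]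
  · rintro g ⟨n, hn⟩
    change z ^ i g = 1
    have h1 : (rho ζ' ^ i g) ^ p ^ n = 1 := by
      rw [hiν, ← Units.val_pow_eq_pow_val, ← map_pow, hn, map_one, Units.val_one]
    have h2 : rho ζ' ^ i g = 1 := by
      have h3 : (rho ζ' ^ i g - 1) ^ p ^ n = 0 := by
        rw [sub_pow_char_pow, h1, one_pow, sub_self]
      exact sub_eq_zero.1 (pow_eq_zero_iff (pow_ne_zero _ hp.ne_zero) |>.1 h3)
    apply Units.ext
    rw [hz, Units.val_one, ← pow_zero ζ]
    apply hpow
    rw [h2, pow_zero]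

omit [Fact (Nat.Prime p)] [CharP k p] in
theorem IsLift.inv {rho : integralClosure ℤ ℂ →+* k} {ν : G →* kˣ} {μ : G →* ℂˣ}
    (h : IsLift p rho ν μ) : IsLift p rho ν⁻¹ μ⁻¹ := by
  have e1 : ∀ g, μ⁻¹ g = μ g⁻¹ := fun g => by rw [map_inv]; rfl
  have e2 : ∀ g, ν⁻¹ g = ν g⁻¹ := fun g => by rw [map_inv]; rfl
  refine ⟨fun g => ?_, fun g => ?_, fun g hg => ?_⟩
  · rw [e1]
    exact h.int _
  · rw [e1, e2]
    exact h.red_eq _
  · rw [e1]
    apply h.triv
    obtain ⟨n, hn⟩ := hg
    exact ⟨n, by rw [inv_pow, hn, inv_one]⟩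

end Lift

section Rep

variable {Γ : Type*} [Group Γ] {V : Type*} [AddCommGroup V] [Module ℂ V]

/-- The representation μ ⊗ σ for a linear character μ. -/
noncomputable def twRep (μ : Γ →* ℂˣ) (σ : Representation ℂ Γ V) : Representation ℂ Γ V where
  toFun g := ((μ g : ℂˣ) : ℂ) • σ g
  map_one' := by simp
  map_mul' g h := by
    ext v
    simp [smul_smul, mul_comm]

theorem twRep_apply (μ : Γ →* ℂˣ) (σ : Representation ℂ Γ V) (g : Γ) (v : V) :
    twRep μ σ g v = ((μ g : ℂˣ) : ℂ) • σ g v := rfl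

theorem irr_twRep (μ : Γ →* ℂˣ) (σ : Representation ℂ Γ V) [h : σ.IsIrreducible] :
    (twRep μ σ).IsIrreducible := by
  have := irr_nontrivial σ
  apply irr_of_forall
  intro W hW
  apply irr_bot_or_top σ
  intro g v hv
  have h1 := W.smul_mem ((μ g : ℂˣ) : ℂ)⁻¹ (hW g v hv)
  rw [twRep_apply, smul_smul, inv_mul_cancel₀ (Units.ne_zero _), one_smul] at h1
  exact h1

theorem char_twRep (μ : Γ →* ℂˣ) (σ : Representation ℂ Γ V) (g : Γ) :
    (twRep μ σ).character g = ((μ g : ℂˣ) : ℂ) * σ.character g := by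
  change LinearMap.trace ℂ V (((μ g : ℂˣ) : ℂ) • σ g) = _
  rw [map_smul]
  rfl

theorem isIrrChar_tw {Γ : Type u} [Group Γ] (μ : Γ →* ℂˣ) {f : Γ → ℂ} (hf : IsIrrChar Γ f) :
    IsIrrChar Γ (fun x => ((μ x : ℂˣ) : ℂ) * f x) := by
  obtain ⟨n, σ, hσ, rfl⟩ := hf
  exact ⟨n, twRep μ σ, irr_twRep μ σ, funext fun g => char_twRep μ σ g⟩

end Rep

section Wt

variable {k : Type v} [Field k] {p : ℕ} {G : Type u} [Group G]

/-- The linear character of N_G(Q)/Q induced by μ. -/
noncomputable def quotChar (μ : G →* ℂˣ) (Q : Subgroup G) (hQ : ∀ x ∈ Q, μ x = 1) :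
    (normalizer (Q : Set G)) ⧸ (Q.subgroupOf (normalizer (Q : Set G))) →* ℂˣ :=
  QuotientGroup.lift (Q.subgroupOf (normalizer (Q : Set G)))
    (μ.comp (normalizer (Q : Set G)).subtype) (fun x hx => hQ x hx)

theorem triv_of_lift {μ : G →* ℂˣ} (hμ : ∀ g : G, (∃ n : ℕ, g ^ p ^ n = 1) → μ g = 1)
    {Q : Subgroup G} (hQ : IsPGroup p Q) : ∀ x ∈ Q, μ x = 1 := by
  intro x hx
  obtain ⟨n, hn⟩ := hQ ⟨x, hx⟩
  exact hμ x ⟨n, congrArg Subtype.val hn⟩

/-- The twist (Q, μ φ) of the weight (Q, φ). -/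
noncomputable def twW (μ : G →* ℂˣ) (hμ : ∀ g : G, (∃ n : ℕ, g ^ p ^ n = 1) → μ g = 1)
    (w : Weight p G) : Weight p G where
  Q := w.Q
  phi := fun x => ((quotChar μ w.Q (triv_of_lift hμ w.isPGroup) x : ℂˣ) : ℂ) * w.phi x
  isPGroup := w.isPGroup
  irr := isIrrChar_tw _ w.irr
  defectZero := by
    obtain ⟨d, h1, h2⟩ := w.defectZero
    exact ⟨d, by rw [map_one, Units.val_one, one_mul, h1], h2⟩

theorem infl_twW (μ : G →* ℂˣ) (hμ : ∀ g : G, (∃ n : ℕ, g ^ p ^ n = 1) → μ g = 1)
    (w : Weight p G) (x : normalizer (w.Q : Set G)) :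
    (twW μ hμ w).infl x = ((μ (x : G) : ℂˣ) : ℂ) * w.infl x := rfl

theorem weight_ext {w w' : Weight p G} (hQ : w.Q = w'.Q)
    (h : ∀ (x : normalizer (w.Q : Set G)) (y : normalizer (w'.Q : Set G)), (x : G) = y →
      w.infl x = w'.infl y) : w = w' := by
  obtain ⟨Q, phi, h1, h2, h3⟩ := w
  obtain ⟨Q', phi', h1', h2', h3'⟩ := w'
  change Q = Q' at hQ
  subst hQ
  have : phi = phi' := by
    ext x
    obtain ⟨x, rfl⟩ := QuotientGroup.mk_surjective x
    exact h x x rfl
  subst this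
  rfl

theorem twW_twW (μ μ' : G →* ℂˣ) (hμ : ∀ g : G, (∃ n : ℕ, g ^ p ^ n = 1) → μ g = 1)
    (hμ' : ∀ g : G, (∃ n : ℕ, g ^ p ^ n = 1) → μ' g = 1) (h : μ * μ' = 1) (w : Weight p G) :
    twW μ hμ (twW μ' hμ' w) = w := by
  refine weight_ext rfl fun x y hxy => ?_
  have hxy' : x = y := Subtype.ext hxy
  subst hxy'
  have h0 := infl_twW μ hμ (twW μ' hμ' w) x
  have h1 : (twW μ' hμ' w).infl x = ((μ' (x : G) : ℂˣ) : ℂ) * w.infl x := infl_twW μ' hμ' w x
  have h2 : μ (x : G) * μ' (x : G) = 1 := DFunLike.congr_fun h (x : G)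
  have h3 : ((μ (x : G) : ℂˣ) : ℂ) * (((μ' (x : G) : ℂˣ) : ℂ) * w.infl x) = w.infl x := by
    rw [← mul_assoc, ← Units.val_mul, h2, Units.val_one, one_mul]
  exact h0.trans ((congrArg (fun t => ((μ (x : G) : ℂˣ) : ℂ) * t) h1).trans h3)

/-- The twist is a bijection on weights. -/
noncomputable def twWE (μ : G →* ℂˣ) (hμ : ∀ g : G, (∃ n : ℕ, g ^ p ^ n = 1) → μ g = 1)
    (hμ' : ∀ g : G, (∃ n : ℕ, g ^ p ^ n = 1) → μ⁻¹ g = 1) : Weight p G ≃ Weight p G where
  toFun := twW μ hμ
  invFun := twW μ⁻¹ hμ'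
  left_inv w := twW_twW _ _ _ _ (by ext; simp) w
  right_inv w := twW_twW _ _ _ _ (by ext; simp) w

theorem rel_twW (μ : G →* ℂˣ) (hμ : ∀ g : G, (∃ n : ℕ, g ^ p ^ n = 1) → μ g = 1)
    (w w' : Weight p G) :
    (weightSetoid p G).r (twW μ hμ w) (twW μ hμ w') ↔ (weightSetoid p G).r w w' := by
  have hc : ∀ g x : G, μ (g * x * g⁻¹) = μ x := fun g x => by
    rw [map_mul, map_mul, map_inv, mul_comm (μ g), mul_assoc, mul_inv_cancel, mul_one]
  constructor
  · rintro ⟨g, hQ, hf⟩
    refine ⟨g, hQ, fun x y hxy => ?_⟩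
    have h1 := hf x y hxy
    have e1 : (twW μ hμ w').infl y = ((μ (y : G) : ℂˣ) : ℂ) * w'.infl y := infl_twW μ hμ w' y
    have e2 : (twW μ hμ w).infl x = ((μ (x : G) : ℂˣ) : ℂ) * w.infl x := infl_twW μ hμ w x
    rw [e1, e2, hxy, hc] at h1
    exact mul_left_cancel₀ (Units.ne_zero _) h1
  · rintro ⟨g, hQ, hf⟩
    refine ⟨g, hQ, fun x y hxy => ?_⟩
    have e1 : (twW μ hμ w').infl y = ((μ (y : G) : ℂˣ) : ℂ) * w'.infl y := infl_twW μ hμ w' y
    have e2 : (twW μ hμ w).infl x = ((μ (x : G) : ℂˣ) : ℂ) * w.infl x := infl_twW μ hμ w x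
    rw [e1, e2, hxy, hc, hf x y hxy]

end Wt

section Bel

variable {k : Type v} [Field k] {p : ℕ} {G : Type u} [Group G]

theorem red_mul {rho : integralClosure ℤ ℂ →+* k} {a b : ℂ} (ha : IsIntegral ℤ a)
    (hb : IsIntegral ℤ b) : red rho (a * b) = red rho a * red rho b := by
  rw [red_of_isIntegral rho ha, red_of_isIntegral rho hb, red_of_isIntegral rho (ha.mul hb),
    ← map_mul]
  rfl

theorem blockChar_tw [Finite G] {rho : integralClosure ℤ ℂ →+* k} {ν : G →* kˣ} {μ : G →* ℂˣ}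
    (h : IsLift p rho ν μ) (w : Weight p G) (z : MonoidAlgebra k G) :
    blockChar rho (twW μ h.triv w).infl (resCoeff (normalizer (w.Q : Set G)) z) =
      blockChar rho w.infl (resCoeff (normalizer (w.Q : Set G)) (tw ν z)) := by
  classical
  have : Fintype (normalizer (w.Q : Set G)) := Fintype.ofFinite _
  have : Fintype (ConjClasses (normalizer (w.Q : Set G))) := Fintype.ofFinite _
  have hirr : IsIrrChar (normalizer (w.Q : Set G)) w.infl :=
    isIrrChar_comp (QuotientGroup.mk' (w.Q.subgroupOf (normalizer (w.Q : Set G))))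
      (QuotientGroup.mk'_surjective _) w.irr
  refine (blockChar_eq_sum rho (H := normalizer (w.Q : Set G)) (twW μ h.triv w).infl
    (resCoeff (normalizer (w.Q : Set G)) z)).trans ?_
  rw [blockChar_eq_sum]
  refine Finset.sum_congr rfl fun C _ => ?_
  rw [resCoeff_coeff, resCoeff_coeff, coeff_tw]
  have e1 : ∀ x : normalizer (w.Q : Set G),
      (twW μ h.triv w).infl x = ((μ (x : G) : ℂˣ) : ℂ) * w.infl x := infl_twW μ h.triv w
  have e2 : (Nat.card C.carrier : ℂ) * (twW μ h.triv w).infl C.out / (twW μ h.triv w).infl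
      (1 : normalizer (w.Q : Set G)) = ((μ (C.out : normalizer (w.Q : Set G)) : ℂˣ) : ℂ) *
        ((Nat.card C.carrier : ℂ) * w.infl C.out / w.infl 1) := by
    rw [e1, e1]
    have : ((μ ((1 : normalizer (w.Q : Set G)) : G) : ℂˣ) : ℂ) = 1 := by
      rw [OneMemClass.coe_one, map_one, Units.val_one]
    rw [this, one_mul]
    ring
  have h4 := isIntegral_isIrrChar hirr C C.out (mem_carrier_out C)
  have e3 : red rho ((Nat.card C.carrier : ℂ) * (twW μ h.triv w).infl C.out /
      (twW μ h.triv w).infl (1 : normalizer (w.Q : Set G))) =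
      (ν ((C.out : normalizer (w.Q : Set G)) : G) : k) *
        red rho ((Nat.card C.carrier : ℂ) * w.infl C.out / w.infl 1) := by
    rw [e2, red_mul (h.int _) h4, h.red_eq]
  refine (congrArg (fun t => z.coeff (C.out : normalizer (w.Q : Set G)) * t) e3).trans ?_
  rw [mul_assoc]

theorem belongs_iff_mem {rho : integralClosure ℤ ℂ →+* k} {B : MonoidAlgebra k G} {w : Weight p G} :
    w.Belongs rho B ↔ ∀ m : SimpleIn B, ∀ z ∈ Set.center (MonoidAlgebra k G),
      ∀ y : MonoidAlgebra k G, z * y - algebraMap k (MonoidAlgebra k G)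
        (blockChar rho w.infl (resCoeff _ z)) * y ∈ m.1 := by
  constructor
  · intro h m z hz y
    have := h m z hz (Submodule.Quotient.mk y)
    rwa [← Submodule.Quotient.mk_smul, ← Submodule.Quotient.mk_smul, Submodule.Quotient.eq,
      smul_eq_mul, smul_eq_mul] at this
  · intro h m z hz x
    obtain ⟨y, rfl⟩ := Submodule.Quotient.mk_surjective _ x
    rw [← Submodule.Quotient.mk_smul, ← Submodule.Quotient.mk_smul, Submodule.Quotient.eq,
      smul_eq_mul, smul_eq_mul]
    exact h m z hz y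

theorem belongs_tw [Finite G] {rho : integralClosure ℤ ℂ →+* k} {ν : G →* kˣ} {μ : G →* ℂˣ}
    (h : IsLift p rho ν μ) {B : MonoidAlgebra k G} {w : Weight p G} (hw : w.Belongs rho B) :
    (twW μ h.triv w).Belongs rho (tw ν⁻¹ B) := by
  rw [belongs_iff_mem] at hw ⊢
  intro m z hz y
  have hz' : tw ν z ∈ Set.center (MonoidAlgebra k G) := center_map (twE ν) hz
  have h1 : tw ν⁻¹ (tw ν z * tw ν y - algebraMap k (MonoidAlgebra k G)
      (blockChar rho w.infl (resCoeff (normalizer (w.Q : Set G)) (tw ν z))) * tw ν y) ∈ m.1 :=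
    hw (simpleEquiv (twE ν⁻¹) B m) (tw ν z) hz' (tw ν y)
  rw [map_sub, map_mul, map_mul, tw_tw, tw_tw, inv_mul_hom, tw_one,
    tw_one, AlgHom.commutes, ← blockChar_tw h w z] at h1
  exact h1

theorem numWeights_tw [Finite G] {rho : integralClosure ℤ ℂ →+* k} {ν : G →* kˣ} {μ : G →* ℂˣ}
    (h : IsLift p rho ν μ) (B : MonoidAlgebra k G) :
    numWeights p rho (tw ν⁻¹ B) = numWeights p rho B := by
  symm
  let e : {w : Weight p G // w.Belongs rho B} ≃ {w : Weight p G // w.Belongs rho (tw ν⁻¹ B)} :=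
    Equiv.subtypeEquiv (twWE μ h.triv h.inv.triv) fun w => by
      refine ⟨fun hw => belongs_tw h hw, fun hw => ?_⟩
      have h1 := belongs_tw h.inv hw
      have e1 : twW μ⁻¹ h.inv.triv (twW μ h.triv w) = w :=
        (twWE μ h.triv h.inv.triv).left_inv w
      have e2 : tw (ν⁻¹)⁻¹ (tw ν⁻¹ B) = B := by
        rw [tw_tw, inv_mul_hom, tw_one]
      have h2 : (twW μ⁻¹ h.inv.triv (twW μ h.triv w)).Belongs rho (tw (ν⁻¹)⁻¹ (tw ν⁻¹ B)) := h1
      rw [e1, e2] at h2
      exact h2
  refine Nat.card_congr (Quotient.congr e fun w w' => ?_)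
  exact (rel_twW μ h.triv w.1 w'.1).symm

end Bel

section Main

variable {k : Type v} [Field k] {p : ℕ} [Fact p.Prime] [CharP k p] {G : Type u} [Group G]

theorem isBlock_tw (ν : G →* kˣ) {B : MonoidAlgebra k G} (hB : IsBlock k G B) :
    IsBlock k G (tw ν B) := isBlock_map (twE ν) hB

theorem numSimple_tw (ν : G →* kˣ) (B : MonoidAlgebra k G) : numSimple (tw ν B) = numSimple B :=
  numSimple_map (twE ν) B

theorem numWeights_tw' [Finite G] (rho : integralClosure ℤ ℂ →+* k) (ν : G →* kˣ)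
    (B : MonoidAlgebra k G) : numWeights p rho (tw ν B) = numWeights p rho B := by
  obtain ⟨μ, hμ⟩ := exists_lift (p := p) rho ν⁻¹
  have h1 := numWeights_tw hμ B
  have h2 : (ν⁻¹)⁻¹ = ν := by ext; simp
  rwa [h2] at h1

theorem aug_tw (ν : G →* kˣ) (B : MonoidAlgebra k G) :
    aug (tw ν B) = B.coeff.sum (fun g a => a * (ν g : k)) := by
  induction B using MonoidAlgebra.induction_linear with
  | zero => simp
  | add a b ha hb =>
    rw [map_add, map_add, ha, hb, MonoidAlgebra.coeff_add, Finsupp.sum_add_index']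
    · simp
    · intro g a b; ring
  | single h r =>
    rw [tw_single, aug_single]
    simp

theorem smul_comm_quot (m : Ideal (MonoidAlgebra k G)) (c : k) (a : MonoidAlgebra k G)
    (x : MonoidAlgebra k G ⧸ m) : a • (c • x) = c • (a • x) := by
  obtain ⟨y, rfl⟩ := Submodule.Quotient.mk_surjective _ x
  rw [← Submodule.Quotient.mk_smul, ← Submodule.Quotient.mk_smul, ← Submodule.Quotient.mk_smul,
    ← Submodule.Quotient.mk_smul, smul_eq_mul, smul_eq_mul, mul_smul_comm]

theorem assoc_quot (m : Ideal (MonoidAlgebra k G)) (c : k) (a : MonoidAlgebra k G)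
    (x : MonoidAlgebra k G ⧸ m) : (c • a) • x = c • (a • x) := by
  obtain ⟨y, rfl⟩ := Submodule.Quotient.mk_surjective _ x
  rw [← Submodule.Quotient.mk_smul, ← Submodule.Quotient.mk_smul,
    ← Submodule.Quotient.mk_smul, smul_eq_mul, smul_eq_mul, smul_mul_assoc]

/-- A one-dimensional simple module in B gives a linear character ν with Σ_g B_g ν(g) = 1. -/
theorem exists_char_of_finrank {B : MonoidAlgebra k G} (m : SimpleIn B)
    (h : Module.finrank k (MonoidAlgebra k G ⧸ m.1) = 1) : ∃ ν : G →* kˣ, aug (tw ν B) = 1 := by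
  set v : MonoidAlgebra k G ⧸ m.1 := Submodule.Quotient.mk 1 with hv
  have hv0 : v ≠ 0 := by
    intro h0
    rw [hv, Submodule.Quotient.mk_eq_zero] at h0
    exact m.2.1.ne_top ((Ideal.eq_top_iff_one _).2 h0)
  have hsp := (finrank_eq_one_iff_of_nonzero' v hv0).1 h
  choose c hc using fun g : G => hsp (MonoidAlgebra.single g (1 : k) • v)
  have hinj : ∀ a b : k, a • v = b • v → a = b := fun a b hab => smul_left_injective k hv0 hab
  have hc1 : c 1 = 1 := by
    apply hinj
    rw [hc, one_smul]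
    exact one_smul (MonoidAlgebra k G) v
  have hcm : ∀ g h, c (g * h) = c g * c h := by
    intro g h
    apply hinj
    have : MonoidAlgebra.single (g * h) (1 : k) =
        MonoidAlgebra.single g (1 : k) * MonoidAlgebra.single h (1 : k) := by
      rw [MonoidAlgebra.single_mul_single, one_mul]
    rw [hc, this, mul_smul, ← hc h, smul_comm_quot, ← hc g, smul_smul, mul_comm]
  let ν : G →* kˣ :=
    { toFun := fun g => ⟨c g, c g⁻¹, by rw [← hcm, mul_inv_cancel, hc1],
        by rw [← hcm, inv_mul_cancel, hc1]⟩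
      map_one' := Units.ext hc1
      map_mul' := fun g h => Units.ext (hcm g h) }
  have key : ∀ a : MonoidAlgebra k G, a • v = (aug (tw ν a)) • v := by
    intro a
    induction a using MonoidAlgebra.induction_linear with
    | zero => rw [map_zero, map_zero, zero_smul, zero_smul]
    | add a b ha hb => rw [add_smul, ha, hb, map_add, map_add, add_smul]
    | single g r =>
      have e1 : MonoidAlgebra.single g r = r • MonoidAlgebra.single g (1 : k) := by simp
      have e2 : ((ν g : kˣ) : k) = c g := rfl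
      rw [tw_single, aug_single, e1, assoc_quot, ← hc, smul_smul, e2]
  refine ⟨ν, hinj _ _ ?_⟩
  rw [← key B, one_smul]
  exact m.2.2 v

/-- Conversely. -/
theorem exists_finrank_of_char {B : MonoidAlgebra k G} (ν : G →* kˣ) (h : aug (tw ν B) = 1) :
    ∃ m : SimpleIn B, Module.finrank k (MonoidAlgebra k G ⧸ m.1) = 1 := by
  let φ : MonoidAlgebra k G →ₐ[k] k := (aug (k := k) (G := G)).comp (tw ν)
  have hφ : ∀ a, φ a = aug (tw ν a) := fun a => rfl
  have hmem : ∀ x, x ∈ RingHom.ker φ ↔ aug (tw ν x) = 0 := fun x => RingHom.mem_ker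
  have hmax : (RingHom.ker φ).IsMaximal := by
    have h1 := comap_max (twE ν) (ker_aug_maximal (k := k) (G := G))
    have h2 : RingHom.ker φ = Ideal.comap ((twE ν : MonoidAlgebra k G ≃+* MonoidAlgebra k G) :
        MonoidAlgebra k G →+* MonoidAlgebra k G) (RingHom.ker (aug : MonoidAlgebra k G →ₐ[k] k)) := by
      ext x
      exact Iff.rfl
    rw [h2]
    exact h1
  refine ⟨⟨RingHom.ker φ, hmax, acts_iff.2 fun a => ?_⟩, ?_⟩
  · rw [hmem, map_sub, map_sub, map_mul, map_mul, h, one_mul, sub_self]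
  · have hv0 : (Submodule.Quotient.mk 1 : MonoidAlgebra k G ⧸ RingHom.ker φ) ≠ 0 := by
      intro h0
      rw [Submodule.Quotient.mk_eq_zero] at h0
      exact hmax.ne_top ((Ideal.eq_top_iff_one _).2 h0)
    rw [finrank_eq_one_iff_of_nonzero' _ hv0]
    intro w
    obtain ⟨y, rfl⟩ := Submodule.Quotient.mk_surjective _ w
    refine ⟨φ y, ?_⟩
    rw [← Submodule.Quotient.mk_smul, Submodule.Quotient.eq, RingHom.mem_ker, map_sub, map_smul,
      map_one]
    simp

/-- The theorem on linear blocks. -/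
theorem linear_blocks [IsAlgClosed k] [Finite G] (rho : integralClosure ℤ ℂ →+* k)
    {B : MonoidAlgebra k G} (hB : IsBlock k G B)
    (h : ∃ m : SimpleIn B, Module.finrank k (MonoidAlgebra k G ⧸ m.1) = 1) :
    (numSimple B = 1 ↔ numWeights p rho B = 1) ∧ (numWeights p rho B = 1 ↔ PNilpotent p G) := by
  obtain ⟨m, hm⟩ := h
  obtain ⟨ν, hν⟩ := exists_char_of_finrank m hm
  have h1 := isBlock_tw ν hB
  have h2 : IsPrincipal (tw ν B) := (aug_eq_sum _).symm.trans hν
  rw [← numSimple_tw ν B, ← numWeights_tw' rho ν B]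
  exact ⟨(numSimple_iff h1 h2).trans (numWeights_iff rho h1 h2).symm, numWeights_iff rho h1 h2⟩

/-- Every linear character belongs to a block. -/
theorem exists_linear_block [Finite G] (ν : G →* kˣ) :
    ∃ B : MonoidAlgebra k G, IsBlock k G B ∧ B.coeff.sum (fun g a => a * (ν g : k)) = 1 := by
  obtain ⟨B, hB, h1⟩ := exists_principal (k := k) (G := G)
  refine ⟨tw ν⁻¹ B, isBlock_tw _ hB, ?_⟩
  rw [← aug_tw, tw_tw, mul_inv_hom, tw_one, h1]

end Main

end Vale.Agent.P179
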